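import Vale.Agent.P095.NU.ZKer
import Vale.Agent.P095.Intertwine

/-!
# P095, non-unital algebras: from the intertwining to cocycle conjugacy
-/

namespace Vale.Agent.P095.NU

open VAgent.P101 Vale.Agent.P101.JS Vale.Agent.P095 Vale.Agent.P095.NU.Maps TopologicalSpace
open Vale.Agent.P095.NUCentral (kerBlk)
open scoped ComplexOrder CStarAlgebra

noncomputable section

universe u v

/-- The intertwining inside `zKer`. -/
theorem exists_intertwine {E : Type u} [CStarAlgebra E] [PartialOrder E] [StarOrderedRing E]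
    [Nontrivial E] [SeparableSpace E] (χ : E →⋆ₐ[ℂ] ℂ) {G : Type v} [Group G] [Countable G]
    (β : G →* (E ≃⋆ₐ[ℂ] E)) (hβ : ∀ g a, χ (β g a) = χ a) (hstage : StageStatement χ β) :
    ∃ (Φ : E ≃⋆ₐ[ℂ] zKer χ) (U : G → zKer χ),
      (∀ g, star (U g) * U g = 1 ∧ U g * star (U g) = 1) ∧
      (∀ g h, (U (g * h) : ZLim E) = U g * zAct (β g) (U h : ZLim E)) ∧
      ∀ g a, (Φ (β g a) : ZLim E) = U g * zAct (β g) (Φ a : ZLim E) * star (U g : ZLim E) := by
  obtain ⟨e, he⟩ := exists_surjective_nat G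
  have : SecondCountableTopology (ZLim E) := UniformSpace.secondCountable_of_separable _
  have : SeparableSpace (zKer χ) := by
    have : SecondCountableTopology (zKer χ) := TopologicalSpace.Subtype.secondCountableTopology _
    infer_instance
  let c : E →⋆ₐ[ℂ] zKer χ := StarAlgHom.codRestrict (toZLim E) (zKer χ) (toZLim_mem χ)
  let b : G → (zKer χ →⋆ₐ[ℂ] zKer χ) := fun g =>
    StarAlgHom.codRestrict ((zAct (β g)).comp (zKer χ).subtype) (zKer χ)
      fun y => zAct_mem χ β hβ g y.2
  obtain ⟨Φ, U, hU, hcoc, hconj⟩ := intertwine_act e he (fun g a => β g a) b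
    (fun g h y => Subtype.ext (by
      show zAct (β (g * h)) (y : ZLim E) = zAct (β g) (zAct (β h) (y : ZLim E))
      rw [map_mul]; exact zAct_mul _ _ _))
    c (fun x y hxy => toZLim_injective (congrArg Subtype.val hxy))
    (fun g a => Subtype.ext (zAct_toZLim (β g) a)) fun F X K ε hε => by
      obtain ⟨u, h1, h2, h3, h4, h5⟩ := exists_unitary_zKer χ β hstage K F X ε hε
      exact ⟨u, h1, h2, h3, h4, h5⟩
  exact ⟨Φ, U, hU, fun g h => congrArg Subtype.val (hcoc g h),
    fun g a => congrArg Subtype.val (hconj g a)⟩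

attribute [local instance 50] CStarAlgebra.spectralOrder CStarAlgebra.spectralOrderedRing

variable {A : Type u} [NonUnitalCStarAlgebra A]

instance nontrivial_unitization : Nontrivial (Unitization ℂ A) :=
  ⟨⟨0, 1, fun h => zero_ne_one (α := ℂ) (congrArg (fun z : Unitization ℂ A => z.fst) h)⟩⟩

/-- The identification carries the character to the scalar part. -/
theorem zScalar_iso (hchar : ∀ f : A →⋆ₙₐ[ℂ] ℂ, f = 0)
    (Φ : Unitization ℂ A ≃⋆ₐ[ℂ] zKer (fstChar A)) (x : Unitization ℂ A) :
    zScalar (fstChar A) (Φ x : ZLim (Unitization ℂ A)) = algebraMap ℂ _ x.fst := by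
  have : Nontrivial (ZLim (Unitization ℂ A)) :=
    (toZLim_injective (A := Unitization ℂ A)).nontrivial
  have hi := (algebraMap ℂ (ZLim (Unitization ℂ A))).injective
  choose r hr using fun y => (mem_zKer (fstChar A)).1 (Φ y).2
  let κ : Unitization ℂ A →⋆ₐ[ℂ] ℂ :=
    { toFun := r
      map_one' := hi (by rw [hr, map_one Φ, OneMemClass.coe_one, map_one, map_one])
      map_mul' := fun a b => hi (by
        rw [hr, map_mul Φ, MulMemClass.coe_mul, map_mul, map_mul, hr, hr])
      map_zero' := hi (by rw [hr, map_zero Φ, ZeroMemClass.coe_zero, map_zero, map_zero])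
      map_add' := fun a b => hi (by
        rw [hr, map_add Φ, AddMemClass.coe_add, map_add, map_add, hr, hr])
      commutes' := fun c => hi (by
        rw [hr, AlgHomClass.commutes Φ, Algebra.algebraMap_self_apply]
        exact AlgHomClass.commutes (zScalar (fstChar A)) c)
      map_star' := fun a => hi (by
        rw [hr, map_star Φ, StarMemClass.coe_star, map_star, ← hr, algebraMap_star_comm]) }
  have h0 : ∀ a : A, κ (a : Unitization ℂ A) = 0 := fun a =>
    congrArg (fun f : A →⋆ₙₐ[ℂ] ℂ => f a)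
      (hchar ((κ : Unitization ℂ A →⋆ₙₐ[ℂ] ℂ).comp (Unitization.inrNonUnitalStarAlgHom ℂ A)))
  have hk : κ x = x.fst := by
    conv_lhs => rw [← Unitization.inl_fst_add_inr_snd_eq x]
    rw [map_add, h0, add_zero, ← Unitization.algebraMap_eq_inl, AlgHomClass.commutes,
      Algebra.algebraMap_self_apply]
  rw [← hr, show r x = x.fst from hk]

open Classical in
/-- The maps of the stages read off from the identification. -/
def kerStageMap (Φ : Unitization ℂ A ≃⋆ₐ[ℂ] zKer (fstChar A)) (m : ℕ) (f : Stage A m) : A :=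
  if h : ∃ F : kerBlk (fstChar A) (P m) (Q m), sndStage (F : Blk (Unitization ℂ A) (P m) (Q m)) = f then
    (Φ.symm ⟨incl (fun k => conn (Unitization ℂ A) k) m (h.choose : Blk (Unitization ℂ A) (P m) (Q m)),
      incl_mem (fstChar A) (NUCentral.mem_kerBlk.1 h.choose.2)⟩).snd
  else 0

theorem sndStage_injective {m : ℕ} {F F' : kerBlk (fstChar A) (P m) (Q m)}
    (h : sndStage (F : Blk (Unitization ℂ A) (P m) (Q m)) = sndStage (F' : Blk (Unitization ℂ A) (P m) (Q m))) : F = F' :=
  Subtype.ext (blk_ext fun t x y => by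
    rw [← inr_snd (fst_entry F t x y), ← inr_snd (fst_entry F' t x y)]
    exact congrArg (fun a : A => (a : Unitization ℂ A)) (congrFun (congrFun (congrFun h t) x) y))

/-- Every stage with entries in `A` comes from the kernel. -/
theorem exists_sndStage {m : ℕ} {f : Stage A m} (hf : InStage m f) :
    ∃ F : kerBlk (fstChar A) (P m) (Q m), sndStage (F : Blk (Unitization ℂ A) (P m) (Q m)) = f := by
  obtain ⟨hc, ⟨a, ha⟩, b, hb⟩ := hf
  have hE : InStage m (fun t => (f t).map ((↑) : A → Unitization ℂ A)) :=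
    ⟨continuous_matrix fun i j => Unitization.continuous_inr.comp (hc.matrix_elem i j),
      ⟨fun x y => (a x y : Unitization ℂ A), fun x y => by
        show ((f 0 x y : A) : Unitization ℂ A) = _
        rw [ha]; split_ifs <;> simp⟩,
      fun x y => (b x y : Unitization ℂ A), fun x y => by
        show ((f 1 x y : A) : Unitization ℂ A) = _
        rw [hb]; split_ifs <;> simp⟩
  exact ⟨⟨toBlk _ hE, NUCentral.mem_kerBlk.2 (blk_ext fun t i j => by
    simp [mapBlk_apply, mapM_apply, toBlk_apply, fstChar_apply])⟩, rfl⟩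

theorem kerStageMap_spec (hchar : ∀ f : A →⋆ₙₐ[ℂ] ℂ, f = 0)
    (Φ : Unitization ℂ A ≃⋆ₐ[ℂ] zKer (fstChar A)) {m : ℕ}
    (F : kerBlk (fstChar A) (P m) (Q m)) :
    (Φ ((kerStageMap Φ m (sndStage (F : Blk (Unitization ℂ A) (P m) (Q m))) : A) : Unitization ℂ A) :
      ZLim (Unitization ℂ A)) =
        incl (fun k => conn (Unitization ℂ A) k) m (F : Blk (Unitization ℂ A) (P m) (Q m)) := by
  have h : ∃ F' : kerBlk (fstChar A) (P m) (Q m),
      sndStage (F' : Blk (Unitization ℂ A) (P m) (Q m)) = sndStage (F : Blk (Unitization ℂ A) (P m) (Q m)) := ⟨F, rfl⟩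
  rw [kerStageMap, dif_pos h]
  have hF : h.choose = F := sndStage_injective h.choose_spec
  set y : zKer (fstChar A) := ⟨incl (fun k => conn (Unitization ℂ A) k) m
    (h.choose : Blk (Unitization ℂ A) (P m) (Q m)), incl_mem (fstChar A) (NUCentral.mem_kerBlk.1 h.choose.2)⟩
    with hy
  have h0 : (Φ.symm y).fst = 0 := by
    have h1 := zScalar_iso hchar Φ (Φ.symm y)
    rw [Φ.apply_symm_apply] at h1
    have : Nontrivial (ZLim (Unitization ℂ A)) :=
      (toZLim_injective (A := Unitization ℂ A)).nontrivial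
    refine (algebraMap ℂ (ZLim (Unitization ℂ A))).injective (h1.symm.trans ?_)
    show zScalar (fstChar A) (incl (fun k => conn (Unitization ℂ A) k) m _) = _
    rw [zScalar_incl, mapBlk_scalarPart, NUCentral.mem_kerBlk.1 h.choose.2, map_zero, map_zero,
      map_zero]
  rw [inr_snd h0, Φ.apply_symm_apply, hy, hF]

theorem sndStage_step {m : ℕ} (F : kerBlk (fstChar A) (P m) (Q m)) :
    stepMap m (frame m) (sndStage (F : Blk (Unitization ℂ A) (P m) (Q m))) =
      sndStage (NUCentral.kconn (fstChar A) m F : Blk (Unitization ℂ A) (P (m + 1)) (Q (m + 1))) := by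
  funext t
  refine Matrix.ext fun i j => Unitization.inr_injective (R := ℂ) ?_
  rw [inr_stepMap, inr_sndStage, stepMap_eq _ (inStage_ofBlk _), toBlk_ofBlk]
  exact (inr_snd (fst_entry (NUCentral.kconn (fstChar A) m F) t i j)).symm

theorem inStage_stepMap (m : ℕ) (f : Stage A m) (hf : InStage m f) :
    InStage (m + 1) (stepMap m (frame m) f) := by
  obtain ⟨F, rfl⟩ := exists_sndStage hf
  rw [sndStage_step]
  exact inStage_sndStage _

theorem eq_of_image (Φ : Unitization ℂ A ≃⋆ₐ[ℂ] zKer (fstChar A)) {a b : A}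
    (h : (Φ (a : Unitization ℂ A) : ZLim (Unitization ℂ A)) = Φ (b : Unitization ℂ A)) : a = b :=
  Unitization.inr_injective (R := ℂ) (Φ.injective (Subtype.ext h))

theorem image_add (Φ : Unitization ℂ A ≃⋆ₐ[ℂ] zKer (fstChar A)) (a b : A) :
    (Φ ((a + b : A) : Unitization ℂ A) : ZLim (Unitization ℂ A)) =
      Φ (a : Unitization ℂ A) + Φ (b : Unitization ℂ A) := by
  rw [Unitization.inr_add, map_add, AddMemClass.coe_add]

theorem image_mul (Φ : Unitization ℂ A ≃⋆ₐ[ℂ] zKer (fstChar A)) (a b : A) :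
    (Φ ((a * b : A) : Unitization ℂ A) : ZLim (Unitization ℂ A)) =
      Φ (a : Unitization ℂ A) * Φ (b : Unitization ℂ A) := by
  rw [Unitization.inr_mul, map_mul, MulMemClass.coe_mul]

theorem image_smul (Φ : Unitization ℂ A ≃⋆ₐ[ℂ] zKer (fstChar A)) (c : ℂ) (a : A) :
    (Φ ((c • a : A) : Unitization ℂ A) : ZLim (Unitization ℂ A)) =
      c • (Φ (a : Unitization ℂ A) : ZLim (Unitization ℂ A)) := by
  rw [Unitization.inr_smul, map_smul]
  rfl

theorem image_star (Φ : Unitization ℂ A ≃⋆ₐ[ℂ] zKer (fstChar A)) (a : A) :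
    (Φ ((star a : A) : Unitization ℂ A) : ZLim (Unitization ℂ A)) =
      star (Φ (a : Unitization ℂ A) : ZLim (Unitization ℂ A)) := by
  rw [Unitization.inr_star, map_star, StarMemClass.coe_star]

section maps

variable (hchar : ∀ f : A →⋆ₙₐ[ℂ] ℂ, f = 0) (Φ : Unitization ℂ A ≃⋆ₐ[ℂ] zKer (fstChar A))
  {m : ℕ} (F F' : kerBlk (fstChar A) (P m) (Q m))

include hchar

theorem kerStageMap_add :
    kerStageMap Φ m (sndStage (F : Blk (Unitization ℂ A) (P m) (Q m)) +
        sndStage (F' : Blk (Unitization ℂ A) (P m) (Q m))) =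
      kerStageMap Φ m (sndStage (F : Blk (Unitization ℂ A) (P m) (Q m))) +
        kerStageMap Φ m (sndStage (F' : Blk (Unitization ℂ A) (P m) (Q m))) := by
  refine eq_of_image Φ ?_
  rw [← sndStage_add, image_add, kerStageMap_spec hchar Φ F, kerStageMap_spec hchar Φ F']
  exact (kerStageMap_spec hchar Φ (F + F')).trans (map_add _ _ _)

theorem kerStageMap_mul :
    kerStageMap Φ m (sndStage (F : Blk (Unitization ℂ A) (P m) (Q m)) *
        sndStage (F' : Blk (Unitization ℂ A) (P m) (Q m))) =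
      kerStageMap Φ m (sndStage (F : Blk (Unitization ℂ A) (P m) (Q m))) *
        kerStageMap Φ m (sndStage (F' : Blk (Unitization ℂ A) (P m) (Q m))) := by
  refine eq_of_image Φ ?_
  rw [← sndStage_mul, image_mul, kerStageMap_spec hchar Φ F, kerStageMap_spec hchar Φ F']
  exact (kerStageMap_spec hchar Φ (F * F')).trans (map_mul _ _ _)

theorem kerStageMap_smul (c : ℂ) :
    kerStageMap Φ m (c • sndStage (F : Blk (Unitization ℂ A) (P m) (Q m))) =
      c • kerStageMap Φ m (sndStage (F : Blk (Unitization ℂ A) (P m) (Q m))) := by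
  refine eq_of_image Φ ?_
  rw [← sndStage_smul, image_smul, kerStageMap_spec hchar Φ F]
  exact (kerStageMap_spec hchar Φ ⟨c • (F : Blk (Unitization ℂ A) (P m) (Q m)),
    NUCentral.mem_kerBlk.2 (by rw [map_smul, NUCentral.mem_kerBlk.1 F.2, smul_zero])⟩).trans
    (map_smul _ _ _)

theorem kerStageMap_star :
    kerStageMap Φ m (star (sndStage (F : Blk (Unitization ℂ A) (P m) (Q m)))) =
      star (kerStageMap Φ m (sndStage (F : Blk (Unitization ℂ A) (P m) (Q m)))) := by
  refine eq_of_image Φ ?_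
  rw [← sndStage_star, image_star, kerStageMap_spec hchar Φ F]
  exact (kerStageMap_spec hchar Φ (star F)).trans (map_star _ _)

theorem kerStageMap_inj
    (h : kerStageMap Φ m (sndStage (F : Blk (Unitization ℂ A) (P m) (Q m))) =
      kerStageMap Φ m (sndStage (F' : Blk (Unitization ℂ A) (P m) (Q m)))) :
    sndStage (F : Blk (Unitization ℂ A) (P m) (Q m)) =
      sndStage (F' : Blk (Unitization ℂ A) (P m) (Q m)) := by
  refine congrArg sndStage
    (incl_injective (fun k => conn (Unitization ℂ A) k) (fun k => conn_injective k) m ?_)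
  rw [← kerStageMap_spec hchar Φ F, ← kerStageMap_spec hchar Φ F', h]

theorem kerStageMap_step :
    kerStageMap Φ (m + 1) (stepMap m (frame m) (sndStage (F : Blk (Unitization ℂ A) (P m) (Q m)))) =
      kerStageMap Φ m (sndStage (F : Blk (Unitization ℂ A) (P m) (Q m))) := by
  refine eq_of_image Φ ?_
  rw [sndStage_step, kerStageMap_spec hchar Φ F, kerStageMap_spec hchar Φ]
  exact incl_succ (fun k => conn (Unitization ℂ A) k) m (F : Blk (Unitization ℂ A) (P m) (Q m))

omit F F' in
theorem kerStageMap_dense (x : A) {ε : ℝ} (hε : 0 < ε) :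
    ∃ m f, InStage m f ∧ ‖x - kerStageMap Φ m f‖ < ε := by
  obtain ⟨m, X, hX⟩ := exists_incl_near (fun k => conn (Unitization ℂ A) k)
    (Φ (x : Unitization ℂ A) : ZLim (Unitization ℂ A)) (half_pos hε)
  have h0 : zScalar (fstChar A) (Φ (x : Unitization ℂ A) : ZLim (Unitization ℂ A)) = 0 := by
    rw [zScalar_iso hchar, Unitization.fst_inr, map_zero]
  obtain ⟨X', hX'⟩ : ∃ X' : kerBlk (fstChar A) (P m) (Q m),
      (X' : Blk (Unitization ℂ A) (P m) (Q m)) =
        X - mapBlk (P m) (Q m) (scalarPart (fstChar A)) X :=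
    ⟨⟨_, NUCentral.mem_kerBlk.2 (by
      rw [map_sub, mapBlk_scalarPart, NUCentral.mapBlk_scBlk, sub_self])⟩, rfl⟩
  refine ⟨m, sndStage (X' : Blk (Unitization ℂ A) (P m) (Q m)), inStage_sndStage _, ?_⟩
  rw [← Unitization.norm_inr (𝕜 := ℂ), Unitization.inr_sub]
  refine lt_of_le_of_lt (le_of_eq ((NonUnitalStarAlgHom.norm_map Φ Φ.injective _).symm)) ?_
  show ‖(Φ _ : ZLim (Unitization ℂ A))‖ < ε
  rw [map_sub, AddSubgroupClass.coe_sub, kerStageMap_spec hchar Φ X', hX', map_sub,
    ← zScalar_incl]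
  have e : ∀ p q : ZLim (Unitization ℂ A), zScalar (fstChar A) p = 0 →
      p - (q - zScalar (fstChar A) q) = (p - q) - zScalar (fstChar A) (p - q) := fun p q hp => by
    rw [map_sub, hp]; abel
  rw [e _ _ h0]
  refine (norm_sub_le _ _).trans_lt ?_
  have := NonUnitalStarAlgHom.norm_apply_le (zScalar (fstChar A))
    ((Φ (x : Unitization ℂ A) : ZLim (Unitization ℂ A)) -
      incl (fun k => conn (Unitization ℂ A) k) m X)
  linarith

omit F F' in
/-- The maps read off from the identification form a tensor limit structure. -/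
theorem isLimitMaps_kerStageMap : IsLimitMaps frame (kerStageMap Φ) := by
  refine ⟨fun m f g c hf hg => ?_, fun m f hf => ?_, fun x ε hε =>
    kerStageMap_dense hchar Φ x hε⟩
  · obtain ⟨F, rfl⟩ := exists_sndStage hf
    obtain ⟨F', rfl⟩ := exists_sndStage hg
    exact ⟨kerStageMap_add hchar Φ F F', kerStageMap_mul hchar Φ F F',
      kerStageMap_smul hchar Φ F c, kerStageMap_star hchar Φ F, kerStageMap_inj hchar Φ F F'⟩
  · obtain ⟨F, rfl⟩ := exists_sndStage hf
    exact kerStageMap_step hchar Φ F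

end maps

/-- Conjugating back by the unitary of the cocycle. -/
theorem conj_image (Φ : Unitization ℂ A ≃⋆ₐ[ℂ] zKer (fstChar A)) (u : zKer (fstChar A))
    (hu : star u * u = 1) {z : Unitization ℂ A} (T : ZLim (Unitization ℂ A) →⋆ₐ[ℂ] ZLim (Unitization ℂ A))
    {y x₀ x₁ : ZLim (Unitization ℂ A)} (hT : T x₀ = x₁) (hy : y = x₀)
    (hz : (Φ z : ZLim (Unitization ℂ A)) = u * T y * star (u : ZLim (Unitization ℂ A))) :
    x₁ = (Φ (star (Φ.symm u) * z * Φ.symm u) : ZLim (Unitization ℂ A)) := by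
  have h1 : star (u : ZLim (Unitization ℂ A)) * u = 1 := congrArg Subtype.val hu
  rw [map_mul, map_mul, map_star, Φ.apply_symm_apply, MulMemClass.coe_mul, MulMemClass.coe_mul,
    StarMemClass.coe_star, hz, hy, hT]
  simp only [← mul_assoc, h1, one_mul]
  rw [mul_assoc, h1, mul_one]

/-- The stage statement gives equivariant absorption when `A` has no characters. -/
theorem equivariant_of_stage [SeparableSpace (Unitization ℂ A)] {G : Type v} [Group G]
    [Countable G] (β : G →* (Unitization ℂ A ≃⋆ₐ[ℂ] Unitization ℂ A))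
    (hβ : ∀ g x, fstChar A (β g x) = fstChar A x) {α : G → A → A}
    (hαβ : ∀ g (a : A), β g (a : Unitization ℂ A) = (α g a : A))
    (hchar : ∀ f : A →⋆ₙₐ[ℂ] ℂ, f = 0) (hstage : StageStatement (fstChar A) β) :
    IsEquivariantTensorLimit A α frame := by
  obtain ⟨Φ, U, hU, hcoc, hconj⟩ := exists_intertwine (fstChar A) β hβ hstage
  let w : G → Unitization ℂ A := fun g => Φ.symm (U g)
  have hw : ∀ g, star (w g) * w g = 1 ∧ w g * star (w g) = 1 := fun g =>
    ⟨by rw [← map_star, ← map_mul, (hU g).1, map_one],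
      by rw [← map_star, ← map_mul, (hU g).2, map_one]⟩
  have hwU : ∀ g, Φ (w g) = U g := fun g => Φ.apply_symm_apply _
  have hcoc' : ∀ g h, Φ (w (g * h)) = Φ (β g (w h) * w g) := fun g h => Subtype.ext (by
    rw [hwU, hcoc, map_mul, MulMemClass.coe_mul, hconj, hwU, hwU, mul_assoc, ← StarMemClass.coe_star,
      ← MulMemClass.coe_mul, (hU g).1, OneMemClass.coe_one, mul_one])
  have hext : ∀ g x, extend (α g) x = β g x := fun g x => by
    conv_rhs => rw [← Unitization.inl_fst_add_inr_snd_eq x]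
    rw [map_add, hαβ, ← Unitization.algebraMap_eq_inl, AlgHomClass.commutes,
      Unitization.algebraMap_eq_inl]
    rfl
  refine ⟨inStage_stepMap, kerStageMap Φ, fun g => star (w g), isLimitMaps_kerStageMap hchar Φ,
    fun g => by rw [star_star]; exact ⟨(hw g).2, (hw g).1⟩, fun g h => ?_, fun g m f hf => ?_⟩
  · show star (w (g * h)) = star (w g) * extend (α g) (star (w h))
    rw [hext, map_star, ← star_mul, Φ.injective (hcoc' g h)]
  · obtain ⟨F, rfl⟩ := exists_sndStage hf
    have hmem : mapBlk (P m) (Q m) (fstChar A) (mapBlk (P m) (Q m)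
        (β g : Unitization ℂ A →⋆ₐ[ℂ] Unitization ℂ A) (F : Blk (Unitization ℂ A) (P m) (Q m))) = 0 := by
      refine blk_ext fun t x y => ?_
      simp only [mapBlk_apply, mapM_apply]
      exact (hβ g _).trans (fst_entry F t x y)
    have hmap : mapStage (α g) (sndStage (F : Blk (Unitization ℂ A) (P m) (Q m))) = sndStage (mapBlk (P m) (Q m)
        (β g : Unitization ℂ A →⋆ₐ[ℂ] Unitization ℂ A) (F : Blk (Unitization ℂ A) (P m) (Q m))) := by
      funext t
      refine Matrix.ext fun x y => Unitization.inr_injective (R := ℂ) ?_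
      refine (hαβ g _).symm.trans ?_
      show β g _ = _
      rw [sndStage, Matrix.of_apply, inr_snd (fst_entry F t x y)]
      exact (inr_snd (fst_entry ⟨_, NUCentral.mem_kerBlk.2 hmem⟩ t x y)).symm
    rw [star_star, hmap]
    refine Φ.injective (Subtype.ext ?_)
    refine (kerStageMap_spec hchar Φ ⟨_, NUCentral.mem_kerBlk.2 hmem⟩).trans ?_
    exact (conj_image Φ (U g) (hU g).1 _ (zAct_incl (β g) m _)
      (kerStageMap_spec hchar Φ F) (hconj g _)).trans
      (congrArg (fun z => (Φ (star (w g) * z * w g) : ZLim (Unitization ℂ A))) (hαβ g _))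

end

end Vale.Agent.P095.NU
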