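import Vale.Agent.P095.Elem.System
import Vale.Agent.P095.Elem.Quot

/-!
# P095, non-unital algebras: the Kirchberg algebra `F(A)`

`E` is a unital C*-algebra with a character `χ` (for a non-unital `A`: `E = Unitization ℂ A`), so
`A = ker χ`. In `S = CentralSeq E ω` the elements killing all constants from `ker χ` form the
closed ideal `annIdeal χ ω`; the quotient `FSeq χ ω` is Kirchberg's `F(A)`. An action on `E` fixing
`χ` acts on it.
-/

namespace Vale.Agent.P095.NU

open VAgent.P101 Vale.Agent.P095 Filter BoundedContinuousFunction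
open scoped CStarAlgebra Topology BoundedContinuousFunction

noncomputable section

universe u v

variable {E : Type u} [CStarAlgebra E]

/-- The annihilator of `ker χ` among central sequences. -/
def annIdeal (χ : E →⋆ₐ[ℂ] ℂ) (ω : Ultrafilter ℕ) : Ideal (CentralSeq E ω) where
  carrier := {x | ∀ a, χ a = 0 → (x : UPow E ω) * UPow.const a = 0}
  add_mem' {x y} hx hy a ha := by rw [AddMemClass.coe_add, add_mul, hx a ha, hy a ha, add_zero]
  zero_mem' a _ := by rw [ZeroMemClass.coe_zero, zero_mul]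
  smul_mem' r x hx a ha := by
    rw [smul_eq_mul, MulMemClass.coe_mul, mul_assoc, hx a ha, mul_zero]

variable {χ : E →⋆ₐ[ℂ] ℂ} {ω : Ultrafilter ℕ}

theorem mem_annIdeal {x : CentralSeq E ω} :
    x ∈ annIdeal χ ω ↔ ∀ a, χ a = 0 → (x : UPow E ω) * UPow.const a = 0 := Iff.rfl

instance annIdeal_isTwoSided : (annIdeal χ ω).IsTwoSided where
  mul_mem_of_left {x} r hx a ha := by
    rw [MulMemClass.coe_mul, mul_assoc, ← (mem_centralSeq.1 r.2 a).eq, ← mul_assoc, hx a ha,
      zero_mul]

theorem annIdeal_star {x : CentralSeq E ω} (hx : x ∈ annIdeal χ ω) :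
    star x ∈ annIdeal χ ω := fun a ha => by
  rw [StarMemClass.coe_star]
  have h := hx (star a) (by rw [map_star, ha, star_zero])
  rw [← (mem_centralSeq.1 x.2 (star a)).eq] at h
  have h2 := congrArg star h
  rwa [star_mul, star_zero, ← UPow.const_star, star_star] at h2

instance annIdeal_closed : IsClosed (annIdeal χ ω : Set (CentralSeq E ω)) := by
  have e : (annIdeal χ ω : Set (CentralSeq E ω)) =
      ⋂ a ∈ {a | χ a = 0}, {x : CentralSeq E ω | (x : UPow E ω) * UPow.const a = 0} := by
    ext x; simp [mem_annIdeal]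
  rw [e]
  exact isClosed_biInter fun a _ =>
    isClosed_eq (continuous_subtype_val.mul continuous_const) continuous_const

variable (χ ω) in
/-- Kirchberg's central sequence algebra `F(ker χ)`. -/
abbrev FSeq : Type u := CentralSeq E ω ⧸ annIdeal χ ω

namespace FSeq

instance instNormedAddCommGroup : NormedAddCommGroup (FSeq χ ω) :=
  Submodule.Quotient.normedAddCommGroup (annIdeal χ ω)

/-- The quotient map as an algebra homomorphism. -/
def projAlg : CentralSeq E ω →ₐ[ℂ] FSeq χ ω := Ideal.Quotient.mkₐ ℂ (annIdeal χ ω)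

theorem projAlg_surjective : Function.Surjective (projAlg : CentralSeq E ω → FSeq χ ω) :=
  Ideal.Quotient.mk_surjective

theorem projAlg_eq {x y : CentralSeq E ω} :
    (projAlg x : FSeq χ ω) = projAlg y ↔ x - y ∈ annIdeal χ ω := Ideal.Quotient.eq

theorem norm_projAlg_le (x : CentralSeq E ω) : ‖(projAlg x : FSeq χ ω)‖ ≤ ‖x‖ :=
  Submodule.Quotient.norm_mk_le (annIdeal χ ω) x

theorem exists_lift' (y : FSeq χ ω) {r : ℝ} (h : ‖y‖ < r) :
    ∃ x, projAlg x = y ∧ ‖x‖ < r := by
  obtain ⟨x, rfl⟩ := projAlg_surjective y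
  have h' : ‖(Submodule.Quotient.mk x : CentralSeq E ω ⧸ annIdeal χ ω)‖ < r := h
  obtain ⟨z, hz, hzn⟩ := QuotientAddGroup.norm_lt_iff.1 h'
  exact ⟨z, hz, hzn⟩

theorem norm_mul_le' (a b : FSeq χ ω) : ‖a * b‖ ≤ ‖a‖ * ‖b‖ := by
  refine le_of_forall_pos_le_add fun ε hε => ?_
  set δ := min 1 (ε / (‖a‖ + ‖b‖ + 1)) with hδ'
  have hδ : 0 < δ := lt_min one_pos (by positivity)
  obtain ⟨f, rfl, hf⟩ := exists_lift' a (lt_add_of_pos_right ‖a‖ hδ)
  obtain ⟨g, rfl, hg⟩ := exists_lift' b (lt_add_of_pos_right ‖b‖ hδ)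
  rw [← map_mul]
  refine ((norm_projAlg_le _).trans (norm_mul_le f g)).trans ?_
  refine (mul_le_mul hf.le hg.le (norm_nonneg _) (by positivity)).trans ?_
  have h1 : δ ≤ 1 := min_le_left _ _
  have h2 : δ * (‖(projAlg f : FSeq χ ω)‖ + ‖(projAlg g : FSeq χ ω)‖ + 1) ≤ ε :=
    (le_div_iff₀ (by positivity)).1 (min_le_right _ _)
  nlinarith

theorem dist_eq' (a b : FSeq χ ω) : dist a b = ‖-a + b‖ := NormedAddGroup.dist_eq a b

instance instNormedRing : NormedRing (FSeq χ ω) where
  toNorm := (instNormedAddCommGroup (χ := χ) (ω := ω)).toNorm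
  toRing := Ideal.Quotient.ring (annIdeal χ ω)
  toMetricSpace := (instNormedAddCommGroup (χ := χ) (ω := ω)).toMetricSpace
  dist_eq := dist_eq'
  norm_mul_le := norm_mul_le'

instance instStar : Star (FSeq χ ω) where
  star := Quotient.map' star fun f g h => by
    rw [Submodule.quotientRel_def] at h ⊢
    rw [← star_sub]
    exact annIdeal_star h

theorem projAlg_star (x : CentralSeq E ω) :
    (projAlg (star x) : FSeq χ ω) = star (projAlg x) := rfl

instance instStarRing : StarRing (FSeq χ ω) where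
  star_involutive a := by
    obtain ⟨f, rfl⟩ := projAlg_surjective a
    rw [← projAlg_star, ← projAlg_star, star_star]
  star_mul a b := by
    obtain ⟨f, rfl⟩ := projAlg_surjective a
    obtain ⟨g, rfl⟩ := projAlg_surjective b
    rw [← map_mul, ← projAlg_star, ← projAlg_star, ← projAlg_star, ← map_mul, star_mul]
  star_add a b := by
    obtain ⟨f, rfl⟩ := projAlg_surjective a
    obtain ⟨g, rfl⟩ := projAlg_surjective b
    rw [← map_add, ← projAlg_star, ← projAlg_star, ← projAlg_star, ← map_add, star_add]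

instance instNormedAlgebra : NormedAlgebra ℂ (FSeq χ ω) where
  __ := (inferInstance : Algebra ℂ (FSeq χ ω))
  norm_smul_le r a := by
    refine le_of_forall_pos_le_add fun ε hε => ?_
    obtain ⟨f, rfl, hf⟩ := exists_lift' a (lt_add_of_pos_right ‖a‖
      (show 0 < ε / (‖r‖ + 1) by positivity))
    rw [← map_smul]
    refine ((norm_projAlg_le _).trans (norm_smul_le r f)).trans ?_
    refine (mul_le_mul_of_nonneg_left hf.le (norm_nonneg _)).trans ?_
    have : ‖r‖ * (ε / (‖r‖ + 1)) ≤ ε := by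
      rw [mul_div_assoc', div_le_iff₀ (by positivity)]; nlinarith [norm_nonneg r]
    linarith

instance instStarModule : StarModule ℂ (FSeq χ ω) where
  star_smul r a := by
    obtain ⟨f, rfl⟩ := projAlg_surjective a
    rw [← map_smul, ← projAlg_star, ← projAlg_star, ← map_smul, star_smul]

instance instCStarRing : CStarRing (FSeq χ ω) where
  norm_mul_self_le a := by
    obtain ⟨f, rfl⟩ := projAlg_surjective a
    refine le_of_forall_pos_le_add fun ε hε => ?_
    obtain ⟨g, hg, hgn⟩ := exists_lift' (star (projAlg f) * projAlg f : FSeq χ ω)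
      (lt_add_of_pos_right _ hε)
    rw [← projAlg_star, ← map_mul, projAlg_eq] at hg
    obtain ⟨i, hi, hin⟩ := Vale.Agent.P095.Elem.DQ.exists_sub_norm_le (annIdeal χ ω)
      annIdeal_closed (fun _ => annIdeal_star) f (g - star f * f) hg
      (c := ‖(star (projAlg f) * projAlg f : FSeq χ ω)‖ + ε) (by rwa [add_sub_cancel])
    have e : (projAlg f : FSeq χ ω) = projAlg (f - i) := by
      rw [projAlg_eq, sub_sub_cancel]; exact hi
    rw [e]
    refine le_trans ?_ (hin.trans (le_of_eq (by rw [← e])))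
    rw [sq]
    exact mul_le_mul (norm_projAlg_le _) (norm_projAlg_le _) (norm_nonneg _) (norm_nonneg _)

instance instCompleteSpace : CompleteSpace (FSeq χ ω) :=
  inferInstanceAs (CompleteSpace (CentralSeq E ω ⧸ annIdeal χ ω))

instance instCStarAlgebra : CStarAlgebra (FSeq χ ω) where

end FSeq

open FSeq

/-- The quotient map. -/
def proj : CentralSeq E ω →⋆ₐ[ℂ] FSeq χ ω := { projAlg with map_star' := projAlg_star }

theorem proj_surjective : Function.Surjective (proj : CentralSeq E ω → FSeq χ ω) :=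
  projAlg_surjective

theorem proj_eq_zero {x : CentralSeq E ω} : (proj x : FSeq χ ω) = 0 ↔ x ∈ annIdeal χ ω :=
  Ideal.Quotient.eq_zero_iff_mem

theorem proj_eq_proj {x y : CentralSeq E ω} :
    (proj x : FSeq χ ω) = proj y ↔ x - y ∈ annIdeal χ ω := projAlg_eq

theorem norm_proj_le (x : CentralSeq E ω) : ‖(proj x : FSeq χ ω)‖ ≤ ‖x‖ := norm_projAlg_le x

theorem exists_proj_lift (y : FSeq χ ω) {r : ℝ} (h : ‖y‖ < r) :
    ∃ x, proj x = y ∧ ‖x‖ ≤ r := by
  obtain ⟨x, hx, hn⟩ := exists_lift' y h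
  exact ⟨x, hx, hn.le⟩

/-- Multiplying a constant from `ker χ` by a central sequence only sees its image in `FSeq`. -/
theorem mul_const_congr {x y : CentralSeq E ω} (h : (proj x : FSeq χ ω) = proj y) {a : E}
    (ha : χ a = 0) : (x : UPow E ω) * UPow.const a = (y : UPow E ω) * UPow.const a := by
  rw [← sub_eq_zero, ← sub_mul, ← AddSubgroupClass.coe_sub]
  exact (proj_eq_proj.1 h) a ha

theorem norm_mul_const_le (x : CentralSeq E ω) {a : E} (ha : χ a = 0) :
    ‖(x : UPow E ω) * UPow.const a‖ ≤ ‖(proj x : FSeq χ ω)‖ * ‖a‖ := by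
  refine le_of_forall_pos_le_add fun ε hε => ?_
  obtain ⟨y, hy, hyn⟩ := exists_proj_lift (proj x : FSeq χ ω)
    (lt_add_of_pos_right _ (show 0 < ε / (‖a‖ + 1) by positivity))
  rw [← mul_const_congr hy ha]
  refine (norm_mul_le _ _).trans ((mul_le_mul hyn ((UPow.norm_mk_le_norm _).trans
    ((BoundedContinuousFunction.norm_le (norm_nonneg a)).2 fun _ => le_rfl))
    (norm_nonneg _) (by positivity)).trans ?_)
  have : ε / (‖a‖ + 1) * ‖a‖ ≤ ε := by
    rw [div_mul_eq_mul_div, div_le_iff₀ (by positivity)]; nlinarith [norm_nonneg a]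
  linarith

section action

variable {G : Type v} [Group G] (β : G →* (E ≃⋆ₐ[ℂ] E)) (hχ : ∀ g a, χ (β g a) = χ a)

include hχ in
theorem centralAct_mem_annIdeal (g : G) {x : CentralSeq E ω} (hx : x ∈ annIdeal χ ω) :
    centralAct ω (β g) x ∈ annIdeal χ ω := fun a ha => by
  have h := congrArg (upowAct ω (β g)) (hx ((β g).symm a)
    (by rw [← hχ g ((β g).symm a), StarAlgEquiv.apply_symm_apply, ha]))
  rw [map_mul, map_zero, upowAct_const, StarAlgEquiv.apply_symm_apply] at h
  rw [coe_centralAct]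
  exact h

/-- One automorphism on the quotient. -/
def quotAct (g : G) : FSeq χ ω →⋆ₐ[ℂ] FSeq χ ω :=
  { Ideal.Quotient.liftₐ (annIdeal χ ω) ((proj.comp (centralAct ω (β g))).toAlgHom)
      (fun _ hx => proj_eq_zero.2 (centralAct_mem_annIdeal β hχ g hx)) with
    map_star' := fun y => by
      obtain ⟨x, rfl⟩ := proj_surjective y
      show proj (centralAct ω (β g) (star x)) = star (proj (centralAct ω (β g) x))
      rw [map_star, map_star] }

theorem quotAct_proj (g : G) (x : CentralSeq E ω) :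
    quotAct β hχ g (proj x) = proj (centralAct ω (β g) x) := rfl

theorem quotAct_mul (g h : G) (y : FSeq χ ω) :
    quotAct β hχ (g * h) y = quotAct β hχ g (quotAct β hχ h y) := by
  obtain ⟨x, rfl⟩ := proj_surjective y
  rw [quotAct_proj, quotAct_proj, quotAct_proj, map_mul, centralAct_mul]

theorem quotAct_one (y : FSeq χ ω) : quotAct β hχ 1 y = y := by
  obtain ⟨x, rfl⟩ := proj_surjective y
  rw [quotAct_proj, map_one, centralAct_one]

variable (ω) in
/-- The action induced on `FSeq χ ω`. -/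
def betaBar : G →* (FSeq χ ω ≃⋆ₐ[ℂ] FSeq χ ω) :=
  MonoidHom.mk' (fun g => StarAlgEquiv.ofBijective (quotAct β hχ g)
    ⟨fun x y h => by
      have h' := congrArg (quotAct β hχ g⁻¹) h
      rwa [← quotAct_mul, ← quotAct_mul, inv_mul_cancel, quotAct_one, quotAct_one] at h',
    fun y => ⟨quotAct β hχ g⁻¹ y, by rw [← quotAct_mul, mul_inv_cancel, quotAct_one]⟩⟩)
    fun g h => StarAlgEquiv.ext fun y => quotAct_mul β hχ g h y

theorem betaBar_proj (g : G) (x : CentralSeq E ω) :
    betaBar ω β hχ g (proj x) = proj (Vale.Agent.P095.Elem.centralAut ω β g x) := rfl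

end action

end

end Vale.Agent.P095.NU
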