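import Vale.Agent.P095.NU.Maps
import Vale.Agent.P095.NU.Quot

/-!
# P095, non-unital algebras: `A ≅ A ⊗ Z` has no characters, and neither has `F(A)`
-/

namespace Vale.Agent.P095.NU.Maps

open VAgent.P101 Vale.Agent.P101.JS Vale.Agent.P095 Vale.Agent.P095.NUCentral TopologicalSpace
open Vale.Agent.P095.JSCentral (exists_central)
open scoped ComplexOrder CStarAlgebra

noncomputable section

universe u

attribute [local instance 50] CStarAlgebra.spectralOrder CStarAlgebra.spectralOrderedRing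

variable {A : Type u} [NonUnitalCStarAlgebra A]

/-- A functional on a subalgebra is homogeneous. -/
theorem map_smul_sub {B : Type*} [NonUnitalCStarAlgebra B] (S : NonUnitalStarSubalgebra ℂ B)
    (ψ : S →⋆ₙₐ[ℂ] ℂ) (c : ℂ) {x y : S} (h : (y : B) = c • (x : B)) : ψ y = c * ψ x := by
  rw [show y = c • x from Subtype.ext h, map_smul, smul_eq_mul]

section generic

variable {E : Type u} [CStarAlgebra E] {χ : E →⋆ₐ[ℂ] ℂ} {p q : ℕ}

/-- A functional on the kernel which is non-zero is non-zero on an elementary tensor. -/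
theorem exists_cutK_ne (ψ : kerBlk χ p q →⋆ₙₐ[ℂ] ℂ) (hψ : ∀ F, ‖ψ F‖ ≤ ‖(F : Blk E p q)‖)
    {F : kerBlk χ p q} (hF : ψ F ≠ 0) :
    ∃ (a : E) (ha : χ a = 0) (g : Blk ℂ p q), ψ (cutK a ha g) ≠ 0 := by
  by_contra hall
  push Not at hall
  refine hF (norm_eq_zero.1 (le_antisymm (le_of_forall_pos_le_add fun ε hε => ?_) (norm_nonneg _)))
  obtain ⟨L, c, g, hc0, hg⟩ := exists_pure F hε
  have h0 : ψ (pureK c hc0 g) = 0 := by
    rw [show pureK c hc0 g = ∑ i, cutK (c i) (hc0 i) (g i) from
      Subtype.ext (by simp [pureK, cutK, AddSubmonoidClass.coe_finsetSum]), map_sum]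
    exact Finset.sum_eq_zero fun i _ => hall _ _ _
  rw [zero_add, ← sub_zero (ψ F), ← h0, ← map_sub]
  exact (hψ _).trans hg

/-- A linear functional multiplicative up to its value at one gives a character. -/
theorem exists_char_of_fun {R : Type*} [Ring R] [Algebra ℂ R] (u : R → ℂ)
    (hadd : ∀ x y, u (x + y) = u x + u y) (hsmul : ∀ (c : ℂ) x, u (c • x) = c * u x)
    (hmul : ∀ x y, u x * u y = u (x * y) * u 1) (g : R) (hg : u g ≠ 0) :
    Nonempty (R →ₐ[ℂ] ℂ) := by
  have hu1 : u 1 ≠ 0 := by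
    intro h1
    have h2 := hmul g g
    rw [h1, mul_zero] at h2
    exact hg (mul_self_eq_zero.1 h2)
  refine ⟨AlgHom.ofLinearMap
    { toFun := fun x => u x / u 1
      map_add' := fun x y => by rw [hadd, add_div]
      map_smul' := fun c x => by rw [hsmul, mul_div_assoc]; rfl }
    (div_self hu1) fun x y => ?_⟩
  show u (x * y) / u 1 = u x / u 1 * (u y / u 1)
  rw [div_mul_div_comm, hmul, mul_div_mul_right _ _ hu1]

/-- Elementary tensors against a character of the kernel give a character of the scalar stage. -/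
theorem exists_char_of_cutK (ψ : kerBlk χ p q →⋆ₙₐ[ℂ] ℂ) {a : E} (ha : χ a = 0)
    {g : Blk ℂ p q} (hag : ψ (cutK a ha g) ≠ 0) : Nonempty (Blk ℂ p q →ₐ[ℂ] ℂ) := by
  have ha2 : χ (a * a) = 0 := by rw [map_mul, ha, mul_zero]
  have huv : ∀ x y, ψ (cutK a ha x) * ψ (cutK a ha y) = ψ (cutK (a * a) ha2 (x * y)) :=
    fun x y => by
      rw [← map_mul]
      exact congrArg ψ (Subtype.ext (prod_pure a a x y))
  refine exists_char_of_fun (fun x => ψ (cutK a ha x)) (fun x y => ?_) (fun c x => ?_)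
    (fun x y => ?_) g hag
  · rw [← map_add]
    exact congrArg ψ (Subtype.ext (by
      show const E p q a * scBlk E p q (x + y) =
        const E p q a * scBlk E p q x + const E p q a * scBlk E p q y
      rw [map_add, mul_add]))
  · refine map_smul_sub (kerBlk χ p q) ψ c ?_
    show const E p q a * scBlk E p q (c • x) = c • (const E p q a * scBlk E p q x)
    rw [map_smul, mul_smul_comm]
  · rw [huv, huv, mul_one]

end generic

/-- Square zero elements covering an almost unit forbid characters. -/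
theorem not_char {R : Type*} [CStarAlgebra R] (r : R →ₐ[ℂ] ℂ) (q : Fin 6 → R) (z : Fin 3 → R)
    (hq : ∀ i, q i * q i = 0)
    (hs : ∑ i, (star (q i) * q i + q i * star (q i)) = 1 + ∑ i, star (z i) * z i) : False := by
  have hq0 : ∀ i, r (q i) = 0 := fun i => by
    have := congrArg r (hq i)
    rw [map_mul, map_zero] at this
    exact mul_self_eq_zero.1 this
  have hstar : ∀ x, r (star x) = star (r x) := fun x => map_star r x
  have e := congrArg (fun x => (r x).re) hs
  simp only [map_sum, map_add, map_mul, map_one, hq0, mul_zero, zero_mul, add_zero,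
    Finset.sum_const_zero, Complex.zero_re, Complex.add_re, Complex.one_re, hstar,
    Complex.star_def, Complex.re_sum] at e
  have hpos : ∀ i, 0 ≤ ((starRingEnd ℂ) (r (z i)) * r (z i)).re := fun i => by
    rw [← Complex.normSq_eq_conj_mul_self, Complex.ofReal_re]
    exact Complex.normSq_nonneg _
  linarith [Finset.sum_nonneg fun i (_ : i ∈ Finset.univ) => hpos i]

/-- A Z-stable algebra has no characters. -/
theorem no_character_of_tensorLimit (h : IsTensorLimit A frame) (f : A →⋆ₙₐ[ℂ] ℂ) : f = 0 := by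
  obtain ⟨φ, hnorm, hc, hd⟩ := exists_kerMaps h
  obtain ⟨l, hl⟩ : ∃ l : Unitization ℂ A →⋆ₐ[ℂ] ℂ, ∀ a : A, l (a : Unitization ℂ A) = f a :=
    ⟨Unitization.starLift f, fun a =>
      (Unitization.starLift_symm_apply_apply (Unitization.starLift f) a).symm.trans
        (by rw [Equiv.symm_apply_apply])⟩
  have hcd : ∀ m d (F : kerBlk (fstChar A) (P m) (Q m)),
      φ (m + d) (kconnTo (fstChar A) m d F) = φ m F := by
    intro m d
    induction d with
    | zero => exact fun F => rfl
    | succ d ih => exact fun F => (hc (m + d) (kconnTo (fstChar A) m d F)).trans (ih F)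
  refine NonUnitalStarAlgHom.ext fun a₀ => ?_
  show f a₀ = 0
  by_contra hne
  obtain ⟨m, F, hF⟩ := hd (a₀ : Unitization ℂ A) (Unitization.fst_inr ℂ a₀) ‖f a₀‖
    (norm_pos_iff.2 hne)
  obtain ⟨d, q, z, hq, -, hs⟩ := exists_central m ∅ (ε := 1) one_pos
  let ψ : kerBlk (fstChar A) (P (m + d)) (Q (m + d)) →⋆ₙₐ[ℂ] ℂ :=
    (l : Unitization ℂ A →⋆ₙₐ[ℂ] ℂ).comp (φ (m + d))
  have hψn : ∀ G, ‖ψ G‖ ≤ ‖(G : Blk (Unitization ℂ A) (P (m + d)) (Q (m + d)))‖ := fun G =>
    (NonUnitalStarAlgHom.norm_apply_le (l : Unitization ℂ A →⋆ₙₐ[ℂ] ℂ) _).trans (hnorm _ G)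
  have hψF : ψ (kconnTo (fstChar A) m d F) ≠ 0 := by
    intro h0
    have h1 : l (φ m F) = 0 := by rw [← hcd m d F]; exact h0
    have h2 := NonUnitalStarAlgHom.norm_apply_le l ((a₀ : Unitization ℂ A) - φ m F)
    rw [map_sub, h1, sub_zero, hl] at h2
    linarith
  obtain ⟨a, ha, g, hag⟩ := exists_cutK_ne ψ hψn hψF
  obtain ⟨r⟩ := exists_char_of_cutK ψ ha hag
  exact not_char r q z (fun i => (hq i).2.1) hs

/-- Kirchberg's `F(A)` of a separable Z-stable algebra has no characters. -/
theorem fseq_no_character [SeparableSpace (Unitization ℂ A)] (h : IsTensorLimit A frame)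
    (ω : Ultrafilter ℕ) (hω : (ω : Filter ℕ) ≤ Filter.cofinite)
    (ξ : FSeq (fstChar A) ω →⋆ₙₐ[ℂ] ℂ) : ξ = 0 := by
  obtain ⟨φ, hnorm, hc, hd⟩ := exists_kerMaps h
  have h0 := no_character (fstChar A) φ hnorm hc hd ω hω
    (ξ.comp (proj (χ := fstChar A) (ω := ω)).toNonUnitalStarAlgHom)
    fun x hx => by
      show ξ (proj x) = 0
      rw [proj_eq_zero.2 hx, map_zero]
  refine NonUnitalStarAlgHom.ext fun y => ?_
  obtain ⟨x, rfl⟩ := proj_surjective y
  exact congrArg (fun k : CentralSeq (Unitization ℂ A) ω →⋆ₙₐ[ℂ] ℂ => k x) h0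

/-- The unitisation of a separable algebra is separable. -/
theorem separableSpace_unitization [SeparableSpace A] : SeparableSpace (Unitization ℂ A) :=
  (Unitization.uniformEquivProd (𝕜 := ℂ) (A := A)).symm.surjective.denseRange.separableSpace
    (Unitization.uniformEquivProd (𝕜 := ℂ) (A := A)).symm.continuous

end

end Vale.Agent.P095.NU.Maps
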