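import Vale.Agent.P095.NU.Dyn
import Vale.Agent.P101.JS.DimDropHom
import Vale.Agent.P101.JS.Conn

/-!
# P095, non-unital algebras: fixed copies of the dimension drop algebras in `F(A)`
-/

namespace Vale.Agent.P095.NU

open VAgent.P101 Vale.Agent.P101.JS Vale.Agent.P095 Filter TopologicalSpace
open scoped ComplexOrder CStarAlgebra

noncomputable section

universe u v

variable {E : Type u} [CStarAlgebra E] [SeparableSpace E] {χ : E →⋆ₐ[ℂ] ℂ} {ω : Ultrafilter ℕ}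
  {G : Type v} [Group G] [Countable G] (β : G →* (E ≃⋆ₐ[ℂ] E)) (hχ : ∀ g a, χ (β g a) = χ a)

/-- With the certificate, `F(A)` has fixed unital copies of every stage of the Jiang–Su system. -/
theorem exists_blkHom [Nontrivial (FSeq χ ω)] (hω : (ω : Filter ℕ) ≤ cofinite)
    (hchar : ∀ ξ : FSeq χ ω →⋆ₙₐ[ℂ] ℂ, ξ = 0) (hcert : Elem.CertStatement (betaBar ω β hχ))
    (m : ℕ) :
    ∃ φ : Blk ℂ (P m) (Q m) →⋆ₐ[ℂ] FSeq χ ω, ∀ g x, betaBar ω β hχ g (φ x) = φ x := by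
  let : PartialOrder (Blk ℂ (P m) (Q m)) := CStarAlgebra.spectralOrder (Blk ℂ (P m) (Q m))
  have : StarOrderedRing (Blk ℂ (P m) (Q m)) :=
    CStarAlgebra.spectralOrderedRing (Blk ℂ (P m) (Q m))
  obtain ⟨hp, hq, hpq⟩ := size_spec m
  obtain ⟨n, hn, ⟨θ⟩⟩ := dimDropHom (P m) (Q m) hp hq hpq
  have : NeZero n := ⟨by omega⟩
  obtain ⟨Φ⟩ := exists_dimDrop_fixedSub (betaBar ω β hχ) (dyn_act β hχ hω hchar)
    (isEmpty_of_cert β hχ hω hcert) n
  exact ⟨(fixedSub (betaBar ω β hχ)).subtype.comp (Φ.comp θ),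
    fun g x => (mem_fixedSub (betaBar ω β hχ)).1 (Φ (θ x)).2 g⟩

end

end Vale.Agent.P095.NU
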