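import Mathlib

/-!
# P095, non-unital algebras: tools for C*-homomorphisms
-/

namespace Vale.Agent.P095.NU

open Filter Topology
open scoped CStarAlgebra

noncomputable section

universe u v w

attribute [local instance 50] CStarAlgebra.spectralOrder CStarAlgebra.spectralOrderedRing

section hom

variable {P : Type u} [CStarAlgebra P] {R : Type v} [CStarAlgebra R]

/-- An element can be corrected inside the kernel to have almost the norm of its image. -/
theorem exists_ker_near (ψ : P →⋆ₐ[ℂ] R) (y : P) {c : ℝ} (h : ‖ψ y‖ < c) :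
    ∃ j, ψ j = 0 ∧ ‖y - j‖ ≤ c := by
  have hc : 0 < c := (norm_nonneg _).trans_lt h
  set a := star y * y with ha'
  have ha : IsSelfAdjoint a := IsSelfAdjoint.star_mul_self y
  let e : ℝ → ℝ := fun x => √(c ^ 2 / max x (c ^ 2))
  have hec : Continuous e :=
    (continuous_const.div (continuous_id.max continuous_const)
      fun x => (lt_max_of_lt_right (by positivity)).ne').sqrt
  refine ⟨y * cfc (fun x => 1 - e x) a, ?_, ?_⟩
  · rw [map_mul, StarAlgHomClass.map_cfc ψ (fun x : ℝ => 1 - e x) a ((continuous_const.sub hec).continuousOn)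
      (map_continuous ψ) ha (ha.map ψ), cfc_congr (g := fun _ => (0 : ℝ)) fun r hr => ?_,
      cfc_const_zero, mul_zero]
    have h1 : r ≤ ‖ψ a‖ :=
      (le_algebraMap_iff_spectrum_le (ha.map ψ)).1 (ha.map ψ).le_algebraMap_norm_self r hr
    rw [ha', map_mul, map_star, CStarRing.norm_star_mul_self] at h1
    have h2 : r ≤ c ^ 2 := h1.trans (by nlinarith [norm_nonneg (ψ y)])
    simp [e, max_eq_right h2, hc.ne']
  · have e1 : y - y * cfc (fun x => 1 - e x) a = y * cfc e a := by
      rw [cfc_sub (fun _ : ℝ => (1 : ℝ)) e a continuousOn_const hec.continuousOn,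
        cfc_const_one ℝ a, mul_sub, mul_one, sub_sub_cancel]
    rw [e1]
    refine le_of_pow_le_pow_left₀ two_ne_zero hc.le ?_
    rw [sq, ← CStarRing.norm_star_mul_self, star_mul,
      (IsSelfAdjoint.cfc (f := e) (a := a)).star_eq,
      show cfc e a * star y * (y * cfc e a) = cfc e a * a * cfc e a by
        rw [ha']; simp only [mul_assoc]]
    conv_lhs => enter [1, 1, 2]; rw [← cfc_id' ℝ a]
    rw [← cfc_mul e (fun x : ℝ => x) a hec.continuousOn continuousOn_id,
      ← cfc_mul (fun x => e x * x) e a (hec.mul continuous_id).continuousOn hec.continuousOn]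
    refine norm_cfc_le (by positivity) fun r hr => ?_
    have hr0 : 0 ≤ r := spectrum_nonneg_of_nonneg (star_mul_self_nonneg y) hr
    have hm : 0 < max r (c ^ 2) := lt_max_of_lt_right (by positivity)
    rw [mul_right_comm, Real.mul_self_sqrt (by positivity), Real.norm_of_nonneg (by positivity),
      div_mul_eq_mul_div, div_le_iff₀ hm]
    exact mul_le_mul_of_nonneg_left (le_max_left _ _) (by positivity)

/-- The range of a *-homomorphism of C*-algebras is closed. -/
theorem isClosed_range_hom (ψ : P →⋆ₐ[ℂ] R) : IsClosed (Set.range ψ) := by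
  refine isClosed_of_closure_subset fun x hx => ?_
  have hd : ∀ n : ℕ, ∃ d, ‖ψ d - x‖ ≤ (1 / 2) ^ n := fun n => by
    obtain ⟨_, ⟨d, rfl⟩, hd⟩ := Metric.mem_closure_iff.1 hx ((1 / 2) ^ n) (by positivity)
    exact ⟨d, by rw [← dist_eq_norm, dist_comm]; exact hd.le⟩
  choose d hd using hd
  have hr : ∀ n : ℕ, ∃ r, ψ r = ψ (d (n + 1) - d n) ∧ ‖r‖ ≤ 3 * (1 / 2) ^ n := fun n => by
    have h1 : ‖ψ (d (n + 1) - d n)‖ < 3 * (1 / 2) ^ n := by
      rw [map_sub]
      refine lt_of_le_of_lt (norm_sub_le_norm_sub_add_norm_sub _ x _) ?_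
      rw [norm_sub_rev x]
      have h2 := hd (n + 1)
      rw [pow_succ] at h2
      have h3 : (0 : ℝ) < (1 / 2) ^ n := by positivity
      linarith [hd n]
    obtain ⟨j, hj, hn⟩ := exists_ker_near ψ _ h1
    exact ⟨d (n + 1) - d n - j, by rw [map_sub ψ _ j, hj, sub_zero], hn⟩
  choose r hrd hrn using hr
  have hs : Summable r := Summable.of_norm_bounded
    ((summable_geometric_of_lt_one (by norm_num) (by norm_num)).mul_left 3) hrn
  refine ⟨d 0 + ∑' n, r n, ?_⟩
  have h1 : Tendsto (fun N => ψ (d 0 + ∑ i ∈ Finset.range N, r i)) atTop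
      (𝓝 (ψ (d 0 + ∑' n, r n))) :=
    ((map_continuous ψ).tendsto _).comp (tendsto_const_nhds.add hs.hasSum.tendsto_sum_nat)
  have h2 : ∀ N, ψ (d 0 + ∑ i ∈ Finset.range N, r i) = ψ (d N) := fun N => by
    induction N with
    | zero => simp
    | succ k ih =>
      rw [Finset.sum_range_succ, ← add_assoc, map_add, ih, hrd, map_sub, add_sub_cancel]
  refine tendsto_nhds_unique h1 ?_
  simp only [h2]
  refine tendsto_iff_norm_sub_tendsto_zero.2 (squeeze_zero (fun n => norm_nonneg _) hd ?_)
  exact tendsto_pow_atTop_nhds_zero_of_lt_one (by norm_num) (by norm_num)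

/-- A homomorphism bounded by another one descends to the range of the latter. -/
theorem exists_descend {R' : Type w} [CStarAlgebra R'] (π : P →⋆ₐ[ℂ] R) (θ : P →⋆ₐ[ℂ] R')
    (hle : ∀ x, ‖θ x‖ ≤ ‖π x‖) (T : StarSubalgebra ℂ R) (hT : (T : Set R) ⊆ Set.range π) :
    ∃ φ : T →⋆ₐ[ℂ] R', ∀ (x : T) (d : P), π d = (x : R) → φ x = θ d := by
  choose s hs using fun x : T => hT x.2
  have hu : ∀ (x : T) (d : P), π d = (x : R) → θ (s x) = θ d := fun x d h => by
    have h1 := hle (s x - d)
    rw [map_sub π, hs, h, sub_self, norm_zero] at h1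
    rw [← sub_eq_zero, ← map_sub]
    exact norm_le_zero_iff.1 h1
  refine ⟨{
    toFun := fun x => θ (s x)
    map_one' := (hu 1 1 (map_one π)).trans (map_one θ)
    map_mul' := fun x y => (hu (x * y) (s x * s y) (by rw [map_mul, hs, hs]; rfl)).trans
      (map_mul θ _ _)
    map_zero' := (hu 0 0 (map_zero π)).trans (map_zero θ)
    map_add' := fun x y => (hu (x + y) (s x + s y) (by rw [map_add, hs, hs]; rfl)).trans
      (map_add θ _ _)
    commutes' := fun c => (hu (algebraMap ℂ T c) (algebraMap ℂ P c)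
      (AlgHomClass.commutes π c)).trans (AlgHomClass.commutes θ c)
    map_star' := fun x => (hu (star x) (star (s x)) (by rw [map_star, hs]; rfl)).trans
      (map_star θ _) }, fun x d h => hu x d h⟩

end hom

end

end Vale.Agent.P095.NU
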