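import Vale.Agent.P095.Elem.OrbTools
import Vale.Agent.P095.NU.Quot
import Vale.Agent.P095.NU.Hom
import Vale.Agent.P095.Gen.Reindex
import Vale.Agent.P101.Coord

/-!
# P095, non-unital algebras: `F(A)` is a system, and the certificate gives dimension drop algebras
in its fixed points
-/

namespace Vale.Agent.P095.NU

open VAgent.P101 Vale.Agent.P095 Filter TopologicalSpace BoundedContinuousFunction
open scoped CStarAlgebra Topology BoundedContinuousFunction

noncomputable section

set_option linter.unusedSectionVars false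

universe u v

section generic

variable {F : Type u} [CStarAlgebra F] {G : Type v} [Group G] (β : G →* (F ≃⋆ₐ[ℂ] F))

/-- The fixed points of an action. -/
def fixedSub : StarSubalgebra ℂ F where
  carrier := {x | ∀ g, β g x = x}
  mul_mem' hx hy g := by rw [map_mul, hx g, hy g]
  one_mem' g := map_one (β g)
  add_mem' hx hy g := by rw [map_add, hx g, hy g]
  zero_mem' g := map_zero (β g)
  algebraMap_mem' r g := AlgHomClass.commutes (β g : F →⋆ₐ[ℂ] F) r
  star_mem' hx g := by rw [map_star, hx g]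

theorem mem_fixedSub {x : F} : x ∈ fixedSub β ↔ ∀ g, β g x = x := Iff.rfl

instance fixedSub_isClosed : IsClosed (fixedSub β : Set F) := by
  have e : (fixedSub β : Set F) = ⋂ g, {x | β g x = x} := by
    ext x; simp [mem_fixedSub]
  rw [e]
  exact isClosed_iInter fun g => isClosed_eq (map_continuous (β g)) continuous_id

instance fixedSubCStar : CStarAlgebra (fixedSub β) :=
  StarSubalgebra.cstarAlgebra (fixedSub β)

/-- The fixed points of a system have copies. -/
theorem hasCopies_fixedSub (h : Elem.Dyn β) : HasCopies (fixedSub β) := by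
  intro T S
  classical
  let T' : Finset F := T.image Subtype.val
  obtain ⟨φ, hφG, hφS⟩ := h.copies T' (S.image Subtype.val)
  have hle : GenAlg T ≤ (Elem.OrbAlg β T').comap (fixedSub β).subtype :=
    StarSubalgebra.topologicalClosure_minimal
      (StarAlgebra.adjoin_le fun t ht =>
        Elem.Half.mem_orbAlg (Finset.mem_image_of_mem _ ht))
      ((Elem.orbAlg_isClosed β T').preimage continuous_subtype_val)
  let j : GenAlg T →⋆ₐ[ℂ] Elem.OrbAlg β T' :=
    StarAlgHom.codRestrict ((fixedSub β).subtype.comp (GenAlg T).subtype) (Elem.OrbAlg β T')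
      fun x => hle x.2
  refine ⟨StarAlgHom.codRestrict (φ.comp j) (fixedSub β)
    fun x g => (hφG g (j x) (j x) (((mem_fixedSub β).1 (x : fixedSub β).2) g).symm).symm,
    fun z hz x => Subtype.ext ?_⟩
  exact (hφS _ (Finset.mem_image_of_mem _ hz) (j x)).eq

/-- Without characters the fixed points receive every dimension drop algebra. -/
theorem exists_dimDrop_fixedSub [Nontrivial F] (h : Elem.Dyn β)
    (hno : IsEmpty (fixedSub β →⋆ₐ[ℂ] ℂ)) (n : ℕ) [NeZero n] :
    Nonempty (Vale.Agent.P101.DimDrop n →⋆ₐ[ℂ] fixedSub β) := by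
  haveI : Nontrivial (fixedSub β) :=
    ⟨⟨1, 0, fun e => one_ne_zero (α := F) (congrArg Subtype.val e)⟩⟩
  letI : PartialOrder (fixedSub β) := CStarAlgebra.spectralOrder (fixedSub β)
  haveI : StarOrderedRing (fixedSub β) := CStarAlgebra.spectralOrderedRing (fixedSub β)
  exact exists_dimDrop (hasCopies_fixedSub β h) (Elem.noChar_of_isEmpty hno) n

end generic

attribute [local instance 50] CStarAlgebra.spectralOrder CStarAlgebra.spectralOrderedRing

variable {E : Type u} [CStarAlgebra E] [SeparableSpace E] {χ : E →⋆ₐ[ℂ] ℂ} {ω : Ultrafilter ℕ}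
  {G : Type v} [Group G] [Countable G] (β : G →* (E ≃⋆ₐ[ℂ] E)) (hχ : ∀ g a, χ (β g a) = χ a)

theorem proj_eq_zero' {x : CentralSeq E ω} :
    (proj x : FSeq χ ω) = 0 ↔ ∀ a, χ a = 0 → (x : UPow E ω) * UPow.const a = 0 :=
  proj_eq_zero.trans mem_annIdeal

theorem betaBar_proj' (g : G) (x : CentralSeq E ω) :
    betaBar ω β hχ g (proj x) = (proj (centralAct ω (β g) x) : FSeq χ ω) := rfl

/-- The copy map read in the quotient is bounded by the quotient map. -/
theorem norm_π_copy_le {D : StarSubalgebra ℂ (CentralSeq E ω)}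
    [hD : IsClosed (D : Set (CentralSeq E ω))] (φ : D →⋆ₐ[ℂ] CentralSeq E ω)
    (hφ : ∀ (x : D) (b : E), ‖(φ x : UPow E ω) * UPow.const b‖ ≤
      ‖((x : CentralSeq E ω) : UPow E ω) * UPow.const b‖) (x : D) :
    ‖(proj (φ x) : FSeq χ ω)‖ ≤ ‖(proj (x : CentralSeq E ω) : FSeq χ ω)‖ := by
  letI : CStarAlgebra D := StarSubalgebra.cstarAlgebra D
  refine le_of_forall_gt_imp_ge_of_dense fun c hc => ?_
  obtain ⟨j, hj, hn⟩ := exists_ker_near ((proj (χ := χ)).comp D.subtype) x hc
  have h0 : (proj (φ j) : FSeq χ ω) = 0 := by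
    refine proj_eq_zero'.2 fun a ha => norm_le_zero_iff.1 ((hφ j a).trans (le_of_eq ?_))
    rw [norm_eq_zero]
    exact proj_eq_zero'.1 hj a ha
  have e : (proj (φ x) : FSeq χ ω) = proj (φ (x - j)) := by
    rw [map_sub, map_sub, h0, sub_zero]
  rw [e]
  exact ((NonUnitalStarAlgHom.norm_apply_le ((proj (χ := χ)).comp φ) (x - j))).trans hn

/-- The central sequence algebra of a non-unital algebra is a system. -/
theorem dyn_act (hω : (ω : Filter ℕ) ≤ cofinite)
    (hchar : ∀ ξ : FSeq χ ω →⋆ₙₐ[ℂ] ℂ, ξ = 0) : Elem.Dyn (betaBar ω β hχ) := by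
  classical
  refine ⟨hchar, fun T S => ?_⟩
  choose sec hsec using fun x : FSeq χ ω => proj_surjective (χ := χ) (ω := ω) x
  let T' : Finset (CentralSeq E ω) := T.image sec
  obtain ⟨φ₀, hS, hG, hmul⟩ := Gen.exists_copy_mul hω (fun g => β g)
    (Elem.OrbAlg (Elem.centralAut ω β) T') (Elem.isSeparable_orbAlg _ T')
    (S.image sec : Set (CentralSeq E ω)) (Finset.countable_toSet _)
  let π' : Elem.OrbAlg (Elem.centralAut ω β) T' →⋆ₐ[ℂ] FSeq χ ω :=
    (proj (χ := χ)).comp (Elem.OrbAlg (Elem.centralAut ω β) T').subtype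
  have hT : (Elem.OrbAlg (betaBar ω β hχ) T : Set (FSeq χ ω)) ⊆ Set.range π' := by
    have h : Elem.OrbAlg (betaBar ω β hχ) T ≤ π'.range := by
      refine Elem.Half.orbAlg_le ?_ fun g t ht => ?_
      · show IsClosed (Set.range π')
        exact isClosed_range_hom π'
      · refine ⟨⟨Elem.centralAut ω β g (sec t),
          Elem.Half.act_mem_orbAlg_of_mem g (Finset.mem_image_of_mem _ ht)⟩, ?_⟩
        show (proj (Elem.centralAut ω β g (sec t)) : FSeq χ ω) = betaBar ω β hχ g t
        conv_rhs => rw [← hsec t]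
        rfl
    intro x hx
    exact h hx
  obtain ⟨φ, hφ⟩ := exists_descend π' ((proj (χ := χ)).comp φ₀)
    (fun x => norm_π_copy_le φ₀ hmul x) (Elem.OrbAlg (betaBar ω β hχ) T) hT
  refine ⟨φ, fun g x y h => ?_, fun z hz x => ?_⟩
  · obtain ⟨d, hd⟩ := hT x.2
    let d' : Elem.OrbAlg (Elem.centralAut ω β) T' :=
      ⟨Elem.centralAut ω β g d, Elem.Half.act_mem_orbAlg g d.2⟩
    have hd' : π' d' = (y : FSeq χ ω) := by
      rw [h, ← hd]
      rfl
    rw [hφ y d' hd', hφ x d hd]
    show (proj (φ₀ d') : FSeq χ ω) = betaBar ω β hχ g (proj (φ₀ d))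
    rw [betaBar_proj', hG g d d' rfl]
  · obtain ⟨d, hd⟩ := hT x.2
    rw [hφ x d hd, ← hsec z]
    exact (hS _ (Finset.mem_coe.2 (Finset.mem_image_of_mem _ hz)) d).map (proj (χ := χ))

/-- `a` with its scalar part removed. -/
def dropScalar (χ : E →⋆ₐ[ℂ] ℂ) (a : E) : E := a - algebraMap ℂ E (χ a)

theorem χ_dropScalar (a : E) : χ (dropScalar χ a) = 0 := by
  rw [dropScalar, map_sub, AlgHomClass.commutes, Algebra.algebraMap_self_apply, sub_self]

theorem continuous_dropScalar : Continuous (dropScalar χ) :=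
  continuous_id.sub ((continuous_algebraMap ℂ E).comp (map_continuous χ))

/-- Sequences killed by a dense set of `ker χ` lie in the annihilator. -/
theorem π_eq_zero_of_dense (x : CentralSeq E ω)
    (h : ∀ l, (x : UPow E ω) * UPow.const (dropScalar χ (denseSeq E l)) = 0) :
    (proj x : FSeq χ ω) = 0 := by
  refine proj_eq_zero'.2 fun a ha => ?_
  have hclosed : IsClosed {b : E | (x : UPow E ω) * UPow.const (dropScalar χ b) = 0} :=
    isClosed_eq (continuous_const.mul
      ((UPow.continuous_const' (A := E) (ω := ω)).comp continuous_dropScalar)) continuous_const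
  have h' := closure_minimal (by rintro _ ⟨l, rfl⟩; exact h l) hclosed (denseRange_denseSeq E a)
  simpa [dropScalar, ha] using h'

theorem commute_const_of_dense (x : UPow E ω)
    (h : ∀ l, Commute (UPow.const (denseSeq E l) : UPow E ω) x) : x ∈ CentralSeq E ω := by
  refine mem_centralSeq.2 fun b => ?_
  have hclosed : IsClosed {b : E | Commute (UPow.const b : UPow E ω) x} :=
    isClosed_eq (Continuous.mul (UPow.continuous_const' (A := E) (ω := ω)) continuous_const)
      (Continuous.mul continuous_const (UPow.continuous_const' (A := E) (ω := ω)))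
  refine closure_minimal ?_ hclosed (denseRange_denseSeq E b)
  rintro _ ⟨l, rfl⟩
  exact h l

/-- Approximately invariant solutions of countably many equations give invariant solutions. -/
theorem exists_fixed_tuple (hω : (ω : Filter ℕ) ≤ cofinite) {J : Type*} [Countable J]
    (x : ℕ → J → FSeq χ ω) {L : ℝ} (hL : ∀ n j, ‖x n j‖ ≤ L)
    (hfix : ∀ g j, ∀ δ : ℝ, 0 < δ → ∀ᶠ n in atTop,
      ‖betaBar ω β hχ g (x n j) - x n j‖ < δ)
    (p : ℕ → FreeAlgebra ℂ (J × Bool))
    (hp : ∀ m, ∀ δ : ℝ, 0 < δ → ∀ᶠ n in atTop, ‖Elem.evalP (x n) (p m)‖ < δ) :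
    ∃ y : J → fixedSub (betaBar ω β hχ), ∀ m, Elem.evalP y (p m) = 0 := by
  classical
  choose z hz' hzn using fun n j =>
    exists_proj_lift (x n j) (lt_of_le_of_lt (hL n j) (lt_add_one L))
  choose f hf hfn using fun n j =>
    Elem.exists_lift_bound ((z n j : CentralSeq E ω) : UPow E ω) (L := L + 1) (hzn n j)
  have hz : ∀ n j, (proj (z n j) : FSeq χ ω) = x n j := hz'
  let a := denseSeq E
  let I := (J × ℕ) ⊕ (J × G × ℕ) ⊕ (ℕ × ℕ)
  have : Nonempty I := ⟨Sum.inr (Sum.inr (0, 0))⟩
  obtain ⟨e, he⟩ := exists_surjective_nat I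
  let C : I → (J → E) → ℝ := fun i v =>
    match i with
    | Sum.inl (j, l) => ‖a l * v j - v j * a l‖
    | Sum.inr (Sum.inl (j, g, l)) => ‖(β g (v j) - v j) * dropScalar χ (a l)‖
    | Sum.inr (Sum.inr (m, l)) => ‖Elem.evalP v (p m) * dropScalar χ (a l)‖
  have hev : ∀ (g : J → ℕ →ᵇ E) q k, Elem.evalP (fun j => g j k) q = (Elem.evalP g q) k :=
    fun g q k => (Elem.evalP_natural (Elem.evalAt k) g q).symm
  have hmk : ∀ (g : J → ℕ →ᵇ E) q, (UPow.mk (Elem.evalP g q) : UPow E ω) =
      Elem.evalP (fun j => (UPow.mk (g j) : UPow E ω)) q :=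
    fun g q => Elem.evalP_natural UPow.mkHom g q
  have hsub : ∀ (w : J → CentralSeq E ω) q,
      ((Elem.evalP w q : CentralSeq E ω) : UPow E ω) =
        Elem.evalP (fun j => ((w j : CentralSeq E ω) : UPow E ω)) q := fun w q => by
    have h1 := Elem.evalP_natural (CentralSeq E ω).subtype w q
    rw [StarSubalgebra.coe_subtype] at h1
    exact h1
  have hsmall : ∀ (w : CentralSeq E ω) (b : E) (δ : ℝ), χ b = 0 →
      ‖(proj w : FSeq χ ω)‖ * ‖b‖ < δ →
      ∀ fw : ℕ →ᵇ E, (UPow.mk fw : UPow E ω) = (w : UPow E ω) →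
      ∀ᶠ k in (ω : Filter ℕ), ‖fw k * b‖ < δ := by
    intro w b δ hb hlt fw hfw
    refine (UPow.eventually_of_norm_lt (f := fw * BoundedContinuousFunction.const ℕ b) ?_).mono
      fun k hk => by simpa using hk
    rw [map_mul, hfw]
    exact lt_of_le_of_lt (norm_mul_const_le w hb) hlt
  obtain ⟨g', -, hg⟩ := Elem.exists_diag hω (fun m => C (e m)) f hfn fun m δ hδ => by
    rcases e m with ⟨j, l⟩ | ⟨j, g, l⟩ | ⟨q, l⟩
    · refine Eventually.of_forall fun n => ?_
      refine (Elem.eventually_lt_of_norm (f := BoundedContinuousFunction.const ℕ (a l) * f n j -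
        f n j * BoundedContinuousFunction.const ℕ (a l)) (r := 0) ?_ hδ).mono fun k hk => by
          simpa [C] using hk
      rw [map_sub, map_mul, map_mul, hf]
      exact le_of_eq (norm_eq_zero.2 (sub_eq_zero.2 (mem_centralSeq.1 (z n j).2 (a l)).eq))
    · refine (hfix g j (δ / (‖dropScalar χ (a l)‖ + 1)) (by positivity)).mono
        fun n hn => ?_
      refine (hsmall (centralAct ω (β g) (z n j) - z n j) (dropScalar χ (a l)) δ (χ_dropScalar _) ?_
        (seqAct (β g) (f n j) - f n j) ?_).mono fun k hk => by simpa [C, seqAct_apply] using hk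
      · rw [map_sub, ← betaBar_proj' β hχ, hz]
        rw [lt_div_iff₀ (by positivity)] at hn
        nlinarith [norm_nonneg (betaBar ω β hχ g (x n j) - x n j),
          norm_nonneg (dropScalar χ (a l))]
      · rw [map_sub, ← upowAct_mk, hf]
        rfl
    · refine (hp q (δ / (‖dropScalar χ (a l)‖ + 1)) (by positivity)).mono
        fun n hn => ?_
      refine (hsmall (Elem.evalP (z n) (p q)) (dropScalar χ (a l)) δ (χ_dropScalar _) ?_
        (Elem.evalP (f n) (p q)) ?_).mono fun k hk => by simpa [C, hev] using hk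
      · rw [Elem.evalP_natural (proj (χ := χ)) (z n) (p q),
          show (fun j => (proj (z n j) : FSeq χ ω)) = x n from funext (hz n)]
        rw [lt_div_iff₀ (by positivity)] at hn
        nlinarith [norm_nonneg (Elem.evalP (x n) (p q)),
          norm_nonneg (dropScalar χ (a l))]
      · rw [hmk, hsub]
        exact congrArg (fun w => Elem.evalP w (p q)) (funext fun j => hf n j)
  have hg' : ∀ i, ∀ δ : ℝ, 0 < δ → ∀ᶠ k in (ω : Filter ℕ), C i (fun j => g' j k) < δ := by
    intro i δ hδ
    obtain ⟨m, rfl⟩ := he i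
    exact hg m δ hδ
  have hcen : ∀ j, (UPow.mk (g' j) : UPow E ω) ∈ CentralSeq E ω := by
    refine fun j => commute_const_of_dense _ fun l => ?_
    show UPow.const (a l) * UPow.mk (g' j) = UPow.mk (g' j) * UPow.const (a l)
    rw [← sub_eq_zero, UPow.const, ← map_mul, ← map_mul, ← map_sub]
    exact Elem.eq_zero_of_eventually fun δ hδ => (hg' (Sum.inl (j, l)) δ hδ).mono
      fun k hk => by simpa [C] using hk
  let y : J → CentralSeq E ω := fun j => ⟨UPow.mk (g' j), hcen j⟩
  have hzero : ∀ (w : CentralSeq E ω) (fw : ℕ →ᵇ E), (UPow.mk fw : UPow E ω) = (w : UPow E ω) →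
      (∀ l, ∀ δ : ℝ, 0 < δ → ∀ᶠ k in (ω : Filter ℕ), ‖fw k * dropScalar χ (a l)‖ < δ) →
      (proj w : FSeq χ ω) = 0 := by
    intro w fw hfw h
    refine π_eq_zero_of_dense w fun l => ?_
    rw [← hfw, UPow.const, ← map_mul]
    exact Elem.eq_zero_of_eventually fun δ hδ => (h l δ hδ).mono fun k hk => by simpa using hk
  have hy : ∀ j, (proj (y j) : FSeq χ ω) ∈ fixedSub (betaBar ω β hχ) := fun j g => by
    rw [betaBar_proj', ← sub_eq_zero, ← map_sub]
    refine hzero _ (seqAct (β g) (g' j) - g' j) ?_ fun l δ hδ =>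
      (hg' (Sum.inr (Sum.inl (j, g, l))) δ hδ).mono fun k hk => by
        simpa [C, seqAct_apply] using hk
    rw [map_sub, ← upowAct_mk]
    rfl
  refine ⟨fun j => ⟨proj (y j), hy j⟩, fun m => Subtype.ext ?_⟩
  have h2 : ((Elem.evalP (fun j => (⟨proj (y j), hy j⟩ : fixedSub (betaBar ω β hχ))) (p m) :
      fixedSub (betaBar ω β hχ)) : FSeq χ ω) = Elem.evalP (fun j => proj (y j)) (p m) :=
    Elem.evalP_natural (fixedSub (betaBar ω β hχ)).subtype _ (p m)
  rw [h2, ← Elem.evalP_natural (proj (χ := χ)) y (p m)]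
  refine hzero _ (Elem.evalP g' (p m)) (by rw [hmk, hsub]) fun l δ hδ =>
    (hg' (Sum.inr (Sum.inr (m, l))) δ hδ).mono fun k hk => by simpa [C, hev] using hk

/-- The certificate rules out invariant characters. -/
theorem isEmpty_of_cert (hω : (ω : Filter ℕ) ≤ cofinite)
    (hcert : Elem.CertStatement (betaBar ω β hχ)) :
    IsEmpty (fixedSub (betaBar ω β hχ) →⋆ₐ[ℂ] ℂ) := by
  classical
  refine ⟨fun ξ => ?_⟩
  obtain ⟨e, he⟩ := exists_surjective_nat G
  obtain ⟨L, hL⟩ := hcert
  choose q b c d f hq hq2 hqa hbd hinv hid using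
    fun n : ℕ => hL ((Finset.range (n + 1)).image e) (1 / (n + 1)) (by positivity)
  let J := Unit ⊕ (Fin 4 × Fin 3)
  let x : ℕ → J → FSeq χ ω := fun n j =>
    match j with
    | Sum.inl _ => q n
    | Sum.inr (s, i) => ![b n i, c n i, d n i, f n i] s
  have hxL : ∀ n j, ‖x n j‖ ≤ max L 1 := by
    intro n j
    rcases j with _ | ⟨s, i⟩
    · exact (hq n).trans (le_max_right _ _)
    · obtain ⟨h1, h2, h3, h4⟩ := hbd n i
      fin_cases s <;> first
        | exact h1.trans (le_max_left _ _)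
        | exact h2.trans (le_max_left _ _)
        | exact h3.trans (le_max_left _ _)
        | exact h4.trans (le_max_left _ _)
  have hsmall : ∀ δ : ℝ, 0 < δ → ∀ᶠ n : ℕ in atTop, (1 : ℝ) / (n + 1) < δ := fun δ hδ =>
    tendsto_one_div_add_atTop_nhds_zero_nat.eventually_lt_const hδ
  have hxa : ∀ n j, Elem.AlmostFixed (betaBar ω β hχ) ((Finset.range (n + 1)).image e)
      (1 / (n + 1)) (x n j) := by
    intro n j
    rcases j with _ | ⟨s, i⟩
    · exact hqa n
    · obtain ⟨h1, h2, h3, h4⟩ := hinv n i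
      fin_cases s <;> first
        | exact h1
        | exact h2
        | exact h3
        | exact h4
  let Q : FreeAlgebra ℂ (J × Bool) := Elem.var (Sum.inl ())
  let v : Fin 4 → Fin 3 → FreeAlgebra ℂ (J × Bool) := fun s i => Elem.var (Sum.inr (s, i))
  let P : FreeAlgebra ℂ (J × Bool) :=
    (∑ i, (v 0 i * (Elem.svar (Sum.inl ()) * Q) * v 1 i +
      v 2 i * (Q * Elem.svar (Sum.inl ())) * v 3 i)) - 1
  obtain ⟨y, hy⟩ := exists_fixed_tuple β hχ hω x hxL
    (fun g j δ hδ => by
      obtain ⟨m, rfl⟩ := he g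
      filter_upwards [hsmall δ hδ, eventually_ge_atTop m] with n hn hmn
      exact lt_of_le_of_lt
        (hxa n j (e m) (Finset.mem_image_of_mem _ (Finset.mem_range.2 (by omega)))) hn)
    (fun m => if m = 0 then Q * Q else P) (fun m δ hδ => by
      refine (hsmall δ hδ).mono fun n hn => ?_
      split_ifs
      · simp only [Q, map_mul, Elem.evalP_var]
        show ‖q n * q n‖ < δ
        rw [hq2 n, norm_zero]
        exact hδ
      · refine lt_of_le_of_lt ?_ hn
        simp only [P, Q, v, map_sub, map_sum, map_add, map_mul, map_one, Elem.evalP_var,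
          Elem.evalP_svar]
        exact hid n)
  have h0 := hy 0
  have h1 := hy 1
  simp only [if_true, Q, map_mul, Elem.evalP_var] at h0
  simp only [Nat.one_ne_zero, if_false, P, Q, v, map_sub, map_sum, map_add, map_mul, map_one,
    Elem.evalP_var, Elem.evalP_svar] at h1
  have hξq : ξ (y (Sum.inl ())) = 0 := by
    have := congrArg ξ h0
    rw [map_mul, map_zero] at this
    exact mul_self_eq_zero.1 this
  have h2 := congrArg ξ h1
  simp [map_sum, map_mul, hξq] at h2

end

end Vale.Agent.P095.NU
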