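import Vale.Agent.P095.NU.Smear
import Vale.Agent.P101.JS.Main

/-!
# P095, non-unital algebras: products of exponentials of coefficient sums

For an assignment `W` of values in `T` to elements of `Z_{p,q}` and data `l`, `pushEl W l` is a
product of exponentials in `Blk T p q`. It is natural in `T` and Lipschitz in `W`. Norms in
`Blk B p q` of elements read through a *-homomorphism are attained by lifts up to `ε`.
-/

namespace Vale.Agent.P095.NU

open VAgent.P101 Vale.Agent.P101.JS Filter
open scoped ComplexOrder CStarAlgebra Topology BoundedContinuousFunction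

noncomputable section

set_option linter.unusedSectionVars false

section general

variable {S T : Type*} [CStarAlgebra S] [CStarAlgebra T] {ι : Type*}

/-- Lifts along a *-homomorphism almost attain the norm. -/
theorem exists_norm_le_lift (ψ : S →⋆ₐ[ℂ] T) (x : S) {c : ℝ} (hc : ‖ψ x‖ < c) :
    ∃ y, ψ y = ψ x ∧ ‖y‖ ≤ c := by
  have hc0 : 0 < c := (norm_nonneg _).trans_lt hc
  let e : ℝ → ℝ := fun t => √(c ^ 2 / max |t| (c ^ 2))
  have hm : ∀ t : ℝ, 0 < max |t| (c ^ 2) := fun t => lt_max_of_lt_right (by positivity)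
  have hec : Continuous e :=
    (continuous_const.div (continuous_abs.max continuous_const) fun t => (hm t).ne').sqrt
  set a := star x * x with ha'
  have ha : IsSelfAdjoint a := IsSelfAdjoint.star_mul_self x
  refine ⟨x * cfc e a, ?_, ?_⟩
  · have h1 : ψ (cfc e a) = 1 := by
      rw [StarAlgHomClass.map_cfc ψ _ _ hec.continuousOn (map_continuous ψ) ha (ha.map ψ),
        cfc_congr (g := fun _ => (1 : ℝ)) fun r hr => ?_, cfc_const_one ℝ (ψ a) (ha.map ψ)]
      rcases subsingleton_or_nontrivial T with hT | hT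
      · simp [spectrum.of_subsingleton] at hr
      have h2 : |r| ≤ c ^ 2 := by
        refine (Real.norm_eq_abs r ▸ spectrum.norm_le_norm_of_mem hr).trans ?_
        rw [ha', map_mul, map_star, CStarRing.norm_star_mul_self, sq]
        exact mul_le_mul hc.le hc.le (norm_nonneg _) hc0.le
      show √(c ^ 2 / max |r| (c ^ 2)) = 1
      rw [max_eq_right h2, div_self (pow_ne_zero 2 hc0.ne'), Real.sqrt_one]
    rw [map_mul, h1, mul_one]
  · refine abs_le_of_sq_le_sq' ?_ hc0.le |>.2
    have h3 : ‖x * cfc e a‖ ^ 2 = ‖cfc (fun t => e t * t * e t) a‖ := by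
      rw [sq, ← CStarRing.norm_star_mul_self, star_mul,
        (IsSelfAdjoint.cfc (f := e) (a := a)).star_eq,
        show cfc e a * star x * (x * cfc e a) = cfc e a * a * cfc e a by
          rw [ha']; simp only [mul_assoc]]
      conv_lhs => enter [1, 1, 2]; rw [← cfc_id' ℝ a]
      rw [← cfc_mul e (fun t : ℝ => t) a hec.continuousOn continuousOn_id,
        ← cfc_mul (fun t => e t * t) e a (hec.mul continuous_id).continuousOn hec.continuousOn]
    rw [h3]
    refine norm_cfc_le (by positivity) fun t _ => ?_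
    have h4 : e t * e t = c ^ 2 / max |t| (c ^ 2) :=
      Real.mul_self_sqrt (div_nonneg (by positivity) (hm t).le)
    rw [Real.norm_eq_abs, show e t * t * e t = t * (e t * e t) by ring, h4, abs_mul,
      abs_div, abs_of_pos (hm t), abs_of_nonneg (sq_nonneg c), ← mul_div_assoc,
      div_le_iff₀ (hm t), mul_comm]
    exact mul_le_mul_of_nonneg_left (le_max_left _ _) (sq_nonneg c)

/-- A product of exponentials. -/
def prodExp (f : ι → T) (l : List ι) : T :=
  (l.map fun i => NormedSpace.exp (Complex.I • f i)).prod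

theorem prodExp_unitary {f : ι → T} (hf : ∀ i, IsSelfAdjoint (f i)) :
    ∀ l : List ι, prodExp f l ∈ unitary T
  | [] => one_mem _
  | i :: l => mul_mem (selfAdjoint.expUnitary ⟨f i, hf i⟩).2 (prodExp_unitary hf l)

theorem map_prodExp (ψ : S →⋆ₐ[ℂ] T) (f : ι → S) (l : List ι) :
    ψ (prodExp f l) = prodExp (fun i => ψ (f i)) l := by
  let +nondep : NormedAlgebra ℚ S := NormedAlgebra.restrictScalars ℚ ℂ S
  let +nondep : NormedAlgebra ℚ T := NormedAlgebra.restrictScalars ℚ ℂ T
  rw [prodExp, prodExp, map_list_prod, List.map_map]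
  refine congrArg List.prod (List.map_congr_left fun i _ => ?_)
  rw [Function.comp_apply, NormedSpace.map_exp ψ (map_continuous ψ), map_smul]

theorem norm_le_one_of_mem_unitary {u : T} (hu : u ∈ unitary T) : ‖u‖ ≤ 1 := by
  rcases subsingleton_or_nontrivial T with h | h
  · rw [Subsingleton.elim u 0, norm_zero]; exact zero_le_one
  · exact (CStarRing.norm_of_mem_unitary hu).le

theorem norm_prodExp_sub_le {f f' : ι → T} (hf : ∀ i, IsSelfAdjoint (f i))
    (hf' : ∀ i, IsSelfAdjoint (f' i)) (l : List ι) :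
    ‖prodExp f l - prodExp f' l‖ ≤ (l.map fun i => ‖f i - f' i‖).sum := by
  induction l with
  | nil => simp [prodExp]
  | cons i l ih =>
    show ‖NormedSpace.exp (Complex.I • f i) * prodExp f l -
      NormedSpace.exp (Complex.I • f' i) * prodExp f' l‖ ≤ _
    rw [List.map_cons, List.sum_cons, show NormedSpace.exp (Complex.I • f i) * prodExp f l -
      NormedSpace.exp (Complex.I • f' i) * prodExp f' l =
      (NormedSpace.exp (Complex.I • f i) - NormedSpace.exp (Complex.I • f' i)) * prodExp f l +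
      NormedSpace.exp (Complex.I • f' i) * (prodExp f l - prodExp f' l) by noncomm_ring]
    exact (norm_add_le _ _).trans (add_le_add
      ((norm_mul_le _ _).trans ((mul_le_of_le_one_right (norm_nonneg _)
        (norm_le_one_of_mem_unitary (prodExp_unitary hf l))).trans
          (norm_exp_I_sub_le (hf i) (hf' i))))
      ((norm_mul_le _ _).trans ((mul_le_of_le_one_left (norm_nonneg _)
        (norm_exp_I_le_one (hf' i))).trans ih)))

theorem norm_conj_sub_conj_le {u v y : T} (hu : ‖u‖ ≤ 1) (hv : ‖v‖ ≤ 1) :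
    ‖star u * y * u - star v * y * v‖ ≤ 2 * ‖y‖ * ‖u - v‖ := by
  rw [show star u * y * u - star v * y * v = star (u - v) * y * u + star v * y * (u - v) by
    rw [star_sub]; noncomm_ring]
  refine (norm_add_le _ _).trans ?_
  have h1 : ‖star (u - v) * y * u‖ ≤ ‖u - v‖ * ‖y‖ := by
    refine ((norm_mul_le _ _).trans (mul_le_of_le_one_right (norm_nonneg _) hu)).trans ?_
    exact (norm_mul_le _ _).trans (le_of_eq (by rw [norm_star]))
  have h2 : ‖star v * y * (u - v)‖ ≤ ‖y‖ * ‖u - v‖ := by
    refine (norm_mul_le _ _).trans (mul_le_mul_of_nonneg_right ?_ (norm_nonneg _))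
    exact (norm_mul_le _ _).trans (mul_le_of_le_one_left (norm_nonneg _) (by rwa [norm_star]))
  linarith

/-- A unitary corrected by a unitary which commutes with `x` and `b` moves `x` as near to `b`. -/
theorem norm_conj_correct {u s x b : T} (hs : s ∈ unitary T) (hb : Commute s b) :
    ‖star (u * star s) * x * (u * star s) - b‖ = ‖star u * x * u - b‖ := by
  have e : star (u * star s) * x * (u * star s) - b = s * (star u * x * u - b) * star s := by
    rw [mul_sub, sub_mul, hb.eq, mul_assoc b, (Unitary.mem_iff.1 hs).2, mul_one, star_mul,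
      star_star]
    simp only [mul_assoc]
  rw [e, CStarRing.norm_mul_mem_unitary _ (Unitary.star_mem hs),
    CStarRing.norm_mem_unitary_mul _ hs]

end general

section block

variable {T T' T'' : Type*} [CStarAlgebra T] [PartialOrder T] [StarOrderedRing T]
  [CStarAlgebra T'] [PartialOrder T'] [StarOrderedRing T']
  [CStarAlgebra T''] [PartialOrder T''] [StarOrderedRing T''] {p q : ℕ}

theorem blk_ext' {f g : Blk T p q}
    (h : ∀ t x y, (f : MPath T (Ix p q)) t x y = (g : MPath T (Ix p q)) t x y) : f = g :=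
  Subtype.ext (ContinuousMap.ext fun t => CStarMatrix.ext fun x y => h t x y)

theorem mapBlk_mapBlk (ψ : T' →⋆ₐ[ℂ] T'') (φ : T →⋆ₐ[ℂ] T') (f : Blk T p q) :
    mapBlk p q ψ (mapBlk p q φ f) = mapBlk p q (ψ.comp φ) f :=
  blk_ext' fun _ _ _ => rfl

theorem mul_const_apply (f : Blk T p q) (c : T) (t : unitInterval) (x y : Ix p q) :
    ((f * const T p q c : Blk T p q) : MPath T (Ix p q)) t x y =
      (f : MPath T (Ix p q)) t x y * c := by
  simp only [MulMemClass.coe_mul, ContinuousMap.mul_apply, const_apply, CStarMatrix.mul_apply,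
    dg_apply, mul_ite, mul_zero, Finset.sum_ite_eq', Finset.mem_univ, if_true]

/-- Elements which vanish in a quotient are killed by `c`. -/
theorem norm_mapBlk_mul_const_le (π : T →⋆ₐ[ℂ] T'') (ψ : T →⋆ₐ[ℂ] T') (c : T')
    (h : ∀ s, π s = 0 → ψ s * c = 0) (x : Blk T p q) :
    ‖mapBlk p q ψ x * const T' p q c‖ ≤ ‖mapBlk p q π x‖ * ‖c‖ := by
  have hc : ‖const T' p q c‖ ≤ ‖c‖ := NonUnitalStarAlgHom.norm_apply_le _ c
  refine le_of_forall_pos_le_add fun ε hε => ?_
  obtain ⟨y, hy, hyn⟩ := exists_norm_le_lift (mapBlk p q π) x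
    (lt_add_of_pos_right _ (show 0 < ε / (‖c‖ + 1) by positivity))
  have e : mapBlk p q ψ x * const T' p q c = mapBlk p q ψ y * const T' p q c := by
    rw [← sub_eq_zero, ← sub_mul, ← map_sub]
    have hz : mapBlk p q π (x - y) = 0 := by rw [map_sub, hy, sub_self]
    refine blk_ext' fun t i j => ?_
    rw [mul_const_apply]
    exact h _ (congrArg (fun f : Blk T'' p q => (f : MPath T'' (Ix p q)) t i j) hz)
  rw [e]
  refine (norm_mul_le _ _).trans ((mul_le_mul
    ((NonUnitalStarAlgHom.norm_apply_le _ y).trans hyn) hc (norm_nonneg _) (by positivity)).trans ?_)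
  have : ε / (‖c‖ + 1) * ‖c‖ ≤ ε := by
    rw [div_mul_eq_mul_div, div_le_iff₀ (by positivity)]; nlinarith [norm_nonneg c]
  linarith

variable (T) in
/-- A sum of products. -/
def sumEl {Z : Type*} (W : Z → T) (d : List (Z × Blk ℂ p q)) : Blk T p q :=
  (d.map fun zg => const T p q (W zg.1) * scBlk T p q zg.2).sum

variable (T) in
/-- Its self-adjoint part. -/
def saEl {Z : Type*} (W : Z → T) (d : List (Z × Blk ℂ p q)) : Blk T p q :=
  (1 / 2 : ℂ) • (sumEl T W d + star (sumEl T W d))

variable (T) in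
/-- A product of exponentials of self-adjoint parts of sums of products. -/
def pushEl {Z : Type*} (W : Z → T) (l : List (List (Z × Blk ℂ p q))) : Blk T p q :=
  prodExp (saEl T W) l

theorem saEl_selfAdjoint {Z : Type*} (W : Z → T) (d : List (Z × Blk ℂ p q)) :
    IsSelfAdjoint (saEl T W d) := by
  simp [IsSelfAdjoint, saEl, star_smul, add_comm]

theorem pushEl_unitary {Z : Type*} (W : Z → T) (l : List (List (Z × Blk ℂ p q))) :
    pushEl T W l ∈ unitary (Blk T p q) :=
  prodExp_unitary (saEl_selfAdjoint W) l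

theorem mapBlk_pushEl (ψ : T →⋆ₐ[ℂ] T') {Z : Type*} (W : Z → T)
    (l : List (List (Z × Blk ℂ p q))) :
    mapBlk p q ψ (pushEl T W l) = pushEl T' (fun z => ψ (W z)) l := by
  rw [pushEl, pushEl, map_prodExp]
  congr 1
  funext d
  have h : mapBlk p q ψ (sumEl T W d) = sumEl T' (fun z => ψ (W z)) d := by
    rw [sumEl, sumEl, map_list_sum, List.map_map]
    refine congrArg List.sum (List.map_congr_left fun zg _ => ?_)
    rw [Function.comp_apply, map_mul, mapBlk_const, mapBlk_scBlk]
  rw [saEl, saEl, map_smul, map_add, map_star, h]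

theorem norm_saEl_sub_le {Z : Type*} {W W' : Z → T} {η : ℝ} (hη : 0 ≤ η)
    {d : List (Z × Blk ℂ p q)} (h : ∀ zg ∈ d, ‖W zg.1 - W' zg.1‖ ≤ η) :
    ‖saEl T W d - saEl T W' d‖ ≤ η * (d.map fun zg => ‖zg.2‖).sum := by
  have hs : ‖sumEl T W d - sumEl T W' d‖ ≤ η * (d.map fun zg => ‖zg.2‖).sum := by
    induction d with
    | nil => simp [sumEl]
    | cons zg d ih =>
      simp only [sumEl, List.map_cons, List.sum_cons] at ih ⊢
      rw [add_sub_add_comm, ← sub_mul, ← map_sub, mul_add]
      refine (norm_add_le _ _).trans (add_le_add ((norm_mul_le _ _).trans (mul_le_mul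
        ((NonUnitalStarAlgHom.norm_apply_le _ _).trans (h zg List.mem_cons_self))
        (NonUnitalStarAlgHom.norm_apply_le _ _) (norm_nonneg _) hη))
        (ih fun x hx => h x (List.mem_cons_of_mem _ hx)))
  rw [saEl, saEl, ← smul_sub, norm_smul, add_sub_add_comm, ← star_sub]
  refine (mul_le_mul_of_nonneg_left (norm_add_le _ _) (norm_nonneg _)).trans ?_
  rw [norm_star, show ‖(1 / 2 : ℂ)‖ = 1 / 2 by simp]
  linarith

/-- `pushEl` is Lipschitz in the assignment. -/
theorem norm_pushEl_sub_le {Z : Type*} {W W' : Z → T} {η : ℝ} (hη : 0 ≤ η)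
    {l : List (List (Z × Blk ℂ p q))}
    (h : ∀ d ∈ l, ∀ zg ∈ d, ‖W zg.1 - W' zg.1‖ ≤ η) :
    ‖pushEl T W l - pushEl T W' l‖ ≤ η * (l.map fun d => (d.map fun zg => ‖zg.2‖).sum).sum := by
  refine (norm_prodExp_sub_le (saEl_selfAdjoint W) (saEl_selfAdjoint W') l).trans ?_
  rw [← List.sum_map_mul_left]
  exact List.sum_le_sum fun d hd => norm_saEl_sub_le hη (h d hd)

/-- A product of exponentials is near one built from simple tensors. -/
theorem exists_data {T : Type} [CStarAlgebra T] [PartialOrder T] [StarOrderedRing T]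
    (hs : List (selfAdjoint (Blk T p q))) {δ : ℝ} (hδ : 0 < δ) :
    ∃ l : List (List (T × Blk ℂ p q)), ‖pushEl T id l -
      ((hs.map selfAdjoint.expUnitary).prod : Blk T p q)‖ ≤ δ := by
  induction hs generalizing δ with
  | nil => exact ⟨[], by simp [pushEl, prodExp, hδ.le]⟩
  | cons h hs ih =>
    obtain ⟨l, hl⟩ := ih (half_pos hδ)
    obtain ⟨L, a, g, hag⟩ := density T p q (h : Blk T p q) (δ / 2) (half_pos hδ)
    set d := List.ofFn fun i => (a i, g i) with hd
    have hsum : sumEl T id d = ∑ i, const T p q (a i) * scBlk T p q (g i) := by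
      rw [hd, sumEl, List.map_ofFn, List.sum_ofFn]
      rfl
    set x := (h : Blk T p q) with hx
    have hdh : ‖saEl T id d - x‖ ≤ δ / 2 := by
      set y := sumEl T id d with hy
      have e : saEl T id d - x = (1 / 2 : ℂ) • ((y - x) + star (y - x)) := by
        rw [saEl, ← hy, star_sub, h.2.star_eq]
        module
      rw [e, norm_smul, show ‖(1 / 2 : ℂ)‖ = 1 / 2 by simp]
      refine (mul_le_mul_of_nonneg_left (norm_add_le _ _) (by norm_num)).trans ?_
      rw [norm_star, norm_sub_rev]
      rw [← hsum] at hag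
      linarith
    refine ⟨d :: l, ?_⟩
    set R := ((hs.map selfAdjoint.expUnitary).prod : Blk T p q) with hR
    show ‖NormedSpace.exp (Complex.I • saEl T id d) * pushEl T id l -
      NormedSpace.exp (Complex.I • x) * R‖ ≤ δ
    have hQ1 : ‖pushEl T id l‖ ≤ 1 := norm_le_one_of_mem_unitary (pushEl_unitary id l)
    rw [show NormedSpace.exp (Complex.I • saEl T id d) * pushEl T id l -
        NormedSpace.exp (Complex.I • x) * R =
      (NormedSpace.exp (Complex.I • saEl T id d) - NormedSpace.exp (Complex.I • x)) *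
        pushEl T id l +
      NormedSpace.exp (Complex.I • x) * (pushEl T id l - R) by noncomm_ring]
    refine (norm_add_le _ _).trans ((add_le_add ((norm_mul_le _ _).trans
      ((mul_le_of_le_one_right (norm_nonneg _) hQ1).trans
        ((norm_exp_I_sub_le (saEl_selfAdjoint id d) h.2).trans hdh)))
      ((norm_mul_le _ _).trans ((mul_le_of_le_one_left (norm_nonneg _)
        (norm_exp_I_le_one h.2)).trans hl))).trans (le_of_eq (add_halves δ)))

end block

section representatives

variable {E : Type*} [CStarAlgebra E] [PartialOrder E] [StarOrderedRing E] {ω : Ultrafilter ℕ}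

/-- Evaluation at an index. -/
def evHom (j : ℕ) : (ℕ →ᵇ E) →⋆ₐ[ℂ] E where
  toFun f := f j
  map_one' := rfl
  map_mul' _ _ := rfl
  map_zero' := rfl
  map_add' _ _ := rfl
  commutes' _ := rfl
  map_star' _ := rfl

theorem evHom_apply (j : ℕ) (f : ℕ →ᵇ E) : evHom j f = f j := rfl

variable [PartialOrder (ℕ →ᵇ E)] [StarOrderedRing (ℕ →ᵇ E)]
  [PartialOrder (UPow E ω)] [StarOrderedRing (UPow E ω)] {p q : ℕ}

/-- A bound in the ultrapower holds at almost every index. -/
theorem eventually_norm_mapBlk (D : Blk (ℕ →ᵇ E) p q) {r ε : ℝ} (hε : 0 < ε)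
    (h : ‖mapBlk p q (UPow.mkHom : (ℕ →ᵇ E) →⋆ₐ[ℂ] UPow E ω) D‖ ≤ r) :
    ∀ᶠ j in (ω : Filter ℕ), ‖mapBlk p q (evHom j) D‖ ≤ r + ε := by
  obtain ⟨y, hy, hyn⟩ := exists_norm_le_lift (mapBlk p q (UPow.mkHom : (ℕ →ᵇ E) →⋆ₐ[ℂ] UPow E ω)) D
    (lt_of_le_of_lt h (show r < r + ε / 2 by linarith))
  set z : MPath (ℕ →ᵇ E) (Ix p q) := Subtype.val (D - y) with hz
  have hzmk : ∀ t a b, (UPow.mk (z t a b) : UPow E ω) = 0 := fun t a b => by
    have h0 : mapBlk p q (UPow.mkHom : (ℕ →ᵇ E) →⋆ₐ[ℂ] UPow E ω) (D - y) = 0 := by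
      rw [map_sub, hy, sub_self]
    exact congrArg (fun f : Blk (UPow E ω) p q => (f : MPath (UPow E ω) (Ix p q)) t a b) h0
  have hpt : ∀ t, Tendsto (fun j => mapM (Ix p q) (evHom j) (z t)) (ω : Filter ℕ) (𝓝 0) := by
    intro t
    have h1 : Tendsto (fun j => (fun a b => z t a b j : Matrix (Ix p q) (Ix p q) E))
        (ω : Filter ℕ) (𝓝 0) := by
      refine tendsto_pi_nhds.2 fun a => tendsto_pi_nhds.2 fun b => ?_
      refine tendsto_zero_iff_norm_tendsto_zero.2 ?_
      have := UPow.mk_eq_mk.1 ((hzmk t a b).trans (map_zero (UPow.mk (A := E) (ω := ω))).symm)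
      rwa [sub_zero, mem_nullIdeal] at this
    have h2 := ((CStarMatrix.ofMatrixL (m := Ix p q) (n := Ix p q) (A := E)).continuous.tendsto
      (0 : Matrix (Ix p q) (Ix p q) E)).comp h1
    rw [map_zero] at h2
    exact h2
  obtain ⟨N, hNsub, hNfin, hN⟩ := Metric.finite_approx_of_totallyBounded
    (isCompact_range z.continuous).totallyBounded (ε / 4) (by positivity)
  have hev : ∀ᶠ j in (ω : Filter ℕ), ∀ M ∈ N, ‖mapM (Ix p q) (evHom j) M‖ ≤ ε / 4 := by
    rw [hNfin.eventually_all]
    intro M hM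
    obtain ⟨t, rfl⟩ := hNsub hM
    filter_upwards [(tendsto_zero_iff_norm_tendsto_zero.1 (hpt t)).eventually
      (eventually_lt_nhds (show (0 : ℝ) < ε / 4 by positivity))] with j hj using hj.le
  filter_upwards [hev] with j hj
  have hzj : ‖mapBlk p q (evHom j) (D - y)‖ ≤ ε / 2 := by
    refine (ContinuousMap.norm_le _ (by positivity)).2 fun t => ?_
    obtain ⟨M, hM, hd⟩ := Set.mem_iUnion₂.1 (hN ⟨t, rfl⟩)
    rw [mem_ball_iff_norm] at hd
    show ‖mapM (Ix p q) (evHom j) (z t)‖ ≤ ε / 2
    have h1 := NonUnitalStarAlgHom.norm_apply_le (mapM (Ix p q) (evHom j)) (z t - M)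
    rw [map_sub] at h1
    linarith [norm_le_norm_add_norm_sub' (mapM (Ix p q) (evHom j) (z t))
      (mapM (Ix p q) (evHom j) M), hj M hM]
  have hyj := (NonUnitalStarAlgHom.norm_apply_le (mapBlk p q (evHom j)) y).trans hyn
  rw [map_sub] at hzj
  linarith [norm_le_norm_add_norm_sub' (mapBlk p q (evHom j) D) (mapBlk p q (evHom j) y)]

end representatives

end

end Vale.Agent.P095.NU
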