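import Vale.Agent.P095.NU.Main
import Vale.Agent.P095.NU.Assemble

/-!
# P095: every action of an amenable group on a separable Z-stable C⋆-algebra is equivariantly
Z-stable, with or without a unit
-/

namespace Vale.Agent.P095.NU

open Vale.Agent.P101.JS Vale.Agent.P095 TopologicalSpace
open scoped CStarAlgebra MultiplierAlgebra

noncomputable section

universe u v

attribute [local instance 50] CStarAlgebra.spectralOrder CStarAlgebra.spectralOrderedRing

/-- Every action of a countable amenable group on a separable Z-stable C⋆-algebra is equivariantly
Z-stable. -/
theorem equivariant_of_tensorLimit (A : Type u) [NonUnitalCStarAlgebra A] [SeparableSpace A]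
    (h : IsTensorLimit A frame) (G : Type v) [Group G] [Countable G] (hG : Elem.Folner G)
    (α : G → A → A) (hα : IsAction α) : IsEquivariantTensorLimit A α frame := by
  have : SeparableSpace (Unitization ℂ A) := Maps.separableSpace_unitization
  obtain ⟨β, hαβ, hβ⟩ := exists_unitHom hα
  exact equivariant_of_stage β hβ hαβ (Maps.no_character_of_tensorLimit h)
    (stageStatement_of_tensorLimit h hG β hβ)

end

end Vale.Agent.P095.NU
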