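import Vale.Agent.P101.JS.HalfFlip

/-!
# P095, non-unital algebras: the half flip is a product of exponentials

The half flip depends continuously on the unitary path, and for the constant path `1` it can be
contracted to `1` inside the four boundary conditions. So it lies in the path component of `1` of
the unitary group and is a product of exponentials of self-adjoint elements.
-/

namespace Vale.Agent.P095.NU

open Vale.Agent.P101.JS Vale.Agent.P101.JS.Flip Filter
open scoped ComplexOrder CStarAlgebra Topology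

noncomputable section

variable {p q : ℕ}

section scalar

/-- `-2 x y / (x + y)`, with the value `0` at the origin. -/
def aFun (x y : ℝ) : ℝ := -(2 * (x * y)) / (x + y)

theorem aFun_eq {x y : ℝ} (hx : 0 ≤ x) (hy : 0 ≤ y) : al x y + be x y - 1 = aFun x y := by
  by_cases h : x + y = 0
  · have hx0 : x = 0 := by linarith
    have hy0 : y = 0 := by linarith
    simp [al, be, aFun, hx0, hy0]
  · rw [al, if_neg h, be, aFun]
    field_simp
    ring

theorem abs_aFun_le {x y : ℝ} (hx : 0 ≤ x) (hy : 0 ≤ y) : |aFun x y| ≤ 2 * y := by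
  rw [aFun, abs_div, abs_neg, abs_of_nonneg (by positivity), abs_of_nonneg (by positivity)]
  rcases eq_or_lt_of_le (add_nonneg hx hy) with h | h
  · rw [← h, div_zero]; positivity
  · rw [div_le_iff₀ h]; nlinarith

theorem continuous_aFun :
    Continuous fun z : unitInterval × unitInterval => aFun (z.1 : ℝ) z.2 := by
  rw [continuous_iff_continuousAt]
  rintro ⟨x₀, y₀⟩
  by_cases hne : (x₀ : ℝ) + y₀ = 0
  swap
  · unfold aFun
    exact ContinuousAt.div (by fun_prop) (by fun_prop) hne
  · have hx : (x₀ : ℝ) = 0 := by linarith [x₀.2.1, y₀.2.1]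
    have hy : (y₀ : ℝ) = 0 := by linarith [x₀.2.1, y₀.2.1]
    have h0 : aFun (x₀ : ℝ) y₀ = 0 := by simp [aFun, hx, hy]
    rw [ContinuousAt, h0]
    refine squeeze_zero_norm (a := fun z : unitInterval × unitInterval => 2 * (z.2 : ℝ))
      (fun z => abs_aFun_le z.1.2.1 z.2.2.1) ?_
    exact (continuous_const.mul (continuous_subtype_val.comp continuous_snd)).tendsto' _ _
      (by simp [hy])

end scalar

section matrices

variable {L : Type} [Fintype L] [DecidableEq L] {σ : Equiv.Perm L}

theorem flipMat_add_two (σ : Equiv.Perm L) (s : ℝ) : flipMat σ (s + 2) = flipMat σ s := by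
  simp only [flipMat, Complex.ofReal_add, Complex.ofReal_ofNat, mul_add, Complex.exp_add]
  rw [show (↑Real.pi * Complex.I * (2 : ℂ)) = 2 * ↑Real.pi * Complex.I by ring,
    Complex.exp_two_pi_mul_I, mul_one]

theorem norm_conj_sub_le {A : Type*} [CStarAlgebra A] {a b X : A} (ha : ‖a‖ ≤ 1) (hb : ‖b‖ ≤ 1)
    (hX : ‖X‖ ≤ 1) : ‖star a * X * a - star b * X * b‖ ≤ 2 * ‖a - b‖ := by
  rw [show star a * X * a - star b * X * b = star (a - b) * X * a + star b * X * (a - b) by
    rw [star_sub]; noncomm_ring, two_mul]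
  refine (norm_add_le _ _).trans (add_le_add ?_ ?_)
  · refine (norm_mul_le _ _).trans ((mul_le_of_le_one_right (norm_nonneg _) ha).trans ?_)
    refine (norm_mul_le _ _).trans ((mul_le_of_le_one_right (norm_nonneg _) hX).trans ?_)
    rw [norm_star]
  · refine (norm_mul_le _ _).trans (mul_le_of_le_one_left (norm_nonneg _) ?_)
    exact (norm_mul_le _ _).trans (mul_le_one₀ (by rwa [norm_star]) (norm_nonneg _) hX)

theorem norm_le_one_of_unitary {A : Type*} [CStarAlgebra A] {u : A} (hu : u ∈ unitary A) :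
    ‖u‖ ≤ 1 := by
  rcases subsingleton_or_nontrivial A with h | h
  · rw [Subsingleton.elim u 0, norm_zero]; exact zero_le_one
  · exact (CStarRing.norm_of_mem_unitary hu).le

theorem norm_mul_sub_mul_le {A : Type*} [CStarAlgebra A] {a a' b b' : A} (ha : ‖a'‖ ≤ 1)
    (hb : ‖b‖ ≤ 1) : ‖a * b - a' * b'‖ ≤ ‖a - a'‖ + ‖b - b'‖ := by
  rw [show a * b - a' * b' = (a - a') * b + a' * (b - b') by noncomm_ring]
  exact (norm_add_le _ _).trans (add_le_add
    ((norm_mul_le _ _).trans (mul_le_of_le_one_right (norm_nonneg _) hb))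
    ((norm_mul_le _ _).trans (mul_le_of_le_one_left (norm_nonneg _) ha)))

/-- A unitary matrix is an exponential. -/
theorem exists_expUnitary (V : unitary (Mat L)) :
    ∃ h : selfAdjoint (Mat L), selfAdjoint.expUnitary h = V := by
  have hfin : (spectrum ℂ (V : Mat L)).Finite := by
    rw [← AlgEquiv.spectrum_eq (CStarMatrix.ofMatrixStarAlgEquiv (n := L) (A := ℂ)).symm.toAlgEquiv
      (V : Mat L)]
    exact Matrix.finite_spectrum _
  have hVn : IsStarNormal (V : Mat L) := inferInstance
  refine ⟨⟨cfc (Complex.ofReal ∘ Complex.arg : ℂ → ℂ) (V : Mat L), IsSelfAdjoint.cfc_arg _⟩,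
    Subtype.ext ?_⟩
  rw [selfAdjoint.expUnitary_coe, ← CFC.exp_eq_normedSpace_exp (𝕜 := ℂ),
    ← cfc_smul Complex.I _ (V : Mat L) (hfin.continuousOn _),
    ← cfc_comp' NormedSpace.exp (fun z => Complex.I • (Complex.ofReal ∘ Complex.arg) z) (V : Mat L)
      (hfin.image _ |>.continuousOn _) (hfin.continuousOn _)]
  conv_rhs => rw [← cfc_id' ℂ (V : Mat L)]
  refine cfc_congr fun z hz => ?_
  have hz1 : ‖z‖ = 1 := by simpa using spectrum.subset_circle_of_unitary V.2 hz
  rw [← Complex.exp_eq_exp_ℂ, smul_eq_mul, Function.comp_apply, mul_comm]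
  have := Complex.norm_mul_exp_arg_mul_I z
  rwa [hz1, Complex.ofReal_one, one_mul] at this

theorem joined_one_unitary (V : unitary (Mat L)) : Joined 1 V := by
  obtain ⟨h, rfl⟩ := exists_expUnitary V
  exact selfAdjoint.joined_one_expUnitary h

/-- The unitary paths are connected. -/
theorem joined_one_mPath (U : unitary (MPath ℂ L)) : Joined 1 U := by
  have hmem : ∀ (f : MPath ℂ L), (∀ t, f t ∈ unitary (Mat L)) → f ∈ unitary (MPath ℂ L) :=
    fun f h => Unitary.mem_iff.2 ⟨ContinuousMap.ext fun t => (Unitary.mem_iff.1 (h t)).1,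
      ContinuousMap.ext fun t => (Unitary.mem_iff.1 (h t)).2⟩
  have hUt : ∀ t, (U : MPath ℂ L) t ∈ unitary (Mat L) := fun t => Unitary.mem_iff.2
    ⟨DFunLike.congr_fun (Unitary.mem_iff.1 U.2).1 t, DFunLike.congr_fun (Unitary.mem_iff.1 U.2).2 t⟩
  have hc : Continuous fun V : unitary (Mat L) =>
      (⟨ContinuousMap.const unitInterval (V : Mat L), hmem _ fun _ => V.2⟩ :
        unitary (MPath ℂ L)) :=
    (ContinuousMap.continuous_const'.comp continuous_subtype_val).subtype_mk _
  obtain ⟨γ⟩ := joined_one_unitary ⟨(U : MPath ℂ L) 0, hUt 0⟩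
  refine Joined.trans ⟨(γ.map hc).cast ?_ rfl⟩ ⟨{
    toFun := fun s => ⟨⟨fun t => (U : MPath ℂ L) (t * s),
      (U : MPath ℂ L).continuous.comp (by fun_prop)⟩, hmem _ fun t => hUt _⟩
    continuous_toFun := Continuous.subtype_mk (ContinuousMap.continuous_of_continuous_uncurry _
      (by exact (U : MPath ℂ L).continuous.comp (continuous_snd.mul continuous_fst))) _
    source' := ?_
    target' := ?_ }⟩
  · exact Subtype.ext (ContinuousMap.ext fun _ => rfl)
  · refine Subtype.ext (ContinuousMap.ext fun t => ?_)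
    show (U : MPath ℂ L) (t * 0) = (U : MPath ℂ L) 0
    rw [mul_zero]
  · refine Subtype.ext (ContinuousMap.ext fun t => ?_)
    show (U : MPath ℂ L) (t * 1) = (U : MPath ℂ L) t
    rw [mul_one]

end matrices

section lift

variable {B : Type*} [CStarAlgebra B] {L : Type} [Fintype L] [DecidableEq L]
  (Φ : B →⋆ₐ[ℂ] C(unitInterval × unitInterval, Mat L))

theorem continuous_lift {T : Type*} [TopologicalSpace T] (hn : ∀ b, ‖Φ b‖ = ‖b‖) (H : T → B)
    (h : Continuous fun t => Φ (H t)) : Continuous H := by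
  have hiso : Isometry Φ := AddMonoidHomClass.isometry_of_norm Φ fun b => hn b
  exact hiso.isEmbedding.isInducing.continuous_iff.2 h

/-- A continuous family of unitary functions with lifts joins its end values. -/
theorem joined_of_lift (hΦ : Function.Injective Φ) (hn : ∀ b, ‖Φ b‖ = ‖b‖)
    (u : unitInterval → unitInterval × unitInterval → Mat L)
    (hc : Continuous (Function.uncurry u)) (hu : ∀ s z, u s z ∈ unitary (Mat L))
    (hex : ∀ s, ∃ H, ∀ z, Φ H z = u s z)
    (H₀ H₁ : unitary B) (h₀ : ∀ z, Φ (H₀ : B) z = u 0 z) (h₁ : ∀ z, Φ (H₁ : B) z = u 1 z) :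
    Joined H₀ H₁ := by
  choose H hH using hex
  have hHc : Continuous H := continuous_lift Φ hn H
    (ContinuousMap.continuous_of_continuous_uncurry _ (hc.congr fun ⟨s, z⟩ => (hH s z).symm))
  have hHu : ∀ s, H s ∈ unitary B := fun s => by
    have := conj_of_flat Φ hΦ hn (hu s) (H s) (hH s)
    exact Unitary.mem_iff.2 ⟨this.1, this.2.1⟩
  refine ⟨{ toFun := fun s => ⟨H s, hHu s⟩
            continuous_toFun := hHc.subtype_mk _
            source' := ?_
            target' := ?_ }⟩
  · exact Subtype.ext (hΦ (ContinuousMap.ext fun z => (hH 0 z).trans (h₀ z).symm))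
  · exact Subtype.ext (hΦ (ContinuousMap.ext fun z => (hH 1 z).trans (h₁ z).symm))

/-- A Lipschitz family of functions has continuous lifts. -/
theorem continuous_unitary_lift {A : Type*} [CStarAlgebra A] (hn : ∀ b, ‖Φ b‖ = ‖b‖)
    (H : unitary A → unitary B) (u : unitary A → unitInterval × unitInterval → Mat L)
    (hH : ∀ t z, Φ (H t : B) z = u t z) (K : NNReal)
    (h : ∀ (t t' : unitary A) z, ‖u t z - u t' z‖ ≤ K * ‖(t : A) - t'‖) : Continuous H := by
  refine LipschitzWith.continuous (K := K) (LipschitzWith.of_dist_le_mul fun V W => ?_)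
  rw [Subtype.dist_eq, Subtype.dist_eq, dist_eq_norm, dist_eq_norm, ← hn, map_sub,
    ContinuousMap.norm_le _ (mul_nonneg K.coe_nonneg (norm_nonneg _))]
  intro z
  rw [ContinuousMap.sub_apply, hH, hH]
  exact h V W z

end lift

theorem mPath_unitary {L : Type} [Fintype L] [DecidableEq L] (U : unitary (MPath ℂ L))
    (t : unitInterval) : (U : MPath ℂ L) t ∈ unitary (Mat L) :=
  Unitary.mem_iff.2
    ⟨DFunLike.congr_fun (Unitary.mem_iff.1 U.2).1 t, DFunLike.congr_fun (Unitary.mem_iff.1 U.2).2 t⟩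

section lipschitz

variable {U V : MPath ℂ (Ix p q)} (hU : ∀ t, U t ∈ unitary (Mat (Ix p q)))
  (hV : ∀ t, V t ∈ unitary (Mat (Ix p q)))

include hU hV in
theorem norm_flipFun_sub_le (z : unitInterval × unitInterval) :
    ‖flipFun U z - flipFun V z‖ ≤ 8 * ‖U - V‖ := by
  have hd : ∀ t, ‖U t - V t‖ ≤ ‖U - V‖ := fun t => (U - V).norm_coe_le_norm t
  have he : ∀ t, ‖e₁ p q (U t) - e₁ p q (V t)‖ ≤ ‖U - V‖ := fun t => by
    rw [← map_sub]
    exact (NonUnitalStarAlgHom.norm_apply_le (e₁ p q) _).trans (hd t)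
  have hn : ∀ {W : MPath ℂ (Ix p q)}, (∀ t, W t ∈ unitary (Mat (Ix p q))) → ∀ t,
      ‖e₁ p q (W t)‖ ≤ 1 := fun {W} hW t => norm_le_one_of_unitary (Unitary.map_mem _ (hW t))
  have hA : ∀ s, ‖pathA (U 0) s - pathA (V 0) s‖ ≤ 2 * ‖U - V‖ := fun s =>
    (norm_conj_sub_le (hn hU 0) (hn hV 0)
      (norm_le_one_of_unitary (flipMat_unitary swQ_invol s))).trans (by linarith [he 0])
  have hB : ∀ s, ‖pathB (U 1) s - pathB (V 1) s‖ ≤ 2 * ‖U - V‖ := fun s =>
    (norm_conj_sub_le (hn hU 1) (hn hV 1)
      (norm_le_one_of_unitary (flipMat_unitary swP_invol s))).trans (by linarith [he 1])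
  have hmid : ‖mid (U 0) (U 1) ((z.1 : ℝ), (z.2 : ℝ)) -
      mid (V 0) (V 1) ((z.1 : ℝ), (z.2 : ℝ))‖ ≤ 6 * ‖U - V‖ := by
    unfold mid
    refine (norm_mul_sub_mul_le (norm_le_one_of_unitary (mul_mem (pathA_unitary (hV 0) _)
      (pathB_unitary (hV 1) _))) (norm_le_one_of_unitary (pathA_unitary (hU 0) _))).trans ?_
    linarith [(norm_mul_sub_mul_le (a := pathA (U 0) (al z.1 z.2))
      (norm_le_one_of_unitary (pathA_unitary (hV 0) (al z.1 z.2)))
      (norm_le_one_of_unitary (pathB_unitary (hU 1) (max (z.1 : ℝ) z.2)))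
      (b' := pathB (V 1) (max (z.1 : ℝ) z.2))).trans
        (add_le_add (hA (al z.1 z.2)) (hB (max (z.1 : ℝ) z.2))), hA (be z.1 z.2)]
  have h2 : ‖e₂ p q (U z.2) - e₂ p q (V z.2)‖ ≤ ‖U - V‖ := by
    rw [← map_sub]
    exact (NonUnitalStarAlgHom.norm_apply_le (e₂ p q) _).trans (hd _)
  have h3 : ‖star (e₁ p q (U z.1)) - star (e₁ p q (V z.1))‖ ≤ ‖U - V‖ := by
    rw [← star_sub, norm_star]
    exact he _
  unfold flipFun
  refine (norm_mul_sub_mul_le (norm_le_one_of_unitary (mul_mem (mul_mem
    (Unitary.map_mem (e₂ p q) (hV _)) full_unitary) (mid_unitary (hV 0) (hV 1) _)))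
    (norm_le_one_of_unitary (Unitary.star_mem (Unitary.map_mem (e₁ p q) (hU _))))).trans ?_
  have h4 := (norm_mul_sub_mul_le (a := e₂ p q (U z.2) * full)
    (norm_le_one_of_unitary (mul_mem (Unitary.map_mem (e₂ p q) (hV z.2)) full_unitary))
    (norm_le_one_of_unitary (mid_unitary (hU 0) (hU 1) ((z.1 : ℝ), (z.2 : ℝ))))
    (b' := mid (V 0) (V 1) ((z.1 : ℝ), (z.2 : ℝ))))
  have h5 : ‖e₂ p q (U z.2) * full - e₂ p q (V z.2) * full‖ ≤ ‖U - V‖ := by
    rw [← sub_mul, CStarRing.norm_mul_mem_unitary _ full_unitary]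
    exact h2
  linarith

end lipschitz

/-- The middle part of the flip of the constant path. -/
theorem mid_one (w : ℝ × ℝ) : mid (1 : Mat (Ix p q)) 1 w = flipMat (swQ p q) (al w.1 w.2) *
    flipMat (swP p q) (max w.1 w.2) * flipMat (swQ p q) (be w.1 w.2) := by
  have h1 : e₁ p q (1 : Mat (Ix p q)) = 1 := map_one _
  simp only [mid, pathA, pathB, h1, star_one, one_mul, mul_one]

theorem flipFun_one_eq (z : unitInterval × unitInterval) :
    flipFun (1 : MPath ℂ (Ix p q)) z = full * mid (1 : Mat (Ix p q)) 1 ((z.1 : ℝ), (z.2 : ℝ)) := by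
  have h1 : e₁ p q (1 : Mat (Ix p q)) = 1 := map_one _
  have h2 : e₂ p q (1 : Mat (Ix p q)) = 1 := map_one _
  rw [flipFun]
  simp only [ContinuousMap.one_apply, h1, h2, star_one, one_mul, mul_one]

/-- The flip of the constant path. -/
theorem flipFun_one (z : unitInterval × unitInterval) :
    flipFun (1 : MPath ℂ (Ix p q)) z =
      flipMat (swQ p q) (aFun z.1 z.2) * flipMat (swP p q) (max (z.1 : ℝ) z.2 - 1) := by
  have hP : ∀ s t, Commute (flipMat (swP p q) s) (flipMat (swQ p q) t) := fun s t =>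
    flipMat_commute (flipMat_commute swPQ_commute.symm t).symm s
  rw [flipFun_one_eq, mid_one]
  dsimp only
  rw [full, ← flipMat_one (swP p q), ← flipMat_one (swQ p q)]
  set a := al (z.1 : ℝ) z.2
  set b := be (z.1 : ℝ) z.2
  set m := max (z.1 : ℝ) z.2
  calc flipMat (swP p q) 1 * flipMat (swQ p q) 1 *
        (flipMat (swQ p q) a * flipMat (swP p q) m * flipMat (swQ p q) b)
      = flipMat (swP p q) 1 * (flipMat (swQ p q) 1 * flipMat (swQ p q) a) *
          (flipMat (swP p q) m * flipMat (swQ p q) b) := by simp only [mul_assoc]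
    _ = flipMat (swP p q) 1 * flipMat (swQ p q) (1 + a) *
          (flipMat (swQ p q) b * flipMat (swP p q) m) := by
        rw [flipMat_add swQ_invol, (hP m b).eq]
    _ = flipMat (swQ p q) (1 + a) * (flipMat (swP p q) 1 * flipMat (swQ p q) b) *
          flipMat (swP p q) m := by
        rw [(hP 1 (1 + a)).eq]; simp only [mul_assoc]
    _ = flipMat (swQ p q) (1 + a + b) * flipMat (swP p q) (1 + m) := by
        rw [(hP 1 b).eq, ← flipMat_add swQ_invol (1 + a) b, ← flipMat_add swP_invol 1 m]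
        simp only [mul_assoc]
    _ = _ := by
        rw [show 1 + a + b = aFun z.1 z.2 + 2 by rw [← aFun_eq z.1.2.1 z.2.2.1]; ring,
          show 1 + m = m - 1 + 2 by ring, flipMat_add_two, flipMat_add_two]

variable (p q) in
/-- The contraction of the flip of the constant path. -/
def contr (s : unitInterval) (z : unitInterval × unitInterval) : Mat (I2 p q) :=
  flipMat (swQ p q) ((s : ℝ) * aFun z.1 z.2) *
    flipMat (swP p q) ((s : ℝ) * (max (z.1 : ℝ) z.2 - 1))

section main

set_option linter.unusedSectionVars false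

variable [PartialOrder (Blk ℂ p q)] [StarOrderedRing (Blk ℂ p q)]

theorem continuous_flipLift (H : unitary (MPath ℂ (Ix p q)) → unitary (Blk (Blk ℂ p q) p q))
    (hH : ∀ V z, flat (H V : Blk (Blk ℂ p q) p q) z = flipFun (V : MPath ℂ (Ix p q)) z) :
    Continuous H := by
  refine continuous_unitary_lift (flat (p := p) (q := q)) (A := MPath ℂ (Ix p q)) norm_flat H _ hH 8 fun V W z => ?_
  rw [NNReal.coe_ofNat]
  exact norm_flipFun_sub_le (mPath_unitary V) (mPath_unitary W) z

theorem continuous_contr : Continuous (Function.uncurry (contr p q)) := by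
  refine Continuous.mul ((continuous_flipMat _).comp ?_) ((continuous_flipMat _).comp ?_)
  · exact (continuous_subtype_val.comp continuous_fst).mul (continuous_aFun.comp continuous_snd)
  · fun_prop

theorem contr_x0 (s y : unitInterval) : contr p q s (0, y) ∈ (amp (inQ p q)).range := by
  simp only [contr, Set.Icc.coe_zero, aFun, zero_mul, mul_zero, neg_zero, zero_div, flipMat_zero,
    one_mul]
  exact flipMat_mem _ swP_mem_inQ _

theorem contr_x1 (s y : unitInterval) : contr p q s (1, y) ∈ (amp (inP p q)).range := by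
  simp only [contr, Set.Icc.coe_one, max_eq_left y.2.2, sub_self, mul_zero, flipMat_zero, mul_one]
  exact flipMat_mem _ swQ_mem_inP _

theorem contr_y0 (s x : unitInterval) : contr p q s (x, 0) ∈ (amp (outQ p q)).range := by
  simp only [contr, Set.Icc.coe_zero, aFun, mul_zero, neg_zero, zero_div, flipMat_zero, one_mul]
  exact flipMat_mem _ swP_mem_outQ _

theorem contr_y1 (s x : unitInterval) : contr p q s (x, 1) ∈ (amp (outP p q)).range := by
  simp only [contr, Set.Icc.coe_one, max_eq_right x.2.2, sub_self, mul_zero, flipMat_zero,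
    mul_one]
  exact flipMat_mem _ swQ_mem_outP _

theorem exists_lift_contr (s : unitInterval) :
    ∃ H : Blk (Blk ℂ p q) p q, ∀ z, flat H z = contr p q s z := by
  have hcc : Continuous (contr p q s) := continuous_contr.uncurry_left s
  exact exists_flat_eq (u := contr p q s) hcc
    (contr_x0 s) (contr_x1 s) (contr_y0 s) (contr_y1 s)

theorem joined_contr (H₁ : unitary (Blk (Blk ℂ p q) p q))
    (h₁ : ∀ z, flat (H₁ : Blk (Blk ℂ p q) p q) z = flipFun (1 : MPath ℂ (Ix p q)) z) :
    Joined 1 H₁ := by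
  refine joined_of_lift (flat (p := p) (q := q)) flat_injective norm_flat (contr p q)
    continuous_contr
    (fun s z => mul_mem (flipMat_unitary swQ_invol _) (flipMat_unitary swP_invol _))
    exists_lift_contr
    1 H₁ (fun z => ?_) (fun z => ?_)
  · have h : flat (1 : Blk (Blk ℂ p q) p q) = 1 := flat.map_one'
    show flat (1 : Blk (Blk ℂ p q) p q) z = _
    rw [h, ContinuousMap.one_apply]
    simp only [contr, Set.Icc.coe_zero, zero_mul, flipMat_zero, mul_one]
  · rw [h₁, flipFun_one]
    simp only [contr, Set.Icc.coe_one, one_mul]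

-- the instances of the double block algebra are slow to unify
set_option maxHeartbeats 800000 in
/-- The half flip of a unitary path is in the path component of one. -/
theorem flip_mem_pathComponent (U : unitary (MPath ℂ (Ix p q))) :
    ∃ H : unitary (Blk (Blk ℂ p q) p q), H ∈ pathComponent 1 ∧
      ∀ z, flat (H : Blk (Blk ℂ p q) p q) z = flipFun (U : MPath ℂ (Ix p q)) z := by
  have hex : ∀ V : unitary (MPath ℂ (Ix p q)), ∃ H : unitary (Blk (Blk ℂ p q) p q),
      ∀ z, flat (H : Blk (Blk ℂ p q) p q) z = flipFun (V : MPath ℂ (Ix p q)) z := fun V => by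
    obtain ⟨H, hH⟩ := exists_flip_elt (U := (V : MPath ℂ (Ix p q))) (mPath_unitary V)
    have := conj_of_flat (flat (p := p) (q := q)) flat_injective norm_flat
      (flipFun_unitary (mPath_unitary V)) H hH
    exact ⟨⟨H, Unitary.mem_iff.2 ⟨this.1, this.2.1⟩⟩, hH⟩
  exact ⟨(hex U).choose, (joined_contr (hex 1).choose (hex 1).choose_spec).trans
    ((joined_one_mPath U).map (continuous_flipLift (fun V => (hex V).choose)
      fun V => (hex V).choose_spec)), (hex U).choose_spec⟩

set_option maxHeartbeats 800000 in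
/-- The half flip as a product of exponentials. -/
theorem exists_flip_exp (G : Set (Blk ℂ p q)) (η : ℝ) (U : MPath ℂ (Ix p q))
    (hU1 : star U * U = 1) (hU2 : U * star U = 1)
    (hG : ∀ g ∈ G, ∀ t s : unitInterval,
      ‖star (U t) * (g : MPath ℂ (Ix p q)) t * U t
        - star (U s) * (g : MPath ℂ (Ix p q)) s * U s‖ ≤ η) :
    ∃ l : List (selfAdjoint (Blk (Blk ℂ p q) p q)),
      ∀ g ∈ G, ‖star ((l.map selfAdjoint.expUnitary).prod : Blk (Blk ℂ p q) p q) *
        scBlk (Blk ℂ p q) p q g * ((l.map selfAdjoint.expUnitary).prod : Blk (Blk ℂ p q) p q) -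
        const (Blk ℂ p q) p q g‖ ≤ 10 * η := by
  have hV : U ∈ unitary (MPath ℂ (Ix p q)) := Unitary.mem_iff.2 ⟨hU1, hU2⟩
  refine Exists.elim (flip_mem_pathComponent ⟨U, hV⟩) fun H hH => ?_
  refine Exists.elim ((Unitary.mem_pathComponentOne_iff (A := Blk (Blk ℂ p q) p q)).1 hH.1)
    fun l hl => ?_
  refine ⟨l, fun g hg => ?_⟩
  rw [hl]
  have hU : ∀ t, U t ∈ unitary (Mat (Ix p q)) := mPath_unitary ⟨U, hV⟩
  exact (conj_of_flat (flat (p := p) (q := q)) flat_injective norm_flat (flipFun_unitary hU)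
    _ hH.2).2.2 _ _ _ _ _
    (flat_scBlk g) (flat_const g) (flipFun_move hU g.2.1 g.2.2 (hG g hg))

end main

end

end Vale.Agent.P095.NU
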