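import Mathlib.Analysis.CStarAlgebra.Multiplier
import Mathlib.Analysis.CStarAlgebra.Classes
import Mathlib.Analysis.CStarAlgebra.Spectrum

/-!
# P095, non-unital algebras: from the unitisation to the multiplier algebra

The canonical map `Unitization ℂ A → 𝓜(ℂ, A)` carries unitary cocycles of the unitised action to
unitary cocycles of the multiplier algebra, with the same inner automorphisms of `A`.
-/

namespace Vale.Agent.P095.NU.Mult

open scoped MultiplierAlgebra CStarAlgebra

noncomputable section

variable {A : Type*} [NonUnitalCStarAlgebra A]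

/-- The canonical map of the unitisation into the multiplier algebra. -/
def toMult : Unitization ℂ A →⋆ₐ[ℂ] 𝓜(ℂ, A) :=
  Unitization.starLift (DoubleCentralizer.coeHom (𝕜 := ℂ) (A := A))

theorem toMult_inr (a : A) : toMult (a : Unitization ℂ A) = (a : 𝓜(ℂ, A)) := by
  show Unitization.lift (DoubleCentralizer.coeHom (𝕜 := ℂ) (A := A)).toNonUnitalAlgHom (a : Unitization ℂ A) = _
  simp

theorem toMult_fst (x : Unitization ℂ A) (a : A) :
    (((toMult x).fst a : A) : Unitization ℂ A) = x * (a : Unitization ℂ A) := by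
  induction x using Unitization.ind with
  | inl_add_inr r b =>
    rw [map_add, ← Unitization.algebraMap_eq_inl, AlgHomClass.commutes, toMult_inr,
      DoubleCentralizer.add_fst, DoubleCentralizer.algebraMap_fst]
    simp [Algebra.algebraMap_eq_smul_one, add_mul, Unitization.inr_mul]

theorem toMult_snd (x : Unitization ℂ A) (a : A) :
    (((toMult x).snd a : A) : Unitization ℂ A) = (a : Unitization ℂ A) * x := by
  induction x using Unitization.ind with
  | inl_add_inr r b =>
    rw [map_add, ← Unitization.algebraMap_eq_inl, AlgHomClass.commutes, toMult_inr,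
      DoubleCentralizer.add_snd, DoubleCentralizer.algebraMap_snd]
    simp [Algebra.algebraMap_eq_smul_one, mul_add, Unitization.inr_mul]

/-- Two sided multiplication by the unitisation is two sided multiplication by the multipliers. -/
theorem toMult_conj (x y : Unitization ℂ A) {a b : A}
    (h : x * (a : Unitization ℂ A) * y = (b : Unitization ℂ A)) :
    toMult x * (a : 𝓜(ℂ, A)) * toMult y = (b : 𝓜(ℂ, A)) := by
  rw [← toMult_inr a, ← toMult_inr b, ← map_mul, ← map_mul, h]

theorem coe_injective : Function.Injective (fun a : A => (a : 𝓜(ℂ, A))) := by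
  intro a b h
  have h2 : a * star (a - b) = b * star (a - b) :=
    congrArg (fun m : 𝓜(ℂ, A) => m.fst (star (a - b))) h
  rw [← sub_eq_zero, ← sub_mul] at h2
  exact sub_eq_zero.1 ((CStarRing.mul_star_self_eq_zero_iff _).1 h2)

theorem continuous_eL (e : A ≃⋆ₐ[ℂ] A) : Continuous e :=
  AddMonoidHomClass.continuous_of_bound e 1 fun x => by
    simpa using NonUnitalStarAlgHom.norm_apply_le e x

/-- An automorphism of `A` as a continuous linear map. -/
def eL (e : A ≃⋆ₐ[ℂ] A) : A →L[ℂ] A where
  toFun := e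
  map_add' := map_add e
  map_smul' := map_smul e
  cont := continuous_eL e

@[simp] theorem eL_apply (e : A ≃⋆ₐ[ℂ] A) (a : A) : eL e a = e a := rfl

/-- The extension of an automorphism of `A` to the multiplier algebra. -/
def extAct (e : A ≃⋆ₐ[ℂ] A) (m : 𝓜(ℂ, A)) : 𝓜(ℂ, A) where
  fst := (eL e).comp (m.fst.comp (eL e.symm))
  snd := (eL e).comp (m.snd.comp (eL e.symm))
  central x y := by
    show e (m.snd (e.symm x)) * y = x * e (m.fst (e.symm y))
    conv_lhs => rw [← e.apply_symm_apply y, ← map_mul, m.central, map_mul, e.apply_symm_apply]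

theorem extAct_fst (e : A ≃⋆ₐ[ℂ] A) (m : 𝓜(ℂ, A)) (a : A) :
    (extAct e m).fst a = e (m.fst (e.symm a)) := rfl

theorem extAct_snd (e : A ≃⋆ₐ[ℂ] A) (m : 𝓜(ℂ, A)) (a : A) :
    (extAct e m).snd a = e (m.snd (e.symm a)) := rfl

theorem extAct_coe (e : A ≃⋆ₐ[ℂ] A) (a : A) : extAct e (a : 𝓜(ℂ, A)) = (e a : A) := by
  refine DoubleCentralizer.ext _ _ _ _ (Prod.ext (ContinuousLinearMap.ext fun x => ?_)
    (ContinuousLinearMap.ext fun x => ?_))
  · show e (a * e.symm x) = e a * x
    rw [map_mul, e.apply_symm_apply]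
  · show e (e.symm x * a) = x * e a
    rw [map_mul, e.apply_symm_apply]

/-- On the image of the unitisation the extension is the unitised automorphism. -/
theorem extAct_toMult (e : A ≃⋆ₐ[ℂ] A) (x : Unitization ℂ A) :
    extAct e (toMult x) = toMult (Unitization.starMap (e : A →⋆ₙₐ[ℂ] A) x) := by
  set E := Unitization.starMap (e : A →⋆ₙₐ[ℂ] A)
  have hE : ∀ a : A, E (a : Unitization ℂ A) = (e a : A) := fun a => Unitization.starMap_inr _ a
  refine DoubleCentralizer.ext _ _ _ _ (Prod.ext (ContinuousLinearMap.ext fun a => ?_)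
    (ContinuousLinearMap.ext fun a => ?_))
  · refine Unitization.inr_injective (R := ℂ) ?_
    show ((e ((toMult x).fst (e.symm a)) : A) : Unitization ℂ A) = ((toMult (E x)).fst a : A)
    rw [toMult_fst, ← hE, toMult_fst, map_mul, hE, e.apply_symm_apply]
  · refine Unitization.inr_injective (R := ℂ) ?_
    show ((e ((toMult x).snd (e.symm a)) : A) : Unitization ℂ A) = ((toMult (E x)).snd a : A)
    rw [toMult_snd, ← hE, toMult_snd, map_mul, hE, e.apply_symm_apply]

/-- Left multiplication determines a multiplier, so a multiplicative extension of `e` is `extAct`. -/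
theorem extAct_unique (e : A ≃⋆ₐ[ℂ] A) (φ : 𝓜(ℂ, A) → 𝓜(ℂ, A))
    (hmul : ∀ m n, φ (m * n) = φ m * φ n) (hcoe : ∀ a : A, φ a = (e a : A)) (m : 𝓜(ℂ, A)) :
    φ m = extAct e m := by
  have hf : ∀ (m : 𝓜(ℂ, A)) (a : A), m * (a : 𝓜(ℂ, A)) = (m.fst a : A) := fun m a => by
    refine DoubleCentralizer.ext _ _ _ _ (Prod.ext (ContinuousLinearMap.ext fun x => ?_)
      (ContinuousLinearMap.ext fun x => ?_))
    · show m.fst (a * x) = m.fst a * x
      refine sub_eq_zero.1 ?_
      have key : ∀ z, z * (m.fst (a * x) - m.fst a * x) = 0 := fun z => by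
        rw [mul_sub, ← mul_assoc, ← m.central, ← m.central, mul_assoc, sub_self]
      have := key (star (m.fst (a * x) - m.fst a * x))
      exact (CStarRing.star_mul_self_eq_zero_iff _).1 this
    · show m.snd x * a = x * m.fst a
      exact m.central x a
  have hfst : ∀ a, (φ m).fst a = (extAct e m).fst a := fun a => coe_injective (by
    show ((φ m).fst a : 𝓜(ℂ, A)) = _
    rw [← hf, ← e.apply_symm_apply a, ← hcoe, ← hmul, hf, hcoe, extAct_fst, e.symm_apply_apply])
  refine DoubleCentralizer.ext _ _ _ _ (Prod.ext (ContinuousLinearMap.ext hfst)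
    (ContinuousLinearMap.ext fun a => ?_))
  refine sub_eq_zero.1 ?_
  have key : ∀ z, ((φ m).snd a - (extAct e m).snd a) * z = 0 := fun z => by
    rw [sub_mul, (φ m).central, (extAct e m).central, hfst, sub_self]
  exact (CStarRing.mul_star_self_eq_zero_iff _).1 (key _)

variable {G : Type*} [Group G] (α : G → A ≃⋆ₐ[ℂ] A)

/-- A unitary cocycle in the unitisation gives a unitary cocycle in the multiplier algebra with
the same inner automorphisms. -/
theorem exists_multiplier_cocycle (u : G → unitary (Unitization ℂ A))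
    (hu : ∀ g h, (u (g * h) : Unitization ℂ A) =
      (u g : Unitization ℂ A) * Unitization.starMap (α g : A →⋆ₙₐ[ℂ] A) (u h : Unitization ℂ A)) :
    ∃ w : G → unitary 𝓜(ℂ, A),
      (∀ g h, (w (g * h) : 𝓜(ℂ, A)) = (w g : 𝓜(ℂ, A)) * extAct (α g) (w h : 𝓜(ℂ, A))) ∧
      ∀ g (a b : A), (u g : Unitization ℂ A) * (a : Unitization ℂ A) * star (u g : Unitization ℂ A)
          = (b : Unitization ℂ A) →
        (w g : 𝓜(ℂ, A)) * (a : 𝓜(ℂ, A)) * star (w g : 𝓜(ℂ, A)) = (b : 𝓜(ℂ, A)) := by
  refine ⟨fun g => ⟨toMult (u g : Unitization ℂ A), ?_⟩, fun g h => ?_, fun g a b hab => ?_⟩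
  · obtain ⟨h1, h2⟩ := Unitary.mem_iff.1 (u g).2
    exact Unitary.mem_iff.2 ⟨by rw [← map_star, ← map_mul, h1, map_one],
      by rw [← map_star, ← map_mul, h2, map_one]⟩
  · show toMult (u (g * h) : Unitization ℂ A) = _
    rw [hu, map_mul, extAct_toMult]
  · show toMult _ * _ * star (toMult _) = _
    rw [← map_star]
    exact toMult_conj _ _ hab

end

end Vale.Agent.P095.NU.Mult
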