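import Vale.Agent.P095.NU.Spec
import Vale.Agent.P095.NU.Multiplier

/-!
# P095, non-unital algebras: equivariant absorption with the cocycle in the multiplier algebra
-/

namespace Vale.Agent.P095.NU

open Vale.Agent.P101.JS
open scoped MultiplierAlgebra

noncomputable section

variable {A : Type*} [NonUnitalCStarAlgebra A] {G : Type*} [Group G] {α : G → A → A}

/-- The automorphisms of an action. -/
def autOf (hα : IsAction α) (g : G) : A ≃⋆ₐ[ℂ] A where
  toFun := α g
  invFun := α g⁻¹
  left_inv a := by rw [← hα.2.1, inv_mul_cancel, hα.1]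
  right_inv a := by rw [← hα.2.1, mul_inv_cancel, hα.1]
  map_mul' a b := (hα.2.2 g a b 0).2.1
  map_add' a b := (hα.2.2 g a b 0).1
  map_smul' c a := (hα.2.2 g a a c).2.2.1
  map_star' a := (hα.2.2 g a a 0).2.2.2

@[simp] theorem autOf_apply (hα : IsAction α) (g : G) (a : A) : autOf hα g a = α g a := rfl

/-- Equivariant absorption, stated with a cocycle in the unitary group of the multiplier algebra,
for the canonical extension `Mult.extAct` of the action. -/
theorem exists_multiplier_form {W : ∀ m, Frame m} (hα : IsAction α)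
    (h : IsEquivariantTensorLimit A α W) :
    ∃ (ι : ∀ m, Stage A m → A) (w : G → unitary 𝓜(ℂ, A)), IsLimitMaps W ι ∧
      (∀ g k, (w (g * k) : 𝓜(ℂ, A)) =
        (w g : 𝓜(ℂ, A)) * Mult.extAct (autOf hα g) (w k : 𝓜(ℂ, A))) ∧
      ∀ g m (f : Stage A m), InStage m f →
        (ι m (mapStage (α g) f) : 𝓜(ℂ, A)) =
          (w g : 𝓜(ℂ, A)) * (α g (ι m f) : 𝓜(ℂ, A)) * star (w g : 𝓜(ℂ, A)) := by
  obtain ⟨-, ι, u, hι, hu, hcoc, hconj⟩ := h
  have he : ∀ g x, extend (α g) x = Unitization.starMap (autOf hα g : A →⋆ₙₐ[ℂ] A) x := by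
    intro g x
    induction x using Unitization.ind with
    | inl_add_inr r b =>
      rw [map_add, Unitization.starMap_inl, Unitization.starMap_inr, Unitization.algebraMap_eq_inl]
      simp [extend]
  obtain ⟨w, hw1, hw2⟩ := Mult.exists_multiplier_cocycle (autOf hα)
    (fun g => ⟨u g, Unitary.mem_iff.2 (hu g)⟩) fun g k => by
      show u (g * k) = _
      rw [hcoc, he]
  exact ⟨ι, w, hι, hw1, fun g m f hf => (hw2 g _ _ (hconj g m f hf).symm).symm⟩

end

end Vale.Agent.P095.NU
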