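import Vale.Agent.P095.NU.StageDefs

/-!
# P095, non-unital algebras: one stage of the intertwining

From almost invariant unitaries that move single elements of the dimension drop algebra close to
constants, modulo the annihilator of `ker χ`, to the stage statement of the intertwining.
-/

namespace Vale.Agent.P095.NU

open VAgent.P101 Vale.Agent.P101.JS Vale.Agent.P095
open scoped ComplexOrder CStarAlgebra

noncomputable section

universe u v

variable {E : Type u} [CStarAlgebra E] [PartialOrder E] [StarOrderedRing E]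
  (χ : E →⋆ₐ[ℂ] ℂ) {G : Type v} [Group G] (β : G →* (E ≃⋆ₐ[ℂ] E))

/-- The pushing unitaries at the sizes of the tower. -/
def PushStatement : Prop :=
  ∀ (m : ℕ) (U : MPath ℂ (Ix (P m) (Q m))), star U * U = 1 → U * star U = 1 →
    ∀ (G₀ : Finset (Blk ℂ (P m) (Q m))) (η : ℝ),
      (∀ g ∈ G₀, ∀ t s : unitInterval,
        ‖star (U t) * (g : MPath ℂ (Ix (P m) (Q m))) t * U t
          - star (U s) * (g : MPath ℂ (Ix (P m) (Q m))) s * U s‖ ≤ η) →
      ∀ (K : Finset G) (Fs As : Finset E), (∀ a ∈ As, χ a = 0) → ∀ ε : ℝ, 0 < ε →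
        ∃ u : Blk E (P m) (Q m), star u * u = 1 ∧ u * star u = 1 ∧
          mapBlk (P m) (Q m) χ u = 1 ∧
          (∀ a ∈ Fs, ‖u * const E (P m) (Q m) a - const E (P m) (Q m) a * u‖ ≤ ε) ∧
          (∀ h ∈ K, ‖mapBlk (P m) (Q m) (β h : E →⋆ₐ[ℂ] E) u - u‖ ≤ ε) ∧
          ∃ c : Blk ℂ (P m) (Q m) → E, ∀ a ∈ As, ∀ g ∈ G₀,
            ‖star u * (const E (P m) (Q m) a * scBlk E (P m) (Q m) g) * u
              - const E (P m) (Q m) (a * c g)‖ ≤ 10 * η * ‖a‖ + ε

variable {χ β}

/-- Pushing unitaries give the stage statement. -/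
theorem stage_of_push (hpush : PushStatement χ β) : StageStatement χ β := by
  classical
  intro K F n ι _ L a ha g ε hε
  set C : ℝ := 1 + ∑ k, ∑ i, ‖a k i‖ with hC
  have hC0 : 0 < C := by positivity
  set N : ℝ := 1 + ∑ k, (L k : ℝ) with hN
  have hN1 : 1 ≤ N := by simpa [hN] using (by positivity : (0 : ℝ) ≤ ∑ k, (L k : ℝ))
  let G₀ : Finset (Blk ℂ (P n) (Q n)) := Finset.univ.biUnion fun k : ι => Finset.univ.image (g k)
  let As : Finset E := Finset.univ.biUnion fun k : ι => Finset.univ.image (a k)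
  obtain ⟨d, U, hU1, hU2, hU3⟩ := collapse n G₀ (η := ε / (20 * C)) (by positivity)
  obtain ⟨u, hu1, hu2, hu3, huF, hui, c, hc⟩ := hpush (n + d) U hU1 hU2
    (G₀.image (connTo ℂ n d)) (ε / (20 * C)) (by
      intro x hx
      obtain ⟨g', hg', rfl⟩ := Finset.mem_image.1 hx
      exact hU3 g' hg')
    K F As (by
      intro x hx
      simp only [As, Finset.mem_biUnion, Finset.mem_univ, true_and, Finset.mem_image] at hx
      obtain ⟨k, i, rfl⟩ := hx
      exact ha k i)
    (ε / (2 * N)) (by positivity)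
  have hεN : ε / (2 * N) ≤ ε := div_le_self hε.le (by linarith)
  refine ⟨d, u, hu1, hu2, hu3, fun x hx => (huF x hx).trans hεN,
    fun h hh => (hui h hh).trans hεN, fun k => ⟨∑ i, a k i * c (connTo ℂ n d (g k i)), ?_⟩⟩
  rw [connTo_sum, Finset.mul_sum, Finset.sum_mul, map_sum, ← Finset.sum_sub_distrib]
  refine (norm_sum_le_of_le _ fun i _ => hc (a k i)
    (Finset.mem_biUnion.2 ⟨k, Finset.mem_univ k,
      Finset.mem_image_of_mem _ (Finset.mem_univ i)⟩)
    (connTo ℂ n d (g k i)) (Finset.mem_image_of_mem _ (Finset.mem_biUnion.2 ⟨k, Finset.mem_univ k,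
      Finset.mem_image_of_mem _ (Finset.mem_univ i)⟩))).trans ?_
  have h1 : ∑ i, ‖a k i‖ ≤ C := by
    have := Finset.single_le_sum (f := fun k : ι => ∑ i, ‖a k i‖)
      (fun k _ => by positivity) (Finset.mem_univ k)
    rw [hC]; linarith
  have h2 : (L k : ℝ) ≤ N := by
    have := Finset.single_le_sum (f := fun k : ι => (L k : ℝ))
      (fun k _ => by positivity) (Finset.mem_univ k)
    rw [hN]; linarith
  have h3 : (L k : ℝ) * (ε / (2 * N)) ≤ ε / 2 := by
    calc (L k : ℝ) * (ε / (2 * N)) ≤ N * (ε / (2 * N)) := by gcongr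
      _ = ε / 2 := by field_simp
  have h4 : ∑ i, 10 * (ε / (20 * C)) * ‖a k i‖ ≤ ε / 2 := by
    rw [← Finset.mul_sum]
    calc 10 * (ε / (20 * C)) * ∑ i, ‖a k i‖ ≤ 10 * (ε / (20 * C)) * C := by gcongr
      _ = ε / 2 := by field_simp; ring
  rw [Finset.sum_add_distrib, Finset.sum_const, Finset.card_univ, Fintype.card_fin, nsmul_eq_mul]
  linarith

end

end Vale.Agent.P095.NU
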