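import Vale.Agent.P095.NU.ExpTools
import Vale.Agent.P095.NU.FlipExp
import Vale.Agent.P095.NU.Quot
import Vale.Agent.P095.NU.Stage

/-!
# P095, non-unital algebras: almost invariant pushing unitaries

From a fixed copy of the dimension drop algebra in Kirchberg's `F(ker χ)` and a collapsing path:
the half flip is a product of exponentials, so it lifts to an almost invariant unitary of central
sequences; representatives at one index, corrected by their scalar parts, give the unitary in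
`Blk E p q`.
-/

namespace Vale.Agent.P095.NU

open VAgent.P101 Vale.Agent.P101.JS Vale.Agent.P095 Filter
open scoped ComplexOrder CStarAlgebra Topology BoundedContinuousFunction

noncomputable section

set_option linter.unusedSectionVars false
set_option linter.style.haveILetI false

universe u v

-- the block algebras over quotient algebras are slow to unify
set_option maxHeartbeats 800000

variable {E : Type u} [CStarAlgebra E] [PartialOrder E] [StarOrderedRing E] {χ : E →⋆ₐ[ℂ] ℂ}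
  {H : Type v} [Group H] {β : H →* (E ≃⋆ₐ[ℂ] E)} {ω : Ultrafilter ℕ} {p q : ℕ}

/-- A scalar path commutes with constants. -/
theorem scBlk_commute_const (w : Blk ℂ p q) (a : E) :
    Commute (scBlk E p q w) (const E p q a) :=
  commute_const fun t x y => Algebra.commute_algebraMap_left ((w : MPath ℂ (Ix p q)) t x y) a

/-- A scalar path over `ℂ` is itself. -/
theorem scBlk_complex (w : Blk ℂ p q) : scBlk ℂ p q w = w :=
  blk_ext' fun _ _ _ => rfl

/-- Correcting by the scalar part. -/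
theorem exists_corrected (u : Blk E p q) (hu : u ∈ unitary (Blk E p q)) :
    ∃ u' : Blk E p q, star u' * u' = 1 ∧ u' * star u' = 1 ∧ mapBlk p q χ u' = 1 ∧
      (∀ a : E, ‖u' * const E p q a - const E p q a * u'‖ ≤
        ‖u * const E p q a - const E p q a * u‖) ∧
      (∀ ψ : E →⋆ₐ[ℂ] E, ‖mapBlk p q ψ u' - u'‖ ≤ ‖mapBlk p q ψ u - u‖) ∧
      ∀ (x : Blk E p q) (b : E), ‖star u' * x * u' - const E p q b‖ =
        ‖star u * x * u - const E p q b‖ := by
  set w := mapBlk p q χ u with hw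
  have hwu : w ∈ unitary (Blk ℂ p q) := Unitary.map_mem (mapBlk p q χ) hu
  set s := scBlk E p q w with hs
  have hsu : s ∈ unitary (Blk E p q) := Unitary.map_mem (scBlk E p q) hwu
  have hu' : u * star s ∈ unitary (Blk E p q) := mul_mem hu (Unitary.star_mem hsu)
  refine ⟨u * star s, (Unitary.mem_iff.1 hu').1, (Unitary.mem_iff.1 hu').2, ?_, fun a => ?_,
    fun ψ => ?_, fun x b => norm_conj_correct hsu (scBlk_commute_const w b)⟩
  · rw [map_mul, map_star, hs, mapBlk_scBlk, scBlk_complex, ← hw]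
    exact (Unitary.mem_iff.1 hwu).2
  · have hc : star s * const E p q a = const E p q a * star s := by
      rw [hs, ← map_star]
      exact (scBlk_commute_const (star w) a).eq
    rw [mul_assoc, hc, ← mul_assoc, ← mul_assoc, ← sub_mul,
      CStarRing.norm_mul_mem_unitary _ (Unitary.star_mem hsu)]
  · have hf : mapBlk p q ψ (star s) = star s := by rw [hs, map_star, mapBlk_scBlk]
    rw [map_mul, hf, ← sub_mul, CStarRing.norm_mul_mem_unitary _ (Unitary.star_mem hsu)]

section generic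

variable {S F : Type*} [CStarAlgebra S] [PartialOrder S] [StarOrderedRing S]
  [CStarAlgebra F] [PartialOrder F] [StarOrderedRing F]
  {T : Type} [CStarAlgebra T] [PartialOrder T] [StarOrderedRing T]

/-- A product of exponentials moving finitely many elements, built from simple tensors. -/
theorem exists_data_move (hs : List (selfAdjoint (Blk T p q))) (G₀ : Finset (Blk ℂ p q))
    (b : Blk ℂ p q → T) {r : ℝ}
    (h : ∀ g ∈ G₀, ‖star ((hs.map selfAdjoint.expUnitary).prod : Blk T p q) * scBlk T p q g *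
      ((hs.map selfAdjoint.expUnitary).prod : Blk T p q) - const T p q (b g)‖ ≤ r)
    {δ : ℝ} (hδ : 0 < δ) : ∃ l : List (List (T × Blk ℂ p q)), ∀ g ∈ G₀,
      ‖star (pushEl T id l) * scBlk T p q g * pushEl T id l - const T p q (b g)‖ ≤ r + δ := by
  set M : ℝ := ∑ g ∈ G₀, ‖g‖ with hM
  have hM0 : 0 ≤ M := Finset.sum_nonneg fun _ _ => norm_nonneg _
  obtain ⟨l, hl⟩ := exists_data hs (show 0 < δ / (2 * (M + 1)) by positivity)
  refine ⟨l, fun g hg => ?_⟩
  set H' := ((hs.map selfAdjoint.expUnitary).prod : Blk T p q) with hH'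
  have hg' : ‖scBlk T p q g‖ ≤ M + 1 := by
    refine (NonUnitalStarAlgHom.norm_apply_le _ g).trans ?_
    linarith [Finset.single_le_sum (f := fun g => ‖g‖) (fun _ _ => norm_nonneg _) hg]
  have h1 := norm_conj_sub_conj_le (y := scBlk T p q g)
    (norm_le_one_of_mem_unitary (pushEl_unitary id l))
    (norm_le_one_of_mem_unitary ((hs.map selfAdjoint.expUnitary).prod).2)
  have h2 : 2 * ‖scBlk T p q g‖ * ‖pushEl T id l - H'‖ ≤ δ := by
    refine (mul_le_mul (mul_le_mul_of_nonneg_left hg' two_pos.le) hl (norm_nonneg _)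
      (by positivity)).trans (le_of_eq ?_)
    field_simp
  refine (norm_sub_le_norm_sub_add_norm_sub _ (star H' * scBlk T p q g * H') _).trans ?_
  linarith [h g hg]

/-- An almost invariant lift of a product of exponentials. -/
theorem exists_lift_push {G : Type*} [Group G] (α : G →* (S ≃⋆ₐ[ℂ] S)) (π : S →⋆ₐ[ℂ] F)
    (hπ : Function.Surjective π) (hker : ∀ g x, π x = 0 → π (α g x) = 0) (φ : T → F)
    (K : Finset G) (hfix : ∀ g ∈ K, ∀ (z : T) x, π x = φ z → π (α g x) = φ z)
    (l : List (List (T × Blk ℂ p q))) {η : ℝ} (hη : 0 < η) :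
    ∃ W : T → S, (∀ z, π (W z) = φ z) ∧ ∀ g ∈ K,
      ‖pushEl S (fun z => α g (W z)) l - pushEl S W l‖ ≤ η := by
  classical
  set wt : ℝ := (l.map fun d => (d.map fun zg => ‖zg.2‖).sum).sum with hwt
  have hwt0 : 0 ≤ wt := List.sum_nonneg fun x hx => by
    obtain ⟨d, _, rfl⟩ := List.mem_map.1 hx
    exact List.sum_nonneg fun y hy => by
      obtain ⟨zg, _, rfl⟩ := List.mem_map.1 hy
      exact norm_nonneg _
  choose lft hlft using hπ
  set Zs : Finset T := (l.flatten.map Prod.fst).toFinset with hZs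
  obtain ⟨k, -, -, hπk, hkfix⟩ := exists_smear α π hker (J := Zs)
    (fun z => lft (φ (z : T))) K
    (fun g hg z => (hfix g hg z _ (hlft _)).trans (hlft _).symm)
    (show 0 < η / (wt + 1) by positivity)
  refine ⟨fun z => k * lft (φ z) * k, fun z => by simp [hπk, hlft], fun g hg => ?_⟩
  refine (norm_pushEl_sub_le (show 0 ≤ η / (wt + 1) by positivity) fun d hd zg hzg => ?_).trans ?_
  · refine hkfix g hg ⟨zg.1, ?_⟩
    rw [hZs, List.mem_toFinset]
    exact List.mem_map_of_mem (List.mem_flatten.2 ⟨d, hd, hzg⟩)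
  · rw [← hwt, div_mul_eq_mul_div, div_le_iff₀ (by positivity)]
    nlinarith

/-- The move read in the quotient. -/
theorem norm_move_le (π : S →⋆ₐ[ℂ] F) (φ : T →⋆ₐ[ℂ] F) (W : T → S) (hW : ∀ z, π (W z) = φ z)
    (l : List (List (T × Blk ℂ p q))) (g : Blk ℂ p q) (b : T) (c : S) (hc : π c = φ b) :
    ‖mapBlk p q π (star (pushEl S W l) * scBlk S p q g * pushEl S W l - const S p q c)‖ ≤
      ‖star (pushEl T id l) * scBlk T p q g * pushEl T id l - const T p q b‖ := by
  refine le_trans (le_of_eq ?_) (NonUnitalStarAlgHom.norm_apply_le (mapBlk p q φ) _)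
  congr 1
  simp only [map_sub, map_mul, map_star, mapBlk_scBlk, mapBlk_const, mapBlk_pushEl, hW, hc, id]

/-- The move of a product with an element killed by the kernel of the quotient. -/
theorem norm_move_mul_le {V : Type*} [CStarAlgebra V] [PartialOrder V] [StarOrderedRing V]
    (ι : S →⋆ₐ[ℂ] V) (π : S →⋆ₐ[ℂ] F) (a : V) (hι : ∀ s, Commute (ι s) a)
    (hk : ∀ s, π s = 0 → ι s * a = 0) (X : Blk S p q) (g : Blk ℂ p q) (c : S) :
    ‖star (mapBlk p q ι X) * (const V p q a * scBlk V p q g) * mapBlk p q ι X -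
        const V p q (a * ι c)‖ ≤
      ‖mapBlk p q π (star X * scBlk S p q g * X - const S p q c)‖ * ‖a‖ := by
  refine le_trans (le_of_eq ?_) (norm_mapBlk_mul_const_le π ι a hk _)
  have hc : ∀ Y : Blk S p q, mapBlk p q ι Y * const V p q a = const V p q a * mapBlk p q ι Y :=
    fun Y => commute_const fun t x y => hι _
  congr 1
  rw [hc (star X * scBlk S p q g * X - const S p q c), ← map_star]
  simp only [map_sub, map_mul, mapBlk_scBlk, mapBlk_const, mul_sub]
  rw [← mul_assoc (mapBlk p q ι (star X)) (const V p q a), hc (star X)]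
  simp only [mul_assoc]

end generic

section index

variable [PartialOrder (ℕ →ᵇ E)] [StarOrderedRing (ℕ →ᵇ E)]
  [PartialOrder (UPow E ω)] [StarOrderedRing (UPow E ω)]

/-- From bounds in the ultrapower to one index. -/
theorem exists_index {Z J : Type*} (Wu : Z → UPow E ω) (l : List (List (Z × Blk ℂ p q)))
    (K : Finset H) (Fs As : Finset E) (G₀ : Finset J) (gv : J → Blk ℂ p q)
    (cu : J → UPow E ω) (r : E → ℝ) {r₁ ε : ℝ} (hε : 0 < ε)
    (hF : ∀ a ∈ Fs, pushEl (UPow E ω) Wu l * const (UPow E ω) p q (UPow.const a) =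
      const (UPow E ω) p q (UPow.const a) * pushEl (UPow E ω) Wu l)
    (hK : ∀ h ∈ K, ‖pushEl (UPow E ω) (fun z => upowAct ω (β h) (Wu z)) l -
      pushEl (UPow E ω) Wu l‖ ≤ r₁)
    (hG : ∀ a ∈ As, ∀ g ∈ G₀, ‖star (pushEl (UPow E ω) Wu l) *
      (const (UPow E ω) p q (UPow.const a) * scBlk (UPow E ω) p q (gv g)) *
        pushEl (UPow E ω) Wu l - const (UPow E ω) p q (UPow.const a * cu g)‖ ≤ r a) :
    ∃ u ∈ unitary (Blk E p q), (∀ a ∈ Fs, ‖u * const E p q a - const E p q a * u‖ ≤ ε) ∧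
      (∀ h ∈ K, ‖mapBlk p q (β h : E →⋆ₐ[ℂ] E) u - u‖ ≤ r₁ + ε) ∧
      ∃ c : J → E, ∀ a ∈ As, ∀ g ∈ G₀,
        ‖star u * (const E p q a * scBlk E p q (gv g)) * u - const E p q (a * c g)‖ ≤ r a + ε := by
  choose rep hrep using fun x : UPow E ω => UPow.mk_surjective x
  set VL := pushEl (ℕ →ᵇ E) (fun z => rep (Wu z)) l with hVL
  have hmk : mapBlk p q UPow.mkHom VL = pushEl (UPow E ω) Wu l := by
    rw [hVL, mapBlk_pushEl]
    congr 1
    funext z
    exact hrep _
  have hc : ∀ a, (UPow.mkHom (BoundedContinuousFunction.const ℕ a) : UPow E ω) = UPow.const a :=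
    fun a => rfl
  have hF' : ∀ᶠ j in (ω : Filter ℕ), ∀ a ∈ Fs,
      ‖mapBlk p q (evHom j) (VL * const (ℕ →ᵇ E) p q (BoundedContinuousFunction.const ℕ a) -
        const (ℕ →ᵇ E) p q (BoundedContinuousFunction.const ℕ a) * VL)‖ ≤ 0 + ε := by
    refine (Filter.eventually_all_finset Fs).2 fun a ha => eventually_norm_mapBlk (ω := ω) _ hε ?_
    rw [map_sub, map_mul, map_mul, mapBlk_const, hmk, hc, hF a ha, sub_self, norm_zero]
  have hK' : ∀ᶠ j in (ω : Filter ℕ), ∀ h ∈ K,
      ‖mapBlk p q (evHom j) (mapBlk p q (seqAct (β h)) VL - VL)‖ ≤ r₁ + ε := by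
    refine (Filter.eventually_all_finset K).2 fun h hh => eventually_norm_mapBlk (ω := ω) _ hε ?_
    have e : mapBlk p q (UPow.mkHom : (ℕ →ᵇ E) →⋆ₐ[ℂ] UPow E ω) (mapBlk p q (seqAct (β h)) VL) =
        pushEl (UPow E ω) (fun z => upowAct ω (β h) (Wu z)) l := by
      rw [hVL, mapBlk_pushEl, mapBlk_pushEl]
      congr 1
      funext z
      show (UPow.mk (seqAct (β h) (rep (Wu z))) : UPow E ω) = _
      rw [← upowAct_mk, hrep]
    rw [map_sub, e, hmk]
    exact hK h hh
  have hG' : ∀ᶠ j in (ω : Filter ℕ), ∀ a ∈ As, ∀ g ∈ G₀,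
      ‖mapBlk p q (evHom j) (star VL *
        (const (ℕ →ᵇ E) p q (BoundedContinuousFunction.const ℕ a) *
          scBlk (ℕ →ᵇ E) p q (gv g)) * VL -
        const (ℕ →ᵇ E) p q (BoundedContinuousFunction.const ℕ a * rep (cu g)))‖ ≤ r a + ε := by
    refine (Filter.eventually_all_finset As).2 fun a ha => (Filter.eventually_all_finset G₀).2
      fun g hg => eventually_norm_mapBlk (ω := ω) _ hε ?_
    rw [map_sub, map_mul, map_mul, map_star, map_mul, mapBlk_const, mapBlk_scBlk, hmk, hc,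
      mapBlk_const, map_mul, hc, show (UPow.mkHom (rep (cu g)) : UPow E ω) = cu g from hrep _]
    exact hG a ha g hg
  obtain ⟨j, hjF, hjK, hjG⟩ := (hF'.and (hK'.and hG')).exists
  set u := pushEl E (fun z => rep (Wu z) j) l with hu
  have hev : mapBlk p q (evHom j) VL = u := mapBlk_pushEl (evHom j) (fun z => rep (Wu z)) l
  refine ⟨u, pushEl_unitary _ l, fun a ha => ?_, fun h hh => ?_,
    fun g => rep (cu g) j, fun a ha g hg => ?_⟩
  · have h1 := hjF a ha
    rw [map_sub, map_mul, map_mul, mapBlk_const, hev, zero_add] at h1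
    exact h1
  · have h1 := hjK h hh
    have e : mapBlk p q (evHom j) (mapBlk p q (seqAct (β h)) VL) =
        mapBlk p q (β h : E →⋆ₐ[ℂ] E) u := by
      rw [hVL, hu, mapBlk_pushEl, mapBlk_pushEl, mapBlk_pushEl]
      rfl
    rw [map_sub, e, hev] at h1
    exact h1
  · have h1 := hjG a ha g hg
    rw [map_sub, map_mul, map_mul, map_star, map_mul, mapBlk_const, mapBlk_scBlk, hev,
      mapBlk_const, map_mul] at h1
    exact h1

end index

section core

variable [PartialOrder (ℕ →ᵇ E)] [StarOrderedRing (ℕ →ᵇ E)]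
  [PartialOrder (UPow E ω)] [StarOrderedRing (UPow E ω)]
  {S F : Type*} [CStarAlgebra S] [PartialOrder S] [StarOrderedRing S]
  [CStarAlgebra F] [PartialOrder F] [StarOrderedRing F]
  {T : Type} [CStarAlgebra T] [PartialOrder T] [StarOrderedRing T]

/-- From lifts to one unitary of `Blk E p q`. -/
theorem exists_push_core (α : H →* (S ≃⋆ₐ[ℂ] S)) (π : S →⋆ₐ[ℂ] F) (hπ : Function.Surjective π)
    (ι : S →⋆ₐ[ℂ] UPow E ω) (hact : ∀ h s, ι (α h s) = upowAct ω (β h) (ι s))
    (hker : ∀ g x, π x = 0 → π (α g x) = 0)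
    (hcen : ∀ (a : E) s, Commute (ι s) (UPow.const a))
    (φ : T →⋆ₐ[ℂ] F) (K : Finset H) (hfix : ∀ g ∈ K, ∀ (z : T) x, π x = φ z → π (α g x) = φ z)
    (Fs As : Finset E) (hkill : ∀ a ∈ As, ∀ s, π s = 0 → ι s * UPow.const a = 0)
    (hs : List (selfAdjoint (Blk T p q))) (G₀ : Finset (Blk ℂ p q)) (b : Blk ℂ p q → T) {r : ℝ}
    (hmove : ∀ g ∈ G₀, ‖star ((hs.map selfAdjoint.expUnitary).prod : Blk T p q) * scBlk T p q g *
      ((hs.map selfAdjoint.expUnitary).prod : Blk T p q) - const T p q (b g)‖ ≤ r)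
    {ε : ℝ} (hε : 0 < ε) :
    ∃ u ∈ unitary (Blk E p q), (∀ a ∈ Fs, ‖u * const E p q a - const E p q a * u‖ ≤ ε) ∧
      (∀ h ∈ K, ‖mapBlk p q (β h : E →⋆ₐ[ℂ] E) u - u‖ ≤ ε) ∧
      ∃ c : Blk ℂ p q → E, ∀ a ∈ As, ∀ g ∈ G₀,
        ‖star u * (const E p q a * scBlk E p q g) * u - const E p q (a * c g)‖ ≤ r * ‖a‖ + ε := by
  classical
  have hA0 : 0 ≤ ∑ a ∈ As, ‖a‖ := Finset.sum_nonneg fun _ _ => norm_nonneg _
  obtain ⟨l, hl⟩ := exists_data_move hs G₀ b hmove
    (show 0 < ε / 4 / ((∑ a ∈ As, ‖a‖) + 1) by positivity)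
  obtain ⟨W, hπW, hWK⟩ := exists_lift_push α π hπ hker φ K hfix l (show 0 < ε / 4 by positivity)
  choose lft hlft using hπ
  have hVU : pushEl (UPow E ω) (fun z => ι (W z)) l = mapBlk p q ι (pushEl S W l) :=
    (mapBlk_pushEl ι W l).symm
  obtain ⟨u, hu, huF, huK, c, huG⟩ := exists_index (β := β) (fun z => ι (W z)) l K Fs As G₀ id
    (fun g => ι (lft (φ (b g)))) (fun a => r * ‖a‖ + ε / 4) (r₁ := ε / 4)
    (show 0 < ε / 4 by positivity)
    (fun a _ => by rw [hVU]; exact commute_const fun t x y => hcen a _)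
    (fun h hh => by
      have e : (fun z => upowAct ω (β h) (ι (W z))) = fun z => ι (α h (W z)) :=
        funext fun z => (hact h (W z)).symm
      rw [hVU, e, ← mapBlk_pushEl ι (fun z => α h (W z)) l, ← map_sub]
      exact (NonUnitalStarAlgHom.norm_apply_le _ _).trans (hWK h hh))
    (fun a ha g hg => by
      rw [hVU]
      refine (norm_move_mul_le ι π _ (hcen a) (hkill a ha) _ g _).trans ?_
      have hn := (norm_move_le π φ W hπW l g (b g) _ (hlft _)).trans (hl g hg)
      have ha' : ‖(UPow.const a : UPow E ω)‖ ≤ ‖a‖ := (UPow.norm_mk_le_norm _).trans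
        ((BoundedContinuousFunction.norm_le (norm_nonneg a)).2 fun _ => le_rfl)
      refine (mul_le_mul hn ha' (norm_nonneg _) ((norm_nonneg _).trans hn)).trans ?_
      have haA : ‖a‖ ≤ ∑ a ∈ As, ‖a‖ :=
        Finset.single_le_sum (f := fun a => ‖a‖) (fun _ _ => norm_nonneg _) ha
      have h1 : ε / 4 / ((∑ a ∈ As, ‖a‖) + 1) * ‖a‖ ≤ ε / 4 := by
        rw [div_mul_eq_mul_div, div_le_iff₀ (by positivity)]
        exact mul_le_mul_of_nonneg_left (by linarith) (by positivity)
      linarith)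
  refine ⟨u, hu, fun a ha => (huF a ha).trans (by linarith),
    fun h hh => (huK h hh).trans (by linarith), c, fun a ha g hg => ?_⟩
  exact (huG a ha g hg).trans (by linarith)

end core

/-- **Pushing unitaries.** -/
theorem exists_push_unitary (hχ : ∀ g a, χ (β g a) = χ a) (φ : Blk ℂ p q →⋆ₐ[ℂ] FSeq χ ω)
    (hφ : ∀ g x, betaBar ω β hχ g (φ x) = φ x) (U : MPath ℂ (Ix p q)) (hU1 : star U * U = 1)
    (hU2 : U * star U = 1) (G₀ : Finset (Blk ℂ p q)) (η : ℝ)
    (hU : ∀ g ∈ G₀, ∀ t s : unitInterval,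
      ‖star (U t) * (g : MPath ℂ (Ix p q)) t * U t
        - star (U s) * (g : MPath ℂ (Ix p q)) s * U s‖ ≤ η)
    (K : Finset H) (Fs As : Finset E) (hAs : ∀ a ∈ As, χ a = 0) {ε : ℝ} (hε : 0 < ε) :
    ∃ u : Blk E p q, star u * u = 1 ∧ u * star u = 1 ∧ mapBlk p q χ u = 1 ∧
      (∀ a ∈ Fs, ‖u * const E p q a - const E p q a * u‖ ≤ ε) ∧
      (∀ h ∈ K, ‖mapBlk p q (β h : E →⋆ₐ[ℂ] E) u - u‖ ≤ ε) ∧
      ∃ c : Blk ℂ p q → E, ∀ a ∈ As, ∀ g ∈ G₀,
        ‖star u * (const E p q a * scBlk E p q g) * u - const E p q (a * c g)‖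
          ≤ 10 * η * ‖a‖ + ε := by
  letI : PartialOrder (Blk ℂ p q) := CStarAlgebra.spectralOrder _
  letI : StarOrderedRing (Blk ℂ p q) := CStarAlgebra.spectralOrderedRing _
  letI : PartialOrder (CentralSeq E ω) := CStarAlgebra.spectralOrder _
  letI : StarOrderedRing (CentralSeq E ω) := CStarAlgebra.spectralOrderedRing _
  letI : PartialOrder (FSeq χ ω) := CStarAlgebra.spectralOrder _
  letI : StarOrderedRing (FSeq χ ω) := CStarAlgebra.spectralOrderedRing _
  letI : PartialOrder (UPow E ω) := CStarAlgebra.spectralOrder _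
  letI : StarOrderedRing (UPow E ω) := CStarAlgebra.spectralOrderedRing _
  letI : PartialOrder (ℕ →ᵇ E) := CStarAlgebra.spectralOrder _
  letI : StarOrderedRing (ℕ →ᵇ E) := CStarAlgebra.spectralOrderedRing _
  have hfix : ∀ g ∈ K, ∀ (z : Blk ℂ p q) (x : CentralSeq E ω), proj x = φ z →
      proj (Elem.centralAut ω β g x) = φ z := fun g _ z x hx =>
    (betaBar_proj β hχ g x).symm.trans ((congrArg (betaBar ω β hχ g) hx).trans (hφ g z))
  have hker : ∀ (g : H) (x : CentralSeq E ω), (proj x : FSeq χ ω) = 0 →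
      (proj (Elem.centralAut ω β g x) : FSeq χ ω) = 0 := fun g x hx =>
    (betaBar_proj β hχ g x).symm.trans
      ((congrArg (betaBar ω β hχ g) hx).trans (map_zero (betaBar ω β hχ g)))
  refine Exists.elim (exists_flip_exp (p := p) (q := q) (↑G₀) η U hU1 hU2 hU) fun l₀ hl₀ => ?_
  obtain ⟨u, hu, huF, huK, c, huG⟩ := exists_push_core (β := β) (T := Blk ℂ p q)
    (Elem.centralAut ω β) (proj (χ := χ) (ω := ω)) proj_surjective (CentralSeq E ω).subtype
    (fun _ _ => rfl) hker (fun a s => (mem_centralSeq.1 s.2 a).symm) φ K hfix Fs As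
    (fun a ha s hs => proj_eq_zero.1 hs a (hAs a ha)) l₀ G₀ id
    (fun g hg => hl₀ g (Finset.mem_coe.2 hg)) hε
  obtain ⟨u', hu1, hu2, hu3, hF', hK', hG'⟩ := exists_corrected (χ := χ) u hu
  exact ⟨u', hu1, hu2, hu3, fun a ha => (hF' a).trans (huF a ha),
    fun h hh => (hK' (β h : E →⋆ₐ[ℂ] E)).trans (huK h hh), c, fun a ha g hg =>
      (hG' (const E p q a * scBlk E p q g) (a * c g)).le.trans (huG a ha g hg)⟩

/-- Fixed copies of the dimension drop algebras in `F(ker χ)` give the pushing statement. -/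
theorem pushStatement (hχ : ∀ g a, χ (β g a) = χ a)
    (hφ : ∀ m, ∃ φ : Blk ℂ (P m) (Q m) →⋆ₐ[ℂ] FSeq χ ω,
      ∀ g x, betaBar ω β hχ g (φ x) = φ x) : PushStatement χ β := by
  intro m U hU1 hU2 G₀ η hU K Fs As hAs ε hε
  obtain ⟨φ, hφ'⟩ := hφ m
  exact exists_push_unitary hχ φ hφ' U hU1 hU2 G₀ η hU K Fs As hAs hε

end

end Vale.Agent.P095.NU
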