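import Vale.Agent.P095.NU.Chars
import Vale.Agent.P095.NU.Copies
import Vale.Agent.P095.NU.PushExp
import Vale.Agent.P095.NU.Stage
import Vale.Agent.P095.NU.MultiplierSpec
import Vale.Agent.P095.Elem.Final

/-!
# P095, non-unital algebras: actions of amenable groups on Z-stable algebras
-/

namespace Vale.Agent.P095.NU

open VAgent.P101 Vale.Agent.P101.JS Vale.Agent.P095 TopologicalSpace
open scoped ComplexOrder CStarAlgebra

noncomputable section

universe u v

attribute [local instance 50] CStarAlgebra.spectralOrder CStarAlgebra.spectralOrderedRing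

variable {A : Type u} [NonUnitalCStarAlgebra A] {G : Type v} [Group G]

/-- An action extended to the unitisation, as a homomorphism into the automorphisms. -/
theorem exists_unitHom {α : G → A → A} (hα : IsAction α) :
    ∃ β : G →* (Unitization ℂ A ≃⋆ₐ[ℂ] Unitization ℂ A),
      (∀ g (a : A), β g (a : Unitization ℂ A) = (α g a : A)) ∧
        ∀ g x, Maps.fstChar A (β g x) = Maps.fstChar A x := by
  let S : G → (Unitization ℂ A →⋆ₐ[ℂ] Unitization ℂ A) := fun g =>
    Unitization.starMap (autOf hα g : A →⋆ₙₐ[ℂ] A)
  have hS : ∀ g x, S g x = Unitization.inl x.fst + ((α g x.snd : A) : Unitization ℂ A) := by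
    intro g x
    conv_lhs => rw [← Unitization.inl_fst_add_inr_snd_eq x]
    rw [map_add, Unitization.starMap_inl, Unitization.starMap_inr,
      Unitization.algebraMap_eq_inl]
    rfl
  have hfst : ∀ g x, (S g x).fst = x.fst := fun g x => by rw [hS]; simp
  have hsnd : ∀ g x, (S g x).snd = α g x.snd := fun g x => by rw [hS]; simp
  have hmul : ∀ g k x, S (g * k) x = S g (S k x) := fun g k x => by
    refine Unitization.ext ?_ ?_
    · rw [hfst, hfst, hfst]
    · rw [hsnd, hsnd, hsnd, hα.2.1]
  have hone : ∀ x, S 1 x = x := fun x => by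
    refine Unitization.ext ?_ ?_
    · rw [hfst]
    · rw [hsnd, hα.1]
  let b : G → (Unitization ℂ A ≃⋆ₐ[ℂ] Unitization ℂ A) := fun g =>
    StarAlgEquiv.ofBijective (S g)
      ⟨fun x y e => by
        have := congrArg (S g⁻¹) e
        rwa [← hmul, ← hmul, inv_mul_cancel, hone, hone] at this,
      fun y => ⟨S g⁻¹ y, by rw [← hmul, mul_inv_cancel, hone]⟩⟩
  refine ⟨MonoidHom.mk' b fun g k => StarAlgEquiv.ext fun x => hmul g k x, fun g a => ?_,
    fun g x => hfst g x⟩
  show S g (a : Unitization ℂ A) = _
  exact Unitization.starMap_inr _ a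

/-- A separable Z-stable algebra with an action of an amenable group satisfies the stage statement
of the intertwining. -/
theorem stageStatement_of_tensorLimit [SeparableSpace A] [Countable G]
    (h : IsTensorLimit A frame) (hG : Elem.Folner G)
    (β : G →* (Unitization ℂ A ≃⋆ₐ[ℂ] Unitization ℂ A))
    (hβ : ∀ g x, Maps.fstChar A (β g x) = Maps.fstChar A x) :
    StageStatement (Maps.fstChar A) β := by
  have : SeparableSpace (Unitization ℂ A) := Maps.separableSpace_unitization
  obtain ⟨ω, hω⟩ : ∃ ω : Ultrafilter ℕ, (ω : Filter ℕ) ≤ Filter.cofinite :=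
    ⟨Filter.hyperfilter ℕ, Filter.hyperfilter_le_cofinite⟩
  have hchar := Maps.fseq_no_character h ω hω
  refine stage_of_push (pushStatement (ω := ω) hβ fun m => ?_)
  rcases subsingleton_or_nontrivial (FSeq (Maps.fstChar A) ω) with hs | hs
  · exact ⟨{ toFun := fun _ => 0
             map_one' := Subsingleton.elim _ _
             map_mul' := fun _ _ => Subsingleton.elim _ _
             map_zero' := rfl
             map_add' := fun _ _ => Subsingleton.elim _ _
             commutes' := fun _ => Subsingleton.elim _ _
             map_star' := fun _ => Subsingleton.elim _ _ }, fun _ _ => Subsingleton.elim _ _⟩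
  · exact exists_blkHom β hβ hω hchar
      (Elem.certificate _ G (betaBar ω β hβ) hG (dyn_act β hβ hω hchar)) m

end

end Vale.Agent.P095.NU
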