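import Vale.Agent.P095.Elem.Central
import Vale.Agent.P101.JS.Density
import Vale.Agent.P101.Ultra

/-!
# P095, non-unital: a Z-stable algebra has central sequences without characters

The algebra is the kernel of a character `χ` of a unital `E`, and the stages are the elements of
`Z_{p,q} ⊗ E` with coefficients in that kernel.
-/

namespace Vale.Agent.P095.NUCentral

open VAgent.P101 Vale.Agent.P101.JS Filter TopologicalSpace
open BoundedContinuousFunction (ofNormedAddCommGroupDiscrete)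
open Vale.Agent.P095.JSCentral (exists_central)
open scoped ComplexOrder CStarAlgebra Topology BoundedContinuousFunction

noncomputable section

universe u

variable {E : Type u} [CStarAlgebra E] [PartialOrder E] [StarOrderedRing E] (χ : E →⋆ₐ[ℂ] ℂ)

/-- The elements of a stage with coefficients in the kernel. -/
def kerBlk (p q : ℕ) : NonUnitalStarSubalgebra ℂ (Blk E p q) where
  carrier := {x | mapBlk p q χ x = 0}
  add_mem' {x y} hx hy := by
    show mapBlk p q χ (x + y) = 0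
    rw [map_add, hx, hy, add_zero]
  zero_mem' := map_zero (mapBlk p q χ)
  mul_mem' {x y} hx hy := by
    show mapBlk p q χ (x * y) = 0
    rw [map_mul, hx, zero_mul]
  smul_mem' c x hx := by
    show mapBlk p q χ (c • x) = 0
    rw [map_smul, hx, smul_zero]
  star_mem' {x} hx := by
    show mapBlk p q χ (star x) = 0
    rw [map_star, hx, star_zero]

variable {χ}

theorem mem_kerBlk {p q : ℕ} {x : Blk E p q} : x ∈ kerBlk χ p q ↔ mapBlk p q χ x = 0 := Iff.rfl

theorem mapBlk_const {p q : ℕ} (a : E) :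
    mapBlk p q χ (const E p q a) = const ℂ p q (χ a) := by
  refine Subtype.ext (ContinuousMap.ext fun t => CStarMatrix.ext fun i j => ?_)
  simp [mapBlk_apply, mapM_apply, const_apply, dg_apply, apply_ite χ]

theorem mapBlk_scBlk {p q : ℕ} (g : Blk ℂ p q) : mapBlk p q χ (scBlk E p q g) = g := by
  refine Subtype.ext (ContinuousMap.ext fun t => CStarMatrix.ext fun i j => ?_)
  simp [scBlk, mapBlk_apply, mapM_apply, AlgHomClass.commutes]

theorem const_mem {p q : ℕ} {a : E} (ha : χ a = 0) (g : Blk ℂ p q) :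
    const E p q a * scBlk E p q g ∈ kerBlk χ p q := by
  rw [mem_kerBlk, map_mul, mapBlk_const, ha, map_zero, zero_mul]

theorem commute_const_scBlk {p q : ℕ} (a : E) (g : Blk ℂ p q) :
    Commute (const E p q a) (scBlk E p q g) := by
  refine Subtype.ext (ContinuousMap.ext fun t => ?_)
  simp only [MulMemClass.coe_mul, ContinuousMap.mul_apply, const_apply]
  exact (commute_sc_dg ((g : MPath ℂ (Ix p q)) t) a).eq.symm

theorem prod_pure {p q : ℕ} (a b : E) (g h : Blk ℂ p q) :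
    const E p q a * scBlk E p q g * (const E p q b * scBlk E p q h) =
      const E p q (a * b) * scBlk E p q (g * h) := by
  rw [map_mul, map_mul, mul_assoc, ← mul_assoc (scBlk E p q g),
    ← (commute_const_scBlk b g).eq]
  simp only [mul_assoc]

theorem conn_mem {m : ℕ} {x : Blk E (P m) (Q m)} (hx : x ∈ kerBlk χ (P m) (Q m)) :
    conn E m x ∈ kerBlk χ (P (m + 1)) (Q (m + 1)) := by
  rw [mem_kerBlk, ← conn_natural m χ x, mem_kerBlk.1 hx, map_zero]

theorem connTo_mem {m : ℕ} {x : Blk E (P m) (Q m)} (hx : x ∈ kerBlk χ (P m) (Q m)) :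
    ∀ d, connTo E m d x ∈ kerBlk χ (P (m + d)) (Q (m + d))
  | 0 => hx
  | d + 1 => conn_mem (connTo_mem hx d)

/-- The connecting map on the kernels. -/
def kconn (χ : E →⋆ₐ[ℂ] ℂ) (m : ℕ) (x : kerBlk χ (P m) (Q m)) :
    kerBlk χ (P (m + 1)) (Q (m + 1)) :=
  ⟨conn E m (x : Blk E (P m) (Q m)), conn_mem x.2⟩

/-- The iterated connecting map on the kernels. -/
def kconnTo (χ : E →⋆ₐ[ℂ] ℂ) (m d : ℕ) (x : kerBlk χ (P m) (Q m)) :
    kerBlk χ (P (m + d)) (Q (m + d)) :=
  ⟨connTo E m d (x : Blk E (P m) (Q m)), connTo_mem x.2 d⟩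

/-- Elements with coefficients in the kernel are sums of pure tensors from the kernel. -/
theorem exists_pure {p q : ℕ} (F : kerBlk χ p q) {ε : ℝ} (hε : 0 < ε) :
    ∃ (L : ℕ) (a : Fin L → E) (g : Fin L → Blk ℂ p q), (∀ i, χ (a i) = 0) ∧
      ‖(F : Blk E p q) - ∑ i, const E p q (a i) * scBlk E p q (g i)‖ ≤ ε := by
  obtain ⟨L, a, g, h⟩ := density E p q (F : Blk E p q) (ε / 2) (by positivity)
  refine ⟨L, fun i => a i - algebraMap ℂ E (χ (a i)), g, fun i => by simp [AlgHomClass.commutes], ?_⟩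
  set S := ∑ i, const E p q (a i) * scBlk E p q (g i)
  have h2 : ‖mapBlk p q χ S‖ ≤ ε / 2 := by
    have e : mapBlk p q χ S = -mapBlk p q χ ((F : Blk E p q) - S) := by
      rw [map_sub, mem_kerBlk.1 F.2, zero_sub, neg_neg]
    rw [e, norm_neg]
    exact (NonUnitalStarAlgHom.norm_apply_le _ _).trans h
  have e : ∑ i, const E p q (a i - algebraMap ℂ E (χ (a i))) * scBlk E p q (g i) =
      S - scBlk E p q (mapBlk p q χ S) := by
    simp only [S, map_sum, map_mul, mapBlk_const, mapBlk_scBlk, map_sub, sub_mul,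
      Finset.sum_sub_distrib]
    congr 1
    refine Finset.sum_congr rfl fun i _ => ?_
    congr 1
    rw [AlgHomClass.commutes (const E p q), show const ℂ p q (χ (a i)) =
      algebraMap ℂ (Blk ℂ p q) (χ (a i)) from AlgHomClass.commutes (const ℂ p q) (χ (a i)),
      AlgHomClass.commutes (scBlk E p q)]
  rw [e, sub_sub_eq_add_sub, add_sub_right_comm]
  refine (norm_add_le _ _).trans ?_
  have h3 := (NonUnitalStarAlgHom.norm_apply_le (scBlk E p q) (mapBlk p q χ S)).trans h2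
  linarith

/-- The cut off of the unit at scale `δ`. -/
theorem unit_conj (b : E) (hb : 0 ≤ b) {δ : ℝ} (hδ : 0 < δ) :
    ‖(1 - cfc (fun t : ℝ => min 1 (max 0 (t / δ ^ 2))) b) * b *
      (1 - cfc (fun t : ℝ => min 1 (max 0 (t / δ ^ 2))) b)‖ ≤ δ ^ 2 := by
  have hb' : IsSelfAdjoint b := hb.isSelfAdjoint
  let g : ℝ → ℝ := fun t => 1 - min 1 (max 0 (t / δ ^ 2))
  have hg : Continuous g := by fun_prop
  have e0 : 1 - cfc (fun t : ℝ => min 1 (max 0 (t / δ ^ 2))) b = cfc g b := by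
    rw [show g = fun t => (fun _ => (1 : ℝ)) t - (fun t => min 1 (max 0 (t / δ ^ 2))) t from rfl,
      cfc_sub _ _ b continuousOn_const (by fun_prop), cfc_const_one ℝ b hb']
  have e1 : cfc g b * b * cfc g b = cfc (fun t => g t * t * g t) b := by
    rw [cfc_mul (fun t => g t * t) g b (hg.mul continuous_id).continuousOn hg.continuousOn,
      cfc_mul g (fun t => t) b hg.continuousOn continuousOn_id, cfc_id' ℝ b hb']
  rw [e0, e1]
  refine norm_cfc_le (by positivity) fun t ht => ?_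
  have ht0 : 0 ≤ t := spectrum_nonneg_of_nonneg hb ht
  have hd : 0 ≤ t / δ ^ 2 := div_nonneg ht0 (by positivity)
  simp only [g, max_eq_right hd, Real.norm_eq_abs]
  rcases le_total (t / δ ^ 2) 1 with h1 | h1
  · rw [min_eq_right h1]
    have h2 : 0 ≤ 1 - t / δ ^ 2 := by linarith
    rw [abs_of_nonneg (mul_nonneg (mul_nonneg h2 ht0) h2)]
    have ht1 : t ≤ δ ^ 2 := by rwa [div_le_one (by positivity)] at h1
    calc (1 - t / δ ^ 2) * t * (1 - t / δ ^ 2) ≤ 1 * t * 1 := by gcongr <;> linarith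
      _ ≤ δ ^ 2 := by linarith
  · rw [min_eq_left h1]; simp; positivity

/-- An approximate unit in the kernel. -/
theorem exists_unit (T : Finset E) (hT : ∀ a ∈ T, χ a = 0) {δ : ℝ} (hδ : 0 < δ) :
    ∃ e : E, χ e = 0 ∧ star e = e ∧ ‖e‖ ≤ 1 ∧ ∀ a ∈ T, ‖a * e - a‖ ≤ δ ∧ ‖e * a - a‖ ≤ δ := by
  classical
  let b : E := ∑ a ∈ T, (star a * a + a * star a)
  let f : ℝ → ℝ := fun t => min 1 (max 0 (t / δ ^ 2))
  have hf : Continuous f := by fun_prop
  have hb : 0 ≤ b := Finset.sum_nonneg fun a _ =>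
    add_nonneg (star_mul_self_nonneg a) (mul_star_self_nonneg a)
  let e := cfc f b
  have he : star e = e := (cfc_predicate f b : IsSelfAdjoint e).star_eq
  have hχ : χ e = 0 := by
    have h0 : χ b = 0 := by
      simp only [b, map_sum, map_add, map_mul, map_star]
      exact Finset.sum_eq_zero fun a ha => by simp [hT a ha]
    rw [show χ e = χ (cfc f b) from rfl, StarAlgHomClass.map_cfc χ f b hf.continuousOn
      (map_continuous χ) hb.isSelfAdjoint (by simp [h0]), h0, cfc_apply_zero]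
    simp [f]
  have hn : ‖e‖ ≤ 1 := norm_cfc_le zero_le_one fun t _ => by
    rw [Real.norm_eq_abs, abs_le]
    exact ⟨by have := le_min zero_le_one (le_max_left (0 : ℝ) (t / δ ^ 2)); simp only [f]; linarith,
      min_le_left _ _⟩
  have he1 : star (1 - e) = 1 - e := by rw [star_sub, star_one, he]
  have small : ‖(1 - e) * b * (1 - e)‖ ≤ δ ^ 2 := unit_conj b hb hδ
  have key : ∀ x : E, star x * x ≤ b → ‖x * (1 - e)‖ ≤ δ := fun x hx => by
    have h1 : star (x * (1 - e)) * (x * (1 - e)) ≤ (1 - e) * b * (1 - e) := by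
      have := star_left_conjugate_le_conjugate hx (1 - e)
      rw [star_mul, he1]
      rw [he1] at this
      simpa only [mul_assoc] using this
    have h2 := (CStarAlgebra.norm_le_norm_of_nonneg_of_le (star_mul_self_nonneg _) h1).trans small
    rw [CStarRing.norm_star_mul_self] at h2
    nlinarith [norm_nonneg (x * (1 - e))]
  refine ⟨e, hχ, he, hn, fun a ha => ?_⟩
  have hle : star a * a + a * star a ≤ b := Finset.single_le_sum
    (f := fun a => star a * a + a * star a)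
    (fun a _ => add_nonneg (star_mul_self_nonneg a) (mul_star_self_nonneg a)) ha
  constructor
  · have := key a (le_trans (le_add_of_nonneg_right (mul_star_self_nonneg a)) hle)
    rwa [mul_sub, mul_one, norm_sub_rev] at this
  · have := key (star a) (by
      rw [star_star]; exact le_trans (le_add_of_nonneg_left (star_mul_self_nonneg a)) hle)
    rw [mul_sub, mul_one, norm_sub_rev, ← norm_star, star_sub, star_mul, star_star, he] at this
    exact this

/-- Commutation and unit estimates for pure tensors. -/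
theorem pure_estimates {p q L : ℕ} (a : Fin L → E) (g : Fin L → Blk ℂ p q) (e : E)
    (y : Blk ℂ p q) {κ η : ℝ} (hη : 0 ≤ η) (he : ‖e‖ ≤ 1) (hy : ‖y‖ ≤ 1)
    (ha : ∀ i, ‖a i * e - a i‖ ≤ κ ∧ ‖e * a i - a i‖ ≤ κ)
    (hg : ∀ i, ‖y * g i - g i * y‖ ≤ η) :
    ‖const E p q e * scBlk E p q y * (∑ i, const E p q (a i) * scBlk E p q (g i)) -
      (∑ i, const E p q (a i) * scBlk E p q (g i)) * (const E p q e * scBlk E p q y)‖ ≤
        2 * κ * (∑ i, ‖g i‖) + η * ∑ i, ‖a i‖ := by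
  rw [Finset.mul_sum, Finset.sum_mul, ← Finset.sum_sub_distrib, Finset.mul_sum, Finset.mul_sum,
    ← Finset.sum_add_distrib]
  refine (norm_sum_le _ _).trans (Finset.sum_le_sum fun i _ => ?_)
  rw [prod_pure, prod_pure]
  have hc : ∀ x : E, ‖const E p q x‖ ≤ ‖x‖ := NonUnitalStarAlgHom.norm_apply_le _
  have hs : ∀ x : Blk ℂ p q, ‖scBlk E p q x‖ ≤ ‖x‖ := NonUnitalStarAlgHom.norm_apply_le _
  have e1 : const E p q (e * a i) * scBlk E p q (y * g i) -
      const E p q (a i * e) * scBlk E p q (g i * y) =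
      const E p q (e * a i - a i * e) * scBlk E p q (y * g i) +
        const E p q (a i * e) * scBlk E p q (y * g i - g i * y) := by
    rw [map_sub (const E p q), map_sub (scBlk E p q)]; noncomm_ring
  rw [e1]
  refine (norm_add_le _ _).trans (add_le_add ?_ ?_)
  · refine (norm_mul_le _ _).trans (mul_le_mul ((hc _).trans ?_) ((hs _).trans ?_) (norm_nonneg _)
      (by linarith [norm_nonneg (a i * e - a i), (ha i).1]))
    · rw [show e * a i - a i * e = (e * a i - a i) - (a i * e - a i) by abel]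
      refine (norm_sub_le _ _).trans ?_
      linarith [(ha i).1, (ha i).2]
    · refine (norm_mul_le _ _).trans ?_
      nlinarith [norm_nonneg (g i)]
  · rw [mul_comm η]
    refine (norm_mul_le _ _).trans (mul_le_mul ((hc _).trans ?_) ((hs _).trans (hg i))
      (norm_nonneg _) (norm_nonneg _))
    refine (norm_mul_le _ _).trans ?_
    nlinarith [norm_nonneg (a i)]

theorem unit_estimate {p q L : ℕ} (a : Fin L → E) (g : Fin L → Blk ℂ p q) (e : E) {κ : ℝ}
    (he : ‖e‖ ≤ 1) (ha : ∀ i, ‖e * a i - a i‖ ≤ κ) :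
    ‖const E p q (e * e) * (∑ i, const E p q (a i) * scBlk E p q (g i)) -
      ∑ i, const E p q (a i) * scBlk E p q (g i)‖ ≤ 2 * κ * ∑ i, ‖g i‖ := by
  rw [Finset.mul_sum, ← Finset.sum_sub_distrib, Finset.mul_sum]
  refine (norm_sum_le _ _).trans (Finset.sum_le_sum fun i _ => ?_)
  rw [← mul_assoc, ← map_mul, ← sub_mul, ← map_sub]
  refine (norm_mul_le _ _).trans (mul_le_mul ((NonUnitalStarAlgHom.norm_apply_le _ _).trans ?_)
    (NonUnitalStarAlgHom.norm_apply_le _ _) (norm_nonneg _)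
    (by linarith [norm_nonneg (e * a i - a i), ha i]))
  rw [show e * e * a i - a i = e * (e * a i - a i) + (e * a i - a i) by noncomm_ring]
  refine (norm_add_le _ _).trans ?_
  have := norm_mul_le e (e * a i - a i)
  nlinarith [norm_nonneg (e * a i - a i), ha i]

theorem comm_near {R : Type*} [CStarAlgebra R] {x a b : R} {δ r : ℝ} (hx : ‖x‖ ≤ 1)
    (hab : ‖a - b‖ ≤ δ) (h : ‖x * b - b * x‖ ≤ r) : ‖x * a - a * x‖ ≤ 2 * δ + r := by
  have e : x * a - a * x = (x * (a - b) - (a - b) * x) + (x * b - b * x) := by noncomm_ring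
  rw [e]
  refine (norm_add_le _ _).trans (add_le_add ?_ h)
  refine (norm_sub_le _ _).trans ((add_le_add (norm_mul_le _ _) (norm_mul_le _ _)).trans ?_)
  nlinarith [norm_nonneg x, norm_nonneg (a - b)]

/-- Pure tensors at a far stage. -/
def pureK {p q L : ℕ} (a : Fin L → E) (ha : ∀ i, χ (a i) = 0) (g : Fin L → Blk ℂ p q) :
    kerBlk χ p q :=
  ⟨∑ i, const E p q (a i) * scBlk E p q (g i), sum_mem fun i _ => const_mem (ha i) _⟩

/-- A scalar element cut down by an element of the kernel. -/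
def cutK {p q : ℕ} (e : E) (he : χ e = 0) (y : Blk ℂ p q) : kerBlk χ p q :=
  ⟨const E p q e * scBlk E p q y, const_mem he y⟩

/-- An element of the kernel as a constant. -/
def constK {p q : ℕ} (e : E) (he : χ e = 0) : kerBlk χ p q :=
  ⟨const E p q e, by rw [mem_kerBlk, mapBlk_const, he, map_zero]⟩

section est

variable {p q : ℕ} (φ : kerBlk χ p q →⋆ₙₐ[ℂ] E)
  (hnorm : ∀ F, ‖φ F‖ ≤ ‖(F : Blk E p q)‖)

include hnorm

theorem norm_cutK (e : E) (he : χ e = 0) (hen : ‖e‖ ≤ 1) (y : Blk ℂ p q) (hy : ‖y‖ ≤ 1) :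
    ‖φ (cutK e he y)‖ ≤ 1 :=
  (hnorm _).trans ((norm_mul_le _ _).trans (mul_le_one₀
    ((NonUnitalStarAlgHom.norm_apply_le _ _).trans hen) (norm_nonneg _)
    ((NonUnitalStarAlgHom.norm_apply_le _ _).trans hy)))

theorem norm_constK (e : E) (he : χ e = 0) (hen : ‖e‖ ≤ 1) : ‖φ (constK e he)‖ ≤ 1 :=
  (hnorm _).trans ((NonUnitalStarAlgHom.norm_apply_le _ _).trans hen)

theorem comm_cutK {L : ℕ} (c : Fin L → E) (hc : ∀ i, χ (c i) = 0) (g : Fin L → Blk ℂ p q)
    (e : E) (he : χ e = 0) (hen : ‖e‖ ≤ 1) (y : Blk ℂ p q) (hy : ‖y‖ ≤ 1) {κ η : ℝ} (hη : 0 ≤ η)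
    (hu : ∀ i, ‖c i * e - c i‖ ≤ κ ∧ ‖e * c i - c i‖ ≤ κ)
    (hg : ∀ i, ‖y * g i - g i * y‖ ≤ η) :
    ‖φ (cutK e he y) * φ (pureK c hc g) - φ (pureK c hc g) * φ (cutK e he y)‖ ≤
      2 * κ * (∑ i, ‖g i‖) + η * ∑ i, ‖c i‖ := by
  rw [← map_mul, ← map_mul, ← map_sub]
  exact (hnorm _).trans (pure_estimates c g e y hη hen hy hu hg)

theorem unit_constK {L : ℕ} (c : Fin L → E) (hc : ∀ i, χ (c i) = 0) (g : Fin L → Blk ℂ p q)
    (e : E) (he : χ (e * e) = 0) (hen : ‖e‖ ≤ 1) {κ : ℝ}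
    (hu : ∀ i, ‖c i * e - c i‖ ≤ κ ∧ ‖e * c i - c i‖ ≤ κ) :
    ‖φ (constK (e * e) he) * φ (pureK c hc g) - φ (pureK c hc g)‖ ≤ 2 * κ * (∑ i, ‖g i‖) ∧
      ‖φ (constK (e * e) he) * φ (pureK c hc g) - φ (pureK c hc g) * φ (constK (e * e) he)‖ ≤
        4 * κ * (∑ i, ‖g i‖) := by
  constructor
  · rw [← map_mul, ← map_sub]
    exact (hnorm _).trans (unit_estimate c g e hen fun i => (hu i).2)
  · rw [← map_mul, ← map_mul, ← map_sub]
    refine (hnorm _).trans ?_
    have h3 := pure_estimates c g (e * e) (1 : Blk ℂ p q) (κ := 2 * κ) (η := 0) le_rfl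
      ((norm_mul_le _ _).trans (mul_le_one₀ hen (norm_nonneg _) hen))
      (by simpa using NonUnitalStarAlgHom.norm_apply_le (const ℂ p q) (1 : ℂ))
      (fun i => by
        obtain ⟨r1, r2⟩ := hu i
        constructor
        · rw [show c i * (e * e) - c i = (c i * e - c i) * e + (c i * e - c i) by noncomm_ring]
          refine (norm_add_le _ _).trans ?_
          have := norm_mul_le (c i * e - c i) e
          nlinarith [norm_nonneg (c i * e - c i)]
        · rw [show e * e * c i - c i = e * (e * c i - c i) + (e * c i - c i) by noncomm_ring]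
          refine (norm_add_le _ _).trans ?_
          have := norm_mul_le e (e * c i - c i)
          nlinarith [norm_nonneg (e * c i - c i)])
      (fun i => by simp)
    rw [map_one, mul_one, zero_mul, add_zero] at h3
    exact h3.trans_eq (by ring)

end est

theorem sq_cutK {p q : ℕ} (φ : kerBlk χ p q →⋆ₙₐ[ℂ] E) (e : E) (he : χ e = 0) {y : Blk ℂ p q}
    (hy : y * y = 0) : φ (cutK e he y) * φ (cutK e he y) = 0 := by
  have h : cutK e he y * cutK e he y = 0 := Subtype.ext (by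
    show const E p q e * scBlk E p q y * (const E p q e * scBlk E p q y) = 0
    rw [prod_pure, hy, map_zero, mul_zero])
  rw [← map_mul, h, map_zero]

theorem cover_identity {p q : ℕ} (φ : kerBlk χ p q →⋆ₙₐ[ℂ] E) (e : E) (he : χ e = 0)
    (he2 : χ (e * e) = 0) (hes : star e = e) (x : Fin 6 → Blk ℂ p q) (z : Fin 3 → Blk ℂ p q)
    (hs : ∑ i, (star (x i) * x i + x i * star (x i)) = 1 + ∑ i, star (z i) * z i) :
    ∑ i, (star (φ (cutK e he (x i))) * φ (cutK e he (x i)) +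
        φ (cutK e he (x i)) * star (φ (cutK e he (x i)))) =
      φ (constK (e * e) he2) + ∑ i, star (φ (cutK e he (z i))) * φ (cutK e he (z i)) := by
  have hst : ∀ y : Blk ℂ p q, star (cutK e he y) = cutK e he (star y) := fun y => Subtype.ext (by
    show star (const E p q e * scBlk E p q y) = const E p q e * scBlk E p q (star y)
    rw [star_mul, ← map_star (scBlk E p q), ← map_star (const E p q), hes,
      ← (commute_const_scBlk e _).eq])
  simp only [← map_star φ, ← map_mul φ, ← map_add φ, ← map_sum φ, hst]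
  congr 1
  refine Subtype.ext ?_
  simp only [cutK, constK, AddSubmonoidClass.coe_finsetSum, AddMemClass.coe_add,
    MulMemClass.coe_mul, prod_pure, ← mul_add, ← map_add, ← Finset.mul_sum, ← map_sum]
  rw [hs, map_add, map_one, mul_add, mul_one]

theorem near_pureK {m d L : ℕ} (φ : kerBlk χ (P (m + d)) (Q (m + d)) →⋆ₙₐ[ℂ] E)
    (hnorm : ∀ F, ‖φ F‖ ≤ ‖(F : Blk E (P (m + d)) (Q (m + d)))‖)
    (F : kerBlk χ (P m) (Q m)) (c : Fin L → E) (hc : ∀ i, χ (c i) = 0)
    (g : Fin L → Blk ℂ (P m) (Q m)) {ε : ℝ}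
    (hg : ‖(F : Blk E (P m) (Q m)) - ∑ i, const E (P m) (Q m) (c i) * scBlk E (P m) (Q m) (g i)‖
      ≤ ε) :
    ‖φ (kconnTo χ m d F) - φ (pureK c hc fun i => connTo ℂ m d (g i))‖ ≤ ε := by
  rw [← map_sub]
  refine (hnorm _).trans ?_
  show ‖connTo E m d (F : Blk E (P m) (Q m)) -
    ∑ i, const E _ _ (c i) * scBlk E _ _ (connTo ℂ m d (g i))‖ ≤ _
  have e : ∑ i, const E (P (m + d)) (Q (m + d)) (c i) *
      scBlk E (P (m + d)) (Q (m + d)) (connTo ℂ m d (g i)) =
      connTo E m d (∑ i, const E (P m) (Q m) (c i) * scBlk E (P m) (Q m) (g i)) := by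
    simp only [map_sum, map_mul, connTo_const, connTo_scBlk]
  rw [e, ← map_sub]
  exact (NonUnitalStarAlgHom.norm_apply_le _ _).trans hg

theorem tri {R : Type*} [CStarAlgebra R] {a x y v : R} {r s : ℝ} (h1 : ‖a - x‖ ≤ r) (e : y = x)
    (h2 : ‖y - v‖ ≤ r) (hs : r + r = s) : ‖a - v‖ ≤ s := by
  subst e
  rw [show a - v = (a - y) + (y - v) by abel]
  exact (norm_add_le _ _).trans (by linarith)

/-- Finitely many elements of the kernel are near pure tensors of one stage, and stay so. -/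
theorem exists_approx (φ : ∀ m, kerBlk χ (P m) (Q m) →⋆ₙₐ[ℂ] E)
    (hnorm : ∀ m F, ‖φ m F‖ ≤ ‖(F : Blk E (P m) (Q m))‖)
    (hc : ∀ m F, φ (m + 1) (kconn χ m F) = φ m F)
    (hd : ∀ x : E, χ x = 0 → ∀ ε : ℝ, 0 < ε → ∃ m F, ‖x - φ m F‖ < ε)
    (T : Finset E) (hT : ∀ a ∈ T, χ a = 0) {ε : ℝ} (hε : 0 < ε) :
    ∃ (m : ℕ) (L : E → ℕ) (c : ∀ a, Fin (L a) → E) (g : ∀ a, Fin (L a) → Blk ℂ (P m) (Q m))
      (h0 : ∀ a i, χ (c a i) = 0),
      ∀ a ∈ T, ∀ d, ‖a - φ (m + d) (pureK (c a) (h0 a) fun i => connTo ℂ m d (g a i))‖ ≤ ε := by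
  classical
  have hcd : ∀ m d (F : kerBlk χ (P m) (Q m)), φ (m + d) (kconnTo χ m d F) = φ m F := by
    intro m d
    induction d with
    | zero => exact fun F => rfl
    | succ d ih => exact fun F => (hc (m + d) (kconnTo χ m d F)).trans (ih F)
  choose! m₀ F₀ hF₀ using fun a (ha : a ∈ T) => hd a (hT a ha) (ε / 2) (by positivity)
  obtain ⟨m, hmdef⟩ : ∃ m, m = T.sup m₀ := ⟨_, rfl⟩
  have hm : ∀ a ∈ T, ∃ F, ‖a - φ m F‖ < ε / 2 := fun a ha => by
    obtain ⟨d, e⟩ := Nat.exists_eq_add_of_le (Finset.le_sup (f := m₀) ha)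
    rw [hmdef, e]
    exact ⟨kconnTo χ (m₀ a) d (F₀ a), by rw [hcd]; exact hF₀ a ha⟩
  choose! F hF using hm
  choose L c g hc0 hg using fun a => exists_pure (F a) (ε := ε / 2) (by positivity)
  refine ⟨m, L, c, g, hc0, fun a ha d => ?_⟩
  have h2 := near_pureK (m := m) (d := d) (φ (m + d)) (fun G => hnorm (m + d) G) (F a) (c a)
    (hc0 a) (g a) (hg a)
  exact tri (hF a ha).le (hcd m d (F a)) h2 (by ring)

theorem near_unit {R : Type*} [CStarAlgebra R] {u a b : R} {δ r : ℝ} (hu : ‖u‖ ≤ 1)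
    (hab : ‖a - b‖ ≤ δ) (h : ‖u * b - b‖ ≤ r) : ‖u * a - a‖ ≤ 2 * δ + r := by
  rw [show u * a - a = u * (a - b) + (u * b - b) + (b - a) by noncomm_ring]
  refine (norm_add_le _ _).trans ?_
  have h1 := norm_add_le (u * (a - b)) (u * b - b)
  have h2 := norm_mul_le u (a - b)
  rw [norm_sub_rev b a]
  nlinarith [norm_nonneg (a - b)]

/-- The estimates at one stage. -/
theorem assemble {p q : ℕ} (φ : kerBlk χ p q →⋆ₙₐ[ℂ] E)
    (hnorm : ∀ F, ‖φ F‖ ≤ ‖(F : Blk E p q)‖) (T : Finset E) {L : E → ℕ}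
    (c : ∀ a, Fin (L a) → E) (hc : ∀ a i, χ (c a i) = 0) (g : ∀ a, Fin (L a) → Blk ℂ p q)
    {ε κ η : ℝ} (hε : 0 ≤ ε) (hap : ∀ a ∈ T, ‖a - φ (pureK (c a) (hc a) (g a))‖ ≤ ε / 8)
    (e : E) (he : χ e = 0) (he2 : χ (e * e) = 0) (hes : star e = e) (hen : ‖e‖ ≤ 1)
    (hu : ∀ a ∈ T, ∀ i, ‖c a i * e - c a i‖ ≤ κ ∧ ‖e * c a i - c a i‖ ≤ κ) (hη : 0 ≤ η)
    (x : Fin 6 → Blk ℂ p q) (z : Fin 3 → Blk ℂ p q)
    (hx : ∀ i, ‖x i‖ ≤ 1 ∧ x i * x i = 0 ∧ ∀ a ∈ T, ∀ j, ‖x i * g a j - g a j * x i‖ ≤ η)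
    (hz : ∀ i, ‖z i‖ ≤ 1 ∧ ∀ a ∈ T, ∀ j, ‖z i * g a j - g a j * z i‖ ≤ η)
    (hs : ∑ i, (star (x i) * x i + x i * star (x i)) = 1 + ∑ i, star (z i) * z i)
    (sums : ∀ a ∈ T, 2 * κ * (∑ i, ‖g a i‖) ≤ ε / 8 ∧ η * (∑ i, ‖c a i‖) ≤ ε / 8) :
    ∃ (x : Fin 6 → E) (w : Fin 3 → E) (u : E),
      (∀ i, ‖x i‖ ≤ 1 ∧ x i * x i = 0 ∧ ∀ a ∈ T, ‖x i * a - a * x i‖ ≤ ε) ∧
      (∀ i, ‖w i‖ ≤ 1 ∧ ∀ a ∈ T, ‖w i * a - a * w i‖ ≤ ε) ∧
      (‖u‖ ≤ 1 ∧ ∀ a ∈ T, ‖u * a - a * u‖ ≤ ε ∧ ‖u * a - a‖ ≤ ε) ∧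
      ∑ i, (star (x i) * x i + x i * star (x i)) = u + ∑ i, star (w i) * w i := by
  have main : ∀ y, ‖y‖ ≤ 1 → (∀ a ∈ T, ∀ j, ‖y * g a j - g a j * y‖ ≤ η) →
      ∀ a ∈ T, ‖φ (cutK e he y) * a - a * φ (cutK e he y)‖ ≤ ε :=
    fun y hy hcom a ha => by
      refine (comm_near (norm_cutK _ hnorm e he hen y hy) (hap a ha)
        (comm_cutK _ hnorm (c a) (hc a) _ e he hen y hy hη (hu a ha) (hcom a ha))).trans ?_
      linarith [sums a ha]
  have hU := norm_constK φ hnorm (e * e) he2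
    ((norm_mul_le _ _).trans (mul_le_one₀ hen (norm_nonneg _) hen))
  refine ⟨fun i => φ (cutK e he (x i)), fun i => φ (cutK e he (z i)),
    φ (constK (e * e) he2), fun i => ⟨norm_cutK _ hnorm e he hen _ (hx i).1,
      sq_cutK φ e he (hx i).2.1, main _ (hx i).1 (hx i).2.2⟩,
    fun i => ⟨norm_cutK _ hnorm e he hen _ (hz i).1, main _ (hz i).1 (hz i).2⟩,
    ⟨hU, fun a ha => ?_⟩, cover_identity φ e he he2 hes x z hs⟩
  obtain ⟨h1, h2⟩ := unit_constK φ hnorm (c a) (hc a) (g a) e he2 hen (hu a ha)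
  exact ⟨(comm_near hU (hap a ha) h2).trans (by linarith [sums a ha]),
    (near_unit hU (hap a ha) h1).trans (by linarith [sums a ha])⟩

/-- In a tensor limit finitely many elements of the kernel almost commute with elements of square
zero which cover an almost unit. -/
theorem exists_cover (φ : ∀ m, kerBlk χ (P m) (Q m) →⋆ₙₐ[ℂ] E)
    (hnorm : ∀ m F, ‖φ m F‖ ≤ ‖(F : Blk E (P m) (Q m))‖)
    (hc : ∀ m F, φ (m + 1) (kconn χ m F) = φ m F)
    (hd : ∀ x : E, χ x = 0 → ∀ ε : ℝ, 0 < ε → ∃ m F, ‖x - φ m F‖ < ε)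
    (T : Finset E) (hT : ∀ a ∈ T, χ a = 0) {ε : ℝ} (hε : 0 < ε) :
    ∃ (x : Fin 6 → E) (w : Fin 3 → E) (u : E),
      (∀ i, ‖x i‖ ≤ 1 ∧ x i * x i = 0 ∧ ∀ a ∈ T, ‖x i * a - a * x i‖ ≤ ε) ∧
      (∀ i, ‖w i‖ ≤ 1 ∧ ∀ a ∈ T, ‖w i * a - a * w i‖ ≤ ε) ∧
      (‖u‖ ≤ 1 ∧ ∀ a ∈ T, ‖u * a - a * u‖ ≤ ε ∧ ‖u * a - a‖ ≤ ε) ∧
      ∑ i, (star (x i) * x i + x i * star (x i)) = u + ∑ i, star (w i) * w i := by
  classical
  obtain ⟨m, L, c, g, hc0, hap⟩ := exists_approx φ hnorm hc hd T hT (ε := ε / 8) (by positivity)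
  let Sg : ℝ := ∑ a ∈ T, ∑ i, ‖g a i‖
  let Sc : ℝ := ∑ a ∈ T, ∑ i, ‖c a i‖
  have hSg : 0 ≤ Sg := Finset.sum_nonneg fun a _ => Finset.sum_nonneg fun i _ => norm_nonneg _
  have hSc : 0 ≤ Sc := Finset.sum_nonneg fun a _ => Finset.sum_nonneg fun i _ => norm_nonneg _
  obtain ⟨κ, hκ⟩ : ∃ κ, κ = ε / (16 * (Sg + 1)) := ⟨_, rfl⟩
  obtain ⟨η, hη⟩ : ∃ η, η = ε / (8 * (Sc + 1)) := ⟨_, rfl⟩
  have hκS : 2 * κ * Sg ≤ ε / 8 := by
    rw [hκ, mul_div_assoc', div_mul_eq_mul_div, div_le_iff₀ (by positivity)]; nlinarith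
  have hηS : η * Sc ≤ ε / 8 := by
    rw [hη, div_mul_eq_mul_div, div_le_iff₀ (by positivity)]; nlinarith
  have hκ0 : 0 < κ := by rw [hκ]; positivity
  have hη0 : 0 < η := by rw [hη]; positivity
  obtain ⟨e, he0, hes, hen, heT⟩ := exists_unit (χ := χ)
    (T.biUnion fun a => Finset.univ.image (c a)) (fun x hx => by
      simp only [Finset.mem_biUnion, Finset.mem_image] at hx
      obtain ⟨a, -, i, -, rfl⟩ := hx
      exact hc0 a i) hκ0
  obtain ⟨d, q, z, hq, hz, hs⟩ := exists_central m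
    (T.biUnion fun a => Finset.univ.image (g a)) hη0
  have he2 : χ (e * e) = 0 := by rw [map_mul, he0, mul_zero]
  have hu : ∀ a ∈ T, ∀ i, ‖c a i * e - c a i‖ ≤ κ ∧ ‖e * c a i - c a i‖ ≤ κ := fun a ha i =>
    heT _ (Finset.mem_biUnion.2 ⟨a, ha, Finset.mem_image_of_mem _ (Finset.mem_univ i)⟩)
  have sums : ∀ a ∈ T, 2 * κ * (∑ i, ‖connTo ℂ m d (g a i)‖) ≤ ε / 8 ∧
      η * (∑ i, ‖c a i‖) ≤ ε / 8 := fun a ha =>
    ⟨(mul_le_mul_of_nonneg_left
      ((Finset.sum_le_sum fun i _ => NonUnitalStarAlgHom.norm_apply_le _ _).trans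
        (Finset.single_le_sum (f := fun a => ∑ i, ‖g a i‖)
          (fun a _ => Finset.sum_nonneg fun i _ => norm_nonneg _) ha)) (by positivity)).trans hκS,
      (mul_le_mul_of_nonneg_left (Finset.single_le_sum (f := fun a => ∑ i, ‖c a i‖)
        (fun a _ => Finset.sum_nonneg fun i _ => norm_nonneg _) ha) hη0.le).trans hηS⟩
  exact assemble (φ (m + d)) (hnorm (m + d)) T c hc0 (fun a i => connTo ℂ m d (g a i))
    hε.le (fun a ha => hap a ha d) e he0 he2 hes hen hu hη0.le q z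
    (fun i => ⟨(hq i).1, (hq i).2.1, fun a ha j => (hq i).2.2 _ (Finset.mem_biUnion.2
      ⟨a, ha, Finset.mem_image_of_mem _ (Finset.mem_univ j)⟩)⟩)
    (fun i => ⟨(hz i).1, fun a ha j => (hz i).2 _ (Finset.mem_biUnion.2
      ⟨a, ha, Finset.mem_image_of_mem _ (Finset.mem_univ j)⟩)⟩) hs sums

variable (χ) in
/-- Characters of the central sequence algebra which kill the annihilator of the kernel vanish. -/
theorem no_character [SeparableSpace E] (φ : ∀ m, kerBlk χ (P m) (Q m) →⋆ₙₐ[ℂ] E)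
    (hnorm : ∀ m F, ‖φ m F‖ ≤ ‖(F : Blk E (P m) (Q m))‖)
    (hc : ∀ m F, φ (m + 1) (kconn χ m F) = φ m F)
    (hd : ∀ x : E, χ x = 0 → ∀ ε : ℝ, 0 < ε → ∃ m F, ‖x - φ m F‖ < ε)
    (ω : Ultrafilter ℕ) (hω : (ω : Filter ℕ) ≤ cofinite)
    (ψ : CentralSeq E ω →⋆ₙₐ[ℂ] ℂ)
    (hψ : ∀ x : CentralSeq E ω, (∀ a, χ a = 0 → (x : UPow E ω) * UPow.const a = 0) → ψ x = 0) :
    ψ = 0 := by
  classical
  let dn : ℕ → E := fun l =>
    TopologicalSpace.denseSeq E l - algebraMap ℂ E (χ (TopologicalSpace.denseSeq E l))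
  choose x w v hx hw hv hs using fun n : ℕ => exists_cover φ hnorm hc hd
    ((Finset.range (n + 1)).image dn) (fun a ha => by
      obtain ⟨l, -, rfl⟩ := Finset.mem_image.1 ha
      simp [dn, AlgHomClass.commutes]) (ε := 1 / (n + 1)) (by positivity)
  have h0 : Tendsto (fun n : ℕ => (1 : ℝ) / (n + 1)) (ω : Filter ℕ) (𝓝 0) :=
    tendsto_one_div_add_atTop_nhds_zero_nat.mono_left (hω.trans_eq Nat.cofinite_eq_atTop)
  have hev : ∀ l, ∀ᶠ n in (ω : Filter ℕ), dn l ∈ (Finset.range (n + 1)).image dn := fun l => by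
    filter_upwards [(hω.trans_eq Nat.cofinite_eq_atTop) (eventually_ge_atTop l)] with n hn
    exact Finset.mem_image_of_mem dn (Finset.mem_range.2 (Nat.lt_succ_of_le hn))
  have mem : ∀ f : ℕ →ᵇ E, (∀ n : ℕ, ∀ b ∈ (Finset.range (n + 1)).image dn,
      ‖f n * b - b * f n‖ ≤ 1 / (n + 1)) → (UPow.mk f : UPow E ω) ∈ CentralSeq E ω := by
    intro f hf
    refine mem_centralSeq.2 fun b => ?_
    have hcl : IsClosed {b : E | Commute (UPow.const b) (UPow.mk f : UPow E ω)} :=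
      isClosed_eq ((continuous_mul_const (UPow.mk f : UPow E ω)).comp UPow.continuous_const')
        ((continuous_const_mul (UPow.mk f : UPow E ω)).comp UPow.continuous_const')
    refine hcl.closure_subset_iff.2 ?_ ((TopologicalSpace.denseRange_denseSeq E) b)
    rintro _ ⟨l, rfl⟩
    show UPow.mk _ * UPow.mk f = UPow.mk f * UPow.mk _
    rw [← map_mul, ← map_mul, UPow.mk_eq_mk, mem_nullIdeal]
    refine squeeze_zero' (Eventually.of_forall fun n => norm_nonneg _) ?_ h0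
    filter_upwards [hev l] with n hn
    simp only [BoundedContinuousFunction.sub_apply, BoundedContinuousFunction.mul_apply,
      BoundedContinuousFunction.const_apply]
    rw [norm_sub_rev]
    have e : f n * TopologicalSpace.denseSeq E l - TopologicalSpace.denseSeq E l * f n =
        f n * dn l - dn l * f n := by
      simp only [dn, mul_sub, sub_mul, Algebra.commutes]; abel
    rw [e]
    exact hf n _ hn
  let X : Fin 6 → ℕ →ᵇ E := fun i =>
    ofNormedAddCommGroupDiscrete (fun n => x n i) 1 fun n => (hx n i).1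
  let W : Fin 3 → ℕ →ᵇ E := fun i =>
    ofNormedAddCommGroupDiscrete (fun n => w n i) 1 fun n => (hw n i).1
  let V : ℕ →ᵇ E := ofNormedAddCommGroupDiscrete v 1 fun n => (hv n).1
  let Xc : Fin 6 → CentralSeq E ω := fun i =>
    ⟨UPow.mkHom (X i), mem (X i) fun n => (hx n i).2.2⟩
  let Wc : Fin 3 → CentralSeq E ω := fun i => ⟨UPow.mkHom (W i), mem (W i) fun n => (hw n i).2⟩
  let Vc : CentralSeq E ω := ⟨UPow.mkHom V, mem V fun n b hb => ((hv n).2 b hb).1⟩
  have hsq : ∀ i, Xc i * Xc i = 0 := fun i => Subtype.ext (by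
    show UPow.mkHom (X i) * UPow.mkHom (X i) = 0
    rw [← map_mul, show X i * X i = 0 from BoundedContinuousFunction.ext fun n => (hx n i).2.1,
      map_zero])
  have hsum : ∑ i, (star (Xc i) * Xc i + Xc i * star (Xc i)) =
      Vc + ∑ i, star (Wc i) * Wc i := Subtype.ext (by
    have e : ∑ i, (star (X i) * X i + X i * star (X i)) = V + ∑ i, star (W i) * W i :=
      BoundedContinuousFunction.ext fun n => by simpa [X, W, V] using hs n
    have := congrArg (UPow.mkHom (A := E) (ω := ω)) e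
    simpa only [map_sum, map_add, map_mul, map_star, AddSubmonoidClass.coe_finsetSum,
      AddMemClass.coe_add, MulMemClass.coe_mul, StarMemClass.coe_star]
      using this)
  have hker : ψ (1 - Vc) = 0 := hψ _ fun a ha => by
    have hcl : IsClosed {b : E | ((1 - Vc : CentralSeq E ω) : UPow E ω) *
        UPow.const (b - algebraMap ℂ E (χ b)) = 0} :=
      isClosed_eq ((continuous_const_mul _).comp (UPow.continuous_const'.comp
        (continuous_id.sub ((continuous_algebraMap ℂ E).comp (map_continuous χ)))))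
        continuous_const
    have key := hcl.closure_subset_iff.2 ?_ ((TopologicalSpace.denseRange_denseSeq E) a)
    · simpa [ha] using key
    rintro _ ⟨l, rfl⟩
    show ((1 - Vc : CentralSeq E ω) : UPow E ω) * UPow.const (dn l) = 0
    rw [AddSubgroupClass.coe_sub, OneMemClass.coe_one, sub_mul, one_mul, sub_eq_zero]
    show UPow.mk _ = UPow.mk V * UPow.mk _
    rw [← map_mul, UPow.mk_eq_mk, mem_nullIdeal]
    refine squeeze_zero' (Eventually.of_forall fun n => norm_nonneg _) ?_ h0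
    filter_upwards [hev l] with n hn
    simp only [BoundedContinuousFunction.sub_apply, BoundedContinuousFunction.mul_apply,
      BoundedContinuousFunction.const_apply]
    rw [norm_sub_rev]
    exact ((hv n).2 _ hn).2
  have hψX : ∀ i, ψ (Xc i) = 0 := fun i =>
    mul_self_eq_zero.1 (by rw [← map_mul, hsq i, map_zero])
  have h1 := congrArg ψ hsum
  simp only [map_sum, map_add, map_mul, map_star, hψX, mul_zero, star_zero, add_zero,
    Finset.sum_const_zero] at h1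
  rw [map_sub, sub_eq_zero] at hker
  rw [← hker] at h1
  have hi : ψ 1 * ψ 1 = ψ 1 := by rw [← map_mul, one_mul]
  rcases eq_or_ne (ψ 1) 0 with hz | hz
  · refine DFunLike.ext _ _ fun y => ?_
    rw [← mul_one y, map_mul, hz, mul_zero]
    rfl
  · exfalso
    rw [mul_right_cancel₀ hz (hi.trans (one_mul _).symm)] at h1
    have h2 := congrArg Complex.re h1
    simp only [Complex.zero_re, Complex.add_re, Complex.one_re, Complex.re_sum,
      Complex.star_def, Complex.mul_re, Complex.conj_re, Complex.conj_im] at h2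
    have h3 : (0 : ℝ) ≤ ∑ i, ((ψ (Wc i)).re * (ψ (Wc i)).re -
        -(ψ (Wc i)).im * (ψ (Wc i)).im) :=
      Finset.sum_nonneg fun i _ => by nlinarith [sq_nonneg (ψ (Wc i)).re, sq_nonneg (ψ (Wc i)).im]
    linarith

end

end Vale.Agent.P095.NUCentral
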