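import Vale.Agent.P095.NU.Spec
import Vale.Agent.P095.NU.StableNoChar
import Vale.Agent.P101.JS.ZTensor

/-!
# P095, non-unital algebras: the maps of a tensor limit on the stages with coefficients in `A`

`A` is the kernel of the character `fstChar` of its unitisation `E`; a tensor limit structure on `A`
gives compatible *-homomorphisms from the kernels of the stages over `E` into `E`.
-/

namespace Vale.Agent.P095.NU.Maps

open VAgent.P101 Vale.Agent.P101.JS Vale.Agent.P095 Vale.Agent.P095.NUCentral
open scoped ComplexOrder CStarAlgebra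

noncomputable section

universe u

attribute [local instance 50] CStarAlgebra.spectralOrder CStarAlgebra.spectralOrderedRing

variable {A : Type u} [NonUnitalCStarAlgebra A]

variable (A) in
/-- The character of the unitisation vanishing on `A`. -/
def fstChar : Unitization ℂ A →⋆ₐ[ℂ] ℂ :=
  { Unitization.fstHom ℂ A with map_star' := fun x => Unitization.fst_star x }

theorem fstChar_apply (x : Unitization ℂ A) : fstChar A x = x.fst := rfl

omit [NonUnitalCStarAlgebra A] in
theorem inr_snd [Zero A] {x : Unitization ℂ A} (h : x.fst = 0) : (x.snd : Unitization ℂ A) = x := by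
  refine Unitization.ext ?_ ?_ <;> simp [h]

/-- The connecting map of non-unital entries is the unital one in the unitisation. -/
theorem inr_stepMap (m : ℕ) (W : Frame m) (f : Stage A m) (t : unitInterval)
    (i j : Fin (P (m + 1)) × Fin (Q (m + 1))) :
    ((NU.stepMap m W f t i j : A) : Unitization ℂ A) =
      Vale.Agent.P101.JS.stepMap m W
        (fun s => (f s).map ((↑) : A → Unitization ℂ A)) t i j := by
  rw [show NU.stepMap m W f t i j =
    ∑ k, ∑ x, ∑ y, (W t i (x, k) * star (W t j (y, k))) • f (eigen m k t) x y from rfl]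
  rw [show ((∑ k, ∑ x, ∑ y, (W t i (x, k) * star (W t j (y, k))) • f (eigen m k t) x y : A) :
      Unitization ℂ A) = ∑ k, ∑ x, ∑ y, (W t i (x, k) * star (W t j (y, k))) •
        ((f (eigen m k t) x y : A) : Unitization ℂ A) by
    simp only [← Unitization.inrNonUnitalStarAlgHom_apply (R := ℂ) (A := A), map_sum, map_smul]]
  unfold Vale.Agent.P101.JS.stepMap
  simp only [Matrix.mul_apply, Matrix.map_apply, Matrix.conjTranspose_apply,
    Algebra.algebraMap_eq_smul_one, star_smul, star_one, Matrix.blockDiagonal_apply, mul_ite,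
    mul_zero, smul_mul_assoc, one_mul, mul_smul_comm, mul_one, Fintype.sum_prod_type,
    Finset.sum_ite_eq', Finset.mem_univ, if_true, Finset.smul_sum, smul_smul]
  symm
  refine (Finset.sum_congr rfl fun x _ => Finset.sum_comm).trans
    (Finset.sum_comm.trans (Finset.sum_congr rfl fun k _ => ?_))
  refine (Finset.sum_congr rfl fun x _ => Finset.sum_comm).trans
    (Finset.sum_comm.trans (Finset.sum_congr rfl fun a _ => ?_))
  refine (Finset.sum_congr rfl fun x _ => Finset.sum_comm).trans
    (Finset.sum_comm.trans (Finset.sum_congr rfl fun b _ => ?_))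
  refine Finset.sum_congr rfl fun x _ => Finset.sum_congr rfl fun y _ => ?_
  rw [mul_comm]

/-- The entries in `A` of a stage over the unitisation. -/
def sndStage {m : ℕ} (F : Blk (Unitization ℂ A) (P m) (Q m)) : Stage A m :=
  fun t => Matrix.of fun x y =>
    ((F : MPath (Unitization ℂ A) (Ix (P m) (Q m))) t x y).snd

theorem fst_entry {m : ℕ} (F : kerBlk (fstChar A) (P m) (Q m)) (t : unitInterval)
    (x y : Ix (P m) (Q m)) :
    (((F : Blk (Unitization ℂ A) (P m) (Q m)) :
      MPath (Unitization ℂ A) (Ix (P m) (Q m))) t x y).fst = 0 := by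
  have h := congrArg (fun G : Blk ℂ (P m) (Q m) => (G : MPath ℂ (Ix (P m) (Q m))) t x y)
    (mem_kerBlk.1 F.2)
  simpa [mapBlk_apply, mapM_apply, fstChar_apply] using h

theorem inr_sndStage {m : ℕ} (F : kerBlk (fstChar A) (P m) (Q m)) :
    (fun t => (sndStage (F : Blk (Unitization ℂ A) (P m) (Q m)) t).map
      ((↑) : A → Unitization ℂ A)) = ofBlk (F : Blk (Unitization ℂ A) (P m) (Q m)) :=
  funext fun t => Matrix.ext fun x y => inr_snd (fst_entry F t x y)

theorem inStage_sndStage {m : ℕ} (F : Blk (Unitization ℂ A) (P m) (Q m)) :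
    InStage m (sndStage F) := by
  obtain ⟨hc, ⟨a, ha⟩, b, hb⟩ := inStage_ofBlk F
  refine ⟨continuous_matrix fun i j =>
    Unitization.continuous_snd.comp (hc.matrix_elem i j),
    ⟨fun x y => (a x y).snd, fun x y => ?_⟩, ⟨fun x y => (b x y).snd, fun x y => ?_⟩⟩
  · show (ofBlk F 0 x y).snd = _
    rw [ha]; split_ifs <;> simp
  · show (ofBlk F 1 x y).snd = _
    rw [hb]; split_ifs <;> simp

theorem sndStage_add {m : ℕ} (F G : Blk (Unitization ℂ A) (P m) (Q m)) :
    sndStage (F + G) = sndStage F + sndStage G :=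
  funext fun _ => Matrix.ext fun _ _ => rfl

theorem sndStage_smul {m : ℕ} (c : ℂ) (F : Blk (Unitization ℂ A) (P m) (Q m)) :
    sndStage (c • F) = c • sndStage F :=
  funext fun _ => Matrix.ext fun _ _ => rfl

theorem sndStage_star {m : ℕ} (F : Blk (Unitization ℂ A) (P m) (Q m)) :
    sndStage (star F) = star (sndStage F) :=
  funext fun t => Matrix.ext fun x y => by
    simp [sndStage, StarMemClass.coe_star, ContinuousMap.star_apply, CStarMatrix.star_apply,
      Matrix.star_apply]

theorem sndStage_mul {m : ℕ} (F G : kerBlk (fstChar A) (P m) (Q m)) :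
    sndStage ((F : Blk (Unitization ℂ A) (P m) (Q m)) * (G : Blk (Unitization ℂ A) (P m) (Q m))) =
      sndStage (F : Blk (Unitization ℂ A) (P m) (Q m)) *
        sndStage (G : Blk (Unitization ℂ A) (P m) (Q m)) :=
  funext fun t => Matrix.ext fun x y => by
    refine Unitization.inr_injective (R := ℂ) ?_
    have h0 : (((((F : Blk (Unitization ℂ A) (P m) (Q m)) *
        (G : Blk (Unitization ℂ A) (P m) (Q m))) : Blk (Unitization ℂ A) (P m) (Q m)) :
          MPath (Unitization ℂ A) (Ix (P m) (Q m))) t x y).fst = 0 := fst_entry (F * G) t x y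
    simp only [sndStage, Matrix.of_apply, Pi.mul_apply, Matrix.mul_apply,
      ← Unitization.inrNonUnitalStarAlgHom_apply (R := ℂ) (A := A), map_sum, map_mul]
    simp only [Unitization.inrNonUnitalStarAlgHom_apply]
    refine (inr_snd h0).trans ?_
    rw [MulMemClass.coe_mul, ContinuousMap.mul_apply, CStarMatrix.mul_apply]
    exact Finset.sum_congr rfl fun z _ =>
      (congrArg₂ (· * ·) (inr_snd (fst_entry F t x z)) (inr_snd (fst_entry G t z y))).symm

instance kerBlk_isClosed {E : Type u} [CStarAlgebra E] (χ : E →⋆ₐ[ℂ] ℂ) (p q : ℕ) :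
    IsClosed (kerBlk χ p q : Set (Blk E p q)) :=
  isClosed_eq (map_continuous (mapBlk p q χ)) continuous_const

/-- The maps of a tensor limit on the kernels of the stages over the unitisation. -/
theorem exists_kerMaps (h : IsTensorLimit A frame) :
    ∃ φ : ∀ m, kerBlk (fstChar A) (P m) (Q m) →⋆ₙₐ[ℂ] Unitization ℂ A,
      (∀ m F, ‖φ m F‖ ≤ ‖(F : Blk (Unitization ℂ A) (P m) (Q m))‖) ∧
      (∀ m F, φ (m + 1) (kconn (fstChar A) m F) = φ m F) ∧
      ∀ x : Unitization ℂ A, fstChar A x = 0 → ∀ ε : ℝ, 0 < ε → ∃ m F, ‖x - φ m F‖ < ε := by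
  obtain ⟨-, ι, hops, hstep, hd⟩ := h
  have ops := fun m (F G : kerBlk (fstChar A) (P m) (Q m)) c =>
    hops m (sndStage (F : Blk (Unitization ℂ A) (P m) (Q m)))
      (sndStage (G : Blk (Unitization ℂ A) (P m) (Q m))) c
      (inStage_sndStage _) (inStage_sndStage _)
  let φ : ∀ m, kerBlk (fstChar A) (P m) (Q m) →⋆ₙₐ[ℂ] Unitization ℂ A := fun m =>
    { toFun := fun F =>
        (ι m (sndStage (F : Blk (Unitization ℂ A) (P m) (Q m))) : Unitization ℂ A)
      map_smul' := fun c F => by
        show ((ι m (sndStage (c • (F : Blk (Unitization ℂ A) (P m) (Q m)))) : A) :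
          Unitization ℂ A) = _
        rw [sndStage_smul, (ops m F F c).2.2.1, Unitization.inr_smul]
        rfl
      map_zero' := by
        have h2 : sndStage (0 : Blk (Unitization ℂ A) (P m) (Q m)) = 0 := rfl
        have := (ops m 0 0 0).1
        rw [show ((0 : kerBlk (fstChar A) (P m) (Q m)) : Blk (Unitization ℂ A) (P m) (Q m)) = 0
          from rfl, h2, add_zero] at this
        show ((ι m (sndStage (0 : Blk (Unitization ℂ A) (P m) (Q m))) : A) : Unitization ℂ A) = 0
        rw [h2, left_eq_add.1 this, Unitization.inr_zero]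
      map_add' := fun F G => by
        show ((ι m (sndStage ((F : Blk (Unitization ℂ A) (P m) (Q m)) + (G : Blk (Unitization ℂ A) (P m) (Q m)))) : A) :
          Unitization ℂ A) = _
        rw [sndStage_add, (ops m F G 1).1, Unitization.inr_add]
      map_mul' := fun F G => by
        show ((ι m (sndStage ((F : Blk (Unitization ℂ A) (P m) (Q m)) * (G : Blk (Unitization ℂ A) (P m) (Q m)))) : A) :
          Unitization ℂ A) = _
        rw [sndStage_mul, (ops m F G 1).2.1, Unitization.inr_mul]
      map_star' := fun F => by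
        show ((ι m (sndStage (star (F : Blk (Unitization ℂ A) (P m) (Q m)))) : A) :
          Unitization ℂ A) = _
        rw [sndStage_star, (ops m F F 1).2.2.2.1, Unitization.inr_star] }
  refine ⟨φ, fun m F => NonUnitalStarAlgHom.norm_apply_le (φ m) F, fun m F => ?_,
    fun x hx ε hε => ?_⟩
  · show ((ι (m + 1) _ : A) : Unitization ℂ A) = (ι m _ : A)
    rw [← hstep m _ (inStage_sndStage (F : Blk (Unitization ℂ A) (P m) (Q m)))]
    refine congrArg (fun f => ((ι (m + 1) f : A) : Unitization ℂ A)) ?_
    funext t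
    refine Matrix.ext fun i j => Unitization.inr_injective (R := ℂ) ?_
    rw [inr_stepMap, inr_sndStage, stepMap_eq _ (inStage_ofBlk _), toBlk_ofBlk]
    exact inr_snd (fst_entry (kconn (fstChar A) m F) t i j)
  · obtain ⟨m, f, hf, hdist⟩ := hd x.snd ε hε
    obtain ⟨hc, ⟨a, ha⟩, b, hb⟩ := hf
    have hE : InStage m (fun t => (f t).map ((↑) : A → Unitization ℂ A)) :=
      ⟨continuous_matrix fun i j => Unitization.continuous_inr.comp (hc.matrix_elem i j),
        ⟨fun x y => (a x y : Unitization ℂ A), fun x y => by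
          show ((f 0 x y : A) : Unitization ℂ A) = _
          rw [ha]; split_ifs <;> simp⟩,
        fun x y => (b x y : Unitization ℂ A), fun x y => by
          show ((f 1 x y : A) : Unitization ℂ A) = _
          rw [hb]; split_ifs <;> simp⟩
    refine ⟨m, ⟨toBlk _ hE, mem_kerBlk.2 (blk_ext fun t i j => ?_)⟩, ?_⟩
    · simp [mapBlk_apply, mapM_apply, toBlk_apply, fstChar_apply]
    · show ‖x - (ι m (sndStage (toBlk _ hE)) : A)‖ < ε
      rw [show sndStage (toBlk _ hE) = f from rfl]
      conv_lhs => rw [← inr_snd (x := x) hx, ← Unitization.inr_sub, Unitization.norm_inr]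
      exact hdist

end

end Vale.Agent.P095.NU.Maps
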