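import Vale.Agent.P095.Elem.Bridge

/-!
# P095, non-unital algebras: almost fixed lifts in norm

If finitely many elements of a quotient are fixed, then lifts of them, cut down by an almost fixed
element which is one in the quotient, are almost fixed in norm; so are products of exponentials.
-/

namespace Vale.Agent.P095.NU

open Vale.Agent.P095.Elem
open scoped CStarAlgebra ComplexOrder

noncomputable section

attribute [local instance] CStarAlgebra.spectralOrder CStarAlgebra.spectralOrderedRing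

variable {S F G : Type*} [CStarAlgebra S] [CStarAlgebra F] [Group G]

theorem norm_le_one_of_nonneg_le {a : S} (h0 : 0 ≤ a) (h1 : a ≤ 1) : ‖a‖ ≤ 1 := by
  refine Bridge.norm_le_one_of_between ?_ h1
  exact le_trans (neg_nonpos.2 zero_le_one) h0

/-- **Smearing.** Elements whose images in a quotient are fixed by `K` are almost fixed in norm
after cutting down by a positive contraction which is one in the quotient. -/
theorem exists_smear (β : G →* (S ≃⋆ₐ[ℂ] S)) (π : S →⋆ₐ[ℂ] F)
    (hker : ∀ g x, π x = 0 → π (β g x) = 0) {J : Type*} [Fintype J] (w : J → S) (K : Finset G)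
    (hfix : ∀ g ∈ K, ∀ j, π (β g (w j)) = π (w j)) {η : ℝ} (hη : 0 < η) :
    ∃ k : S, IsSelfAdjoint k ∧ ‖k‖ ≤ 1 ∧ π k = 1 ∧
      ∀ g ∈ K, ∀ j, ‖β g (k * w j * k) - k * w j * k‖ ≤ η := by
  classical
  set K' : Finset G := K ∪ K.image (·⁻¹) with hK'
  set c : G × J → S := fun p => β p.1 (w p.2) - w p.2 with hc
  set b : S := ∑ p ∈ K ×ˢ Finset.univ, star (c p) * c p with hb
  have hb0 : 0 ≤ b := Finset.sum_nonneg fun p _ => star_mul_self_nonneg _
  have hπb : π b = 0 := by
    rw [hb, map_sum]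
    refine Finset.sum_eq_zero fun p hp => ?_
    rw [map_mul, hc, map_sub π (β p.1 (w p.2)), hfix p.1 (Finset.mem_product.1 hp).1 p.2, sub_self,
      mul_zero]
  set M : ℝ := ∑ j, ‖w j‖ with hM
  have hwM : ∀ j, ‖w j‖ ≤ M := fun j =>
    Finset.single_le_sum (f := fun j => ‖w j‖) (fun j _ => norm_nonneg _) (Finset.mem_univ j)
  have hM0 : 0 ≤ M := Finset.sum_nonneg fun j _ => norm_nonneg _
  obtain ⟨L, hL⟩ := exists_nat_gt ((4 * M + 1) * (2 / η))
  have hLR : (0 : ℝ) < L := lt_of_le_of_lt (by positivity) hL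
  have hLpos : 0 < L := by exact_mod_cast hLR
  set s : ℝ := (η / 4) ^ 2
  have hs : 0 < s := by positivity
  set k := Bridge.keep β K' s L b with hk
  obtain ⟨hk0, hk1'⟩ := Bridge.keep_bounds β K' hs hLpos b
  have hk1 : ‖k‖ ≤ 1 := norm_le_one_of_nonneg_le hk0 hk1'
  refine ⟨k, IsSelfAdjoint.of_nonneg hk0, hk1, ?_, fun g hg j => ?_⟩
  · rw [hk, Bridge.keep, ← Complex.coe_smul, map_smul, map_sum]
    have hres : ∀ i, π (Bridge.res s (Bridge.ballSum β K' b i)) = 1 := by
      intro i
      have hsa := IsSelfAdjoint.of_nonneg (Bridge.ballSum_nonneg β K' hb0 i)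
      have h0 : π (Bridge.ballSum β K' b i) = 0 := by
        rw [Bridge.ballSum, map_sum]
        exact Finset.sum_eq_zero fun g' _ => hker g' b hπb
      rw [Bridge.res, StarAlgHomClass.map_cfc π _ _ (Bridge.res_continuous hs).continuousOn
        (map_continuous π) hsa (hsa.map π), h0, cfc_apply_zero, max_self, add_zero, div_self hs.ne',
        map_one]
    rw [Finset.sum_congr rfl fun i _ => hres i, Finset.sum_const, Finset.card_range,
      ← Nat.cast_smul_eq_nsmul ℂ, smul_smul]
    push_cast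
    rw [inv_mul_cancel₀ (by exact_mod_cast hLpos.ne'), one_smul]
  · have hgK : g ∈ K' := Finset.mem_union_left _ hg
    have hgK' : g⁻¹ ∈ K' := Finset.mem_union_right _ (Finset.mem_image_of_mem _ hg)
    have hkk : ‖β g k - k‖ ≤ (L : ℝ)⁻¹ := Bridge.norm_hom_keep_sub_le β hs L hb0 hgK hgK'
    have hck : ‖c (g, j) * k‖ ≤ η / 4 := by
      refine (Bridge.norm_mul_keep_le β K' hs hLpos hb0 ?_).trans
        (le_of_eq (Real.sqrt_sq (by positivity)))
      exact Finset.single_le_sum (f := fun p => star (c p) * c p)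
        (fun p _ => star_mul_self_nonneg _) (Finset.mk_mem_product hg (Finset.mem_univ j))
    have hβw : ‖β g (w j)‖ ≤ ‖w j‖ :=
      NonUnitalStarAlgHom.norm_apply_le ((β g : S →⋆ₐ[ℂ] S)) _
    have hβk : ‖β g k‖ ≤ 1 :=
      (NonUnitalStarAlgHom.norm_apply_le ((β g : S →⋆ₐ[ℂ] S)) _).trans hk1
    have e : β g (k * w j * k) - k * w j * k = (β g k - k) * (β g (w j) * β g k) +
        k * (c (g, j) * k) + k * (β g (w j) * (β g k - k)) := by
      simp only [map_mul, hc]
      noncomm_ring
    rw [e]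
    have n1 : ‖(β g k - k) * (β g (w j) * β g k)‖ ≤ (L : ℝ)⁻¹ * M := by
      refine (norm_mul_le _ _).trans (mul_le_mul hkk ?_ (norm_nonneg _) (by positivity))
      exact (norm_mul_le _ _).trans ((mul_le_of_le_one_right (norm_nonneg _) hβk).trans
        (hβw.trans (hwM j)))
    have n2 : ‖k * (c (g, j) * k)‖ ≤ η / 4 :=
      (norm_mul_le _ _).trans ((mul_le_of_le_one_left (norm_nonneg _) hk1).trans hck)
    have n3 : ‖k * (β g (w j) * (β g k - k))‖ ≤ (L : ℝ)⁻¹ * M := by
      refine (norm_mul_le _ _).trans ((mul_le_of_le_one_left (norm_nonneg _) hk1).trans ?_)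
      rw [mul_comm _ M]
      exact (norm_mul_le _ _).trans (mul_le_mul (hβw.trans (hwM j)) hkk (norm_nonneg _) hM0)
    refine (norm_add₃_le).trans ?_
    have : (L : ℝ)⁻¹ * M ≤ η / 8 := by
      rw [inv_mul_le_iff₀ hLR]
      have h2 : (4 * M + 1) * 2 < (L : ℝ) * η := by
        rw [← div_lt_iff₀ hη]; linarith [hL, mul_div_assoc (4 * M + 1) 2 η]
      linarith
    linarith

/-- Smeared lifts of fixed self-adjoint elements. -/
theorem exists_almostFixed_lift (β : G →* (S ≃⋆ₐ[ℂ] S)) (π : S →⋆ₐ[ℂ] F)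
    (hker : ∀ g x, π x = 0 → π (β g x) = 0) {J : Type*} [Fintype J] (w : J → S)
    (hw : ∀ j, IsSelfAdjoint (w j)) (K : Finset G)
    (hfix : ∀ g ∈ K, ∀ j, π (β g (w j)) = π (w j)) {η : ℝ} (hη : 0 < η) :
    ∃ v : J → S, (∀ j, IsSelfAdjoint (v j)) ∧ (∀ j, π (v j) = π (w j)) ∧
      (∀ j, ‖v j‖ ≤ ‖w j‖) ∧ ∀ g ∈ K, ∀ j, ‖β g (v j) - v j‖ ≤ η := by
  obtain ⟨k, hk, hk1, hπ, hfin⟩ := exists_smear β π hker w K hfix hη
  refine ⟨fun j => k * w j * k, fun j => ?_, fun j => by simp [hπ], fun j => ?_, hfin⟩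
  · have := (hw j).conjugate k
    rwa [hk.star_eq] at this
  · exact (norm_mul₃_le).trans ((mul_le_of_le_one_right (by positivity) hk1).trans
      (mul_le_of_le_one_left (norm_nonneg _) hk1))

theorem norm_exp_I_le_one {a : S} (ha : IsSelfAdjoint a) :
    ‖NormedSpace.exp (Complex.I • a)‖ ≤ 1 := by
  rcases subsingleton_or_nontrivial S with hS | hS
  · simp [Subsingleton.elim (NormedSpace.exp (Complex.I • a)) 0]
  · exact (CStarRing.norm_of_mem_unitary (selfAdjoint.expUnitary ⟨a, ha⟩).2).le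

/-- The exponential is `1`-Lipschitz on self-adjoint elements. -/
theorem norm_exp_I_sub_le {a b : S} (ha : IsSelfAdjoint a) (hb : IsSelfAdjoint b) :
    ‖NormedSpace.exp (Complex.I • a) - NormedSpace.exp (Complex.I • b)‖ ≤ ‖a - b‖ := by
  let +nondep : NormedAlgebra ℚ S := NormedAlgebra.restrictScalars ℚ ℂ S
  set x := Complex.I • a with hx
  set y := Complex.I • b with hy
  set f : ℝ → S := fun t => NormedSpace.exp (t • x) * NormedSpace.exp ((1 - t) • y) with hf
  have hder : ∀ t ∈ Set.Icc (0 : ℝ) 1, HasDerivWithinAt f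
      (NormedSpace.exp (t • x) * (x - y) * NormedSpace.exp ((1 - t) • y)) (Set.Icc (0 : ℝ) 1) t := by
    intro t _
    have h1 := hasDerivAt_exp_smul_const x t
    have h2 := (hasDerivAt_exp_smul_const' y (1 - t)).scomp t ((hasDerivAt_id t).const_sub 1)
    refine ((h1.mul h2).congr_deriv ?_).hasDerivWithinAt
    simp only [neg_smul, one_smul, mul_neg, Function.comp_apply]
    noncomm_ring
  have hn : ∀ (t : ℝ) (z : S), IsSelfAdjoint z → ‖NormedSpace.exp (t • Complex.I • z)‖ ≤ 1 :=
    fun t z hz => by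
      rw [smul_comm]; exact norm_exp_I_le_one ((IsSelfAdjoint.all t).smul hz)
  have hbound : ∀ t ∈ Set.Ico (0 : ℝ) 1,
      ‖NormedSpace.exp (t • x) * (x - y) * NormedSpace.exp ((1 - t) • y)‖ ≤ ‖a - b‖ := by
    intro t _
    refine (norm_mul_le _ _).trans ((mul_le_of_le_one_right (norm_nonneg _) (hn _ b hb)).trans
      ((norm_mul_le _ _).trans ((mul_le_of_le_one_left (norm_nonneg _) (hn _ a ha)).trans ?_)))
    rw [hx, hy, ← smul_sub, norm_smul, Complex.norm_I, one_mul]
  simpa [hf] using norm_image_sub_le_of_norm_deriv_le_segment_01' hder hbound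

/-- An almost fixed list gives an almost fixed product of exponentials. -/
theorem norm_map_prod_exp_sub_le (ψ : S →⋆ₐ[ℂ] S) (l : List S) (hl : ∀ h ∈ l, IsSelfAdjoint h)
    {η : ℝ} (hη : ∀ h ∈ l, ‖ψ h - h‖ ≤ η) :
    ‖ψ ((l.map fun h => NormedSpace.exp (Complex.I • h)).prod) -
      (l.map fun h => NormedSpace.exp (Complex.I • h)).prod‖ ≤ l.length * η ∧
      ‖(l.map fun h => NormedSpace.exp (Complex.I • h)).prod‖ ≤ 1 := by
  induction l with
  | nil =>
    rcases subsingleton_or_nontrivial S with hS | hS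
    · simp [Subsingleton.elim (1 : S) 0]
    · simp
  | cons h l ih =>
    obtain ⟨ih1, ih2⟩ := ih (fun x hx => hl x (List.mem_cons_of_mem _ hx))
      (fun x hx => hη x (List.mem_cons_of_mem _ hx))
    have hsa := hl h List.mem_cons_self
    set E := NormedSpace.exp (Complex.I • h) with hE
    set Q := (l.map fun h => NormedSpace.exp (Complex.I • h)).prod with hQ
    have hEn : ‖E‖ ≤ 1 := norm_exp_I_le_one hsa
    have he : ψ E = NormedSpace.exp (Complex.I • ψ h) := by
      let +nondep : NormedAlgebra ℚ S := NormedAlgebra.restrictScalars ℚ ℂ S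
      rw [hE, ← map_smul]
      exact NormedSpace.map_exp ψ (map_continuous ψ) _
    refine ⟨?_, ?_⟩
    · rw [List.map_cons, List.prod_cons, map_mul, List.length_cons,
        show ψ E * ψ Q - E * Q = (ψ E - E) * ψ Q + E * (ψ Q - Q) by noncomm_ring]
      refine (norm_add_le _ _).trans ?_
      have n1 : ‖(ψ E - E) * ψ Q‖ ≤ η := by
        refine (norm_mul_le _ _).trans ((mul_le_of_le_one_right (norm_nonneg _)
          ((NonUnitalStarAlgHom.norm_apply_le ψ Q).trans ih2)).trans ?_)
        rw [he, hE]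
        exact (norm_exp_I_sub_le (hsa.map ψ) hsa).trans (hη h List.mem_cons_self)
      have n2 : ‖E * (ψ Q - Q)‖ ≤ l.length * η :=
        (norm_mul_le _ _).trans ((mul_le_of_le_one_left (norm_nonneg _) hEn).trans ih1)
      push_cast
      linarith
    · rw [List.map_cons, List.prod_cons]
      exact (norm_mul_le _ _).trans (mul_le_one₀ hEn (norm_nonneg _) ih2)

/-- **Exponential lift.** A product of exponentials of fixed self-adjoint elements of a quotient
lifts to an almost fixed product of exponentials. -/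
theorem exists_exp_lift (β : G →* (S ≃⋆ₐ[ℂ] S)) (π : S →⋆ₐ[ℂ] F) (hπ : Function.Surjective π)
    (hker : ∀ g x, π x = 0 → π (β g x) = 0) (K : Finset G) (l : List F)
    (hl : ∀ h ∈ l, IsSelfAdjoint h)
    (hfix : ∀ g ∈ K, ∀ x, π x ∈ l → π (β g x) = π x) {η : ℝ} (hη : 0 < η) :
    ∃ u : unitary S, π u = (l.map fun h => NormedSpace.exp (Complex.I • h)).prod ∧
      ∀ g ∈ K, ‖β g (u : S) - u‖ ≤ η := by
  classical
  choose p hp using hπ
  let w : Fin l.length → S := fun j => (1 / 2 : ℂ) • (p (l.get j) + star (p (l.get j)))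
  have hwsa : ∀ j, IsSelfAdjoint (w j) := fun j => by
    simp [IsSelfAdjoint, w, star_smul, add_comm]
  have hπw : ∀ j, π (w j) = l.get j := fun j => by
    simp only [w, map_smul, map_add, map_star, hp, (hl _ (l.get_mem j)).star_eq]
    rw [← two_smul ℂ, smul_smul]; norm_num
  obtain ⟨v, hv, hπv, -, hvfix⟩ := exists_almostFixed_lift β π hker w hwsa K
    (fun g hg j => hfix g hg _ (by rw [hπw]; exact l.get_mem j))
    (show 0 < η / (l.length + 1) by positivity)
  set E : S → unitary S := fun x =>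
    if hx : IsSelfAdjoint x then selfAdjoint.expUnitary ⟨x, hx⟩ else 1 with hE
  refine ⟨((List.ofFn v).map E).prod, ?_, fun g hg => ?_⟩ <;>
    have hcoe : ((((List.ofFn v).map E).prod : unitary S) : S) =
      ((List.ofFn v).map fun h => NormedSpace.exp (Complex.I • h)).prod := by
      rw [← Submonoid.coe_subtype (unitary S), map_list_prod, List.map_map]
      congr 1
      refine List.map_congr_left fun x hx => ?_
      obtain ⟨j, rfl⟩ := List.mem_ofFn.1 hx
      simp [hE, hv j]
  · let +nondep : NormedAlgebra ℚ S := NormedAlgebra.restrictScalars ℚ ℂ S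
    let +nondep : NormedAlgebra ℚ F := NormedAlgebra.restrictScalars ℚ ℂ F
    rw [hcoe, map_list_prod, List.map_map]
    conv_rhs => rw [← List.ofFn_get l]
    rw [List.map_ofFn, List.map_ofFn]
    congr 2; funext j
    simp only [Function.comp_apply, NormedSpace.map_exp π (map_continuous π), map_smul, hπv, hπw]
  · rw [hcoe]
    refine ((norm_map_prod_exp_sub_le (β g : S →⋆ₐ[ℂ] S) (List.ofFn v)
      (η := η / (l.length + 1)) (fun h hh => ?_) fun h hh => ?_).1).trans ?_
    · obtain ⟨j, rfl⟩ := List.mem_ofFn.1 hh; exact hv j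
    · obtain ⟨j, rfl⟩ := List.mem_ofFn.1 hh; exact hvfix g hg j
    · rw [List.length_ofFn, mul_div_assoc', div_le_iff₀ (by positivity)]
      nlinarith

end

end Vale.Agent.P095.NU
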