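import Mathlib
import Vale.Agent.P095.Spec

/-!
# P095: absorption of the trivial action on the Jiang–Su algebra, without assuming a unit

`A` is a C⋆-algebra which need not be unital. The stages `Z_{p_m,q_m} ⊗ A` are the continuous paths
in `M_p ⊗ M_q ⊗ A` with ends in `M_p ⊗ 1 ⊗ A` and `1 ⊗ M_q ⊗ A` (`InStage`), as in the unital case.
Cocycles take their values in the unitary group of the unitization `Unitization ℂ A`, which acts as
multipliers of `A`.
-/

namespace Vale.Agent.P095.NU

open Vale.Agent.P101.JS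

noncomputable section

variable {A : Type*} [NonUnitalCStarAlgebra A]

/-- The connecting map `f ↦ W_t diag(f (eigen j t)) W_t^*`, entry by entry. -/
def stepMap (m : ℕ) (W : Frame m) (f : Stage A m) : Stage A (m + 1) := fun t i j =>
  ∑ k, ∑ x, ∑ y, (W t i (x, k) * star (W t j (y, k))) • f (eigen m k t) x y

/-- The maps `ι m` are injective *-homomorphisms of the stages into `A`, compatible with the
connecting maps and with dense union of images. -/
def IsLimitMaps (W : ∀ m, Frame m) (ι : ∀ m, Stage A m → A) : Prop :=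
  (∀ m (f g : Stage A m) (c : ℂ), InStage m f → InStage m g →
    ι m (f + g) = ι m f + ι m g ∧ ι m (f * g) = ι m f * ι m g ∧
    ι m (c • f) = c • ι m f ∧ ι m (star f) = star (ι m f) ∧ (ι m f = ι m g → f = g)) ∧
  (∀ m (f : Stage A m), InStage m f → ι (m + 1) (stepMap m (W m) f) = ι m f) ∧
  ∀ (x : A) (ε : ℝ), 0 < ε → ∃ m f, InStage m f ∧ ‖x - ι m f‖ < ε

variable (A) in
/-- `A` is the inductive limit of the `Z_{p_m,q_m} ⊗ A` along `W`: `A` is isomorphic to `A ⊗ Z`. -/
def IsTensorLimit (W : ∀ m, Frame m) : Prop :=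
  (∀ m (f : Stage A m), InStage m f → InStage (m + 1) (stepMap m (W m) f)) ∧
  ∃ ι : ∀ m, Stage A m → A, IsLimitMaps W ι

/-- `α` is an action of `G` on `A` by *-automorphisms. -/
def IsAction {G : Type*} [Group G] (α : G → A → A) : Prop :=
  (∀ a, α 1 a = a) ∧ (∀ g h a, α (g * h) a = α g (α h a)) ∧
  ∀ g a b (c : ℂ), α g (a + b) = α g a + α g b ∧ α g (a * b) = α g a * α g b ∧
    α g (c • a) = c • α g a ∧ α g (star a) = star (α g a)

/-- A map of `A` extended to the unitization, fixing the scalars. -/
def extend (e : A → A) (x : Unitization ℂ A) : Unitization ℂ A :=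
  Unitization.inl x.fst + (e x.snd : Unitization ℂ A)

variable (A) in
/-- `A` is the inductive limit of the `Z_{p_m,q_m} ⊗ A` along `W`, by maps `ι m` carrying the action
`id ⊗ α g` of the stages to `Ad (u g) ∘ α g` for a unitary cocycle `u` with values in the
unitization. So `α` is cocycle conjugate to `α ⊗ id` on `A ⊗ Z`. -/
def IsEquivariantTensorLimit {G : Type*} [Group G] (α : G → A → A) (W : ∀ m, Frame m) : Prop :=
  (∀ m (f : Stage A m), InStage m f → InStage (m + 1) (stepMap m (W m) f)) ∧
  ∃ (ι : ∀ m, Stage A m → A) (u : G → Unitization ℂ A), IsLimitMaps W ι ∧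
    (∀ g, star (u g) * u g = 1 ∧ u g * star (u g) = 1) ∧
    (∀ g h, u (g * h) = u g * extend (α g) (u h)) ∧
    ∀ g m (f : Stage A m), InStage m f →
      (ι m (mapStage (α g) f) : Unitization ℂ A) =
        u g * (α g (ι m f) : Unitization ℂ A) * star (u g)

end

end Vale.Agent.P095.NU
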