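import Vale.Agent.P095.Gen.Main
import Vale.Agent.P095.NU.Quot

/-!
# P095, non-unital algebras: the interface between the central sequences and the intertwining
-/

namespace Vale.Agent.P095.NU

open VAgent.P101 Vale.Agent.P101.JS Vale.Agent.P095
open scoped ComplexOrder CStarAlgebra

noncomputable section

universe u v

/-- One stage for `E` with the invariant character `χ`: a unitary with trivial character part,
almost commuting with `F`, almost fixed by `K` and moving combinations with coefficients in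
`ker χ` close to constants. -/
def StageStatement {E : Type u} [CStarAlgebra E] [PartialOrder E] [StarOrderedRing E]
    (χ : E →⋆ₐ[ℂ] ℂ) {G : Type v} [Group G] (β : G →* (E ≃⋆ₐ[ℂ] E)) : Prop :=
  ∀ (K : Finset G) (F : Finset E) (n : ℕ) (ι : Type u) [Fintype ι] (L : ι → ℕ)
    (a : ∀ k, Fin (L k) → E), (∀ k i, χ (a k i) = 0) →
    ∀ (g : ∀ k, Fin (L k) → Blk ℂ (P n) (Q n)) (ε : ℝ), 0 < ε →
    ∃ (d : ℕ) (u : Blk E (P (n + d)) (Q (n + d))), star u * u = 1 ∧ u * star u = 1 ∧
      mapBlk (P (n + d)) (Q (n + d)) χ u = 1 ∧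
      (∀ x ∈ F, ‖u * const E (P (n + d)) (Q (n + d)) x
        - const E (P (n + d)) (Q (n + d)) x * u‖ ≤ ε) ∧
      (∀ h ∈ K, ‖mapBlk (P (n + d)) (Q (n + d)) (β h : E →⋆ₐ[ℂ] E) u - u‖ ≤ ε) ∧
      ∀ k, ∃ b : E,
        ‖star u * connTo E n d (∑ i, const E (P n) (Q n) (a k i) * scBlk E (P n) (Q n) (g k i)) * u
          - const E (P (n + d)) (Q (n + d)) b‖ ≤ ε

end

end Vale.Agent.P095.NU
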