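import Vale.Agent.P095.NU.Maps
import Vale.Agent.P095.NU.StageDefs

/-!
# P095, non-unital algebras: the intertwining inside the scalar-plus-kernel part of `E ⊗ Z`

`E` has an invariant character `χ`. The elements of `E ⊗ Z` whose image under `χ ⊗ id` is scalar
form an invariant C⋆-subalgebra; the intertwining runs inside it.
-/

namespace Vale.Agent.P095.NU

open VAgent.P101 Vale.Agent.P101.JS Vale.Agent.P095 TopologicalSpace
open scoped ComplexOrder CStarAlgebra Topology

noncomputable section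

universe u v

variable {E : Type u} [CStarAlgebra E] [PartialOrder E] [StarOrderedRing E] [Nontrivial E]
  (χ : E →⋆ₐ[ℂ] ℂ)

/-- The scalar part of an element. -/
def scalarPart : E →⋆ₐ[ℂ] E := (StarAlgHom.ofId ℂ E).comp χ

theorem scalarPart_apply (a : E) : scalarPart χ a = algebraMap ℂ E (χ a) := rfl

/-- The scalar part on `E ⊗ Z`. -/
def zScalar : ZLim E →⋆ₐ[ℂ] ZLim E :=
  limMap (f := fun m => conn E m) (ψ := fun m => mapBlk (P m) (Q m) (scalarPart χ))
    fun m x => (Vale.Agent.P101.JS.conn_natural m (scalarPart χ) x).symm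

theorem zScalar_incl (n : ℕ) (x : Blk E (P n) (Q n)) :
    zScalar χ (incl (fun m => conn E m) n x) =
      incl (fun m => conn E m) n (mapBlk (P n) (Q n) (scalarPart χ) x) :=
  limMap_incl (f := fun m => conn E m) (ψ := fun m => mapBlk (P m) (Q m) (scalarPart χ))
    (fun m x => (Vale.Agent.P101.JS.conn_natural m (scalarPart χ) x).symm) n x

/-- The elements with scalar image under `χ ⊗ id`. -/
def zKer : StarSubalgebra ℂ (ZLim E) where
  carrier := {y | zScalar χ y ∈ Set.range (algebraMap ℂ (ZLim E))}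
  mul_mem' := fun {x y} ⟨r, hr⟩ ⟨s, hs⟩ => ⟨r * s, by rw [map_mul, map_mul, hr, hs]⟩
  one_mem' := ⟨1, by rw [map_one, map_one]⟩
  add_mem' := fun {x y} ⟨r, hr⟩ ⟨s, hs⟩ => ⟨r + s, by rw [map_add, map_add, hr, hs]⟩
  zero_mem' := ⟨0, by rw [map_zero, map_zero]⟩
  algebraMap_mem' r := ⟨r, (AlgHomClass.commutes (zScalar χ) r).symm⟩
  star_mem' := fun {x} ⟨r, hr⟩ => ⟨star r, by rw [algebraMap_star_comm, hr, map_star]⟩

theorem mem_zKer {y : ZLim E} :
    y ∈ zKer χ ↔ ∃ r, algebraMap ℂ (ZLim E) r = zScalar χ y := Iff.rfl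

instance zKer_isClosed : IsClosed (zKer χ : Set (ZLim E)) :=
  haveI : Nontrivial (ZLim E) := (toZLim_injective (A := E)).nontrivial
  (algebraMap_isometry ℂ (ZLim E)).isClosedEmbedding.isClosed_range.preimage
    (map_continuous (zScalar χ))

theorem toZLim_mem (a : E) : toZLim E a ∈ zKer χ := by
  refine (mem_zKer χ).2 ⟨χ a, ?_⟩
  rw [toZLim_apply a 0, zScalar_incl, Vale.Agent.P101.JS.mapBlk_const, scalarPart_apply,
    AlgHomClass.commutes (const E (P 0) (Q 0)), AlgHomClass.commutes (incl (fun m => conn E m) 0)]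

theorem mapBlk_scalarPart {p q : ℕ} (x : Blk E p q) :
    mapBlk p q (scalarPart χ) x = scBlk E p q (mapBlk p q χ x) := by
  refine Subtype.ext (ContinuousMap.ext fun t => CStarMatrix.ext fun i j => ?_)
  simp [scBlk, mapBlk_apply, mapM_apply, scalarPart_apply]

theorem incl_mem {n : ℕ} {x : Blk E (P n) (Q n)} (hx : mapBlk (P n) (Q n) χ x = 0) :
    incl (fun m => conn E m) n x ∈ zKer χ := by
  refine (mem_zKer χ).2 ⟨0, ?_⟩
  rw [zScalar_incl, mapBlk_scalarPart, hx, map_zero, map_zero, map_zero]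

theorem conj_sub_scalar {R : Type*} [CStarAlgebra R] (w b : R) (r : ℂ) (z c : R)
    (hw : star w * w = 1) (hz : z = algebraMap ℂ R r + c) :
    star w * b * w - z = star w * (b - algebraMap ℂ R r) * w - c := by
  rw [hz, mul_sub, sub_mul, ← Algebra.commutes r (star w), mul_assoc (algebraMap ℂ R r), hw,
    mul_one]
  abel

/-- Near a pure sum, an element of `zKer` is a scalar plus the sum without its scalar part. -/
theorem near_sub_scalarPart {n : ℕ} {b : ZLim E} {r : ℂ}
    (hr : algebraMap ℂ (ZLim E) r = zScalar χ b) {S : Blk E (P n) (Q n)} {δ : ℝ}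
    (h : ‖b - incl (fun m => conn E m) n S‖ ≤ δ) :
    ‖(b - algebraMap ℂ (ZLim E) r) -
      incl (fun m => conn E m) n (S - mapBlk (P n) (Q n) (scalarPart χ) S)‖ ≤ 2 * δ := by
  have e : (b - algebraMap ℂ (ZLim E) r) -
      incl (fun m => conn E m) n (S - mapBlk (P n) (Q n) (scalarPart χ) S) =
      (b - incl (fun m => conn E m) n S) - zScalar χ (b - incl (fun m => conn E m) n S) := by
    rw [map_sub (zScalar χ), ← hr, map_sub (incl (fun m => conn E m) n), zScalar_incl]
    abel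
  rw [e]
  refine (norm_sub_le _ _).trans ?_
  have := NonUnitalStarAlgHom.norm_apply_le (zScalar χ) (b - incl (fun m => conn E m) n S)
  linarith

theorem sum_sub_scalar {n L : ℕ} (a : Fin L → E) (g : Fin L → Blk ℂ (P n) (Q n)) :
    ∑ i, const E (P n) (Q n) (a i - algebraMap ℂ E (χ (a i))) * scBlk E (P n) (Q n) (g i) =
      (∑ i, const E (P n) (Q n) (a i) * scBlk E (P n) (Q n) (g i)) -
        mapBlk (P n) (Q n) (scalarPart χ)
          (∑ i, const E (P n) (Q n) (a i) * scBlk E (P n) (Q n) (g i)) := by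
  simp only [map_sum, map_mul, map_sub, sub_mul, Finset.sum_sub_distrib,
    Vale.Agent.P101.JS.mapBlk_const, Vale.Agent.P101.JS.mapBlk_scBlk, scalarPart_apply]

/-- One element moved near a constant. -/
theorem exists_move {n d L : ℕ} {u : Blk E (P (n + d)) (Q (n + d))} (hu1 : star u * u = 1)
    (hu2 : u * star u = 1) {b : ZLim E} {r : ℂ} (hr : algebraMap ℂ (ZLim E) r = zScalar χ b)
    {x : Blk E (P n) (Q n)} {a : Fin L → E} {g : Fin L → Blk ℂ (P n) (Q n)} {δ₁ δ₂ κ ε : ℝ}
    (hx : ‖b - incl (fun m => conn E m) n x‖ ≤ δ₁)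
    (hg : ‖x - ∑ i, const E (P n) (Q n) (a i) * scBlk E (P n) (Q n) (g i)‖ ≤ δ₂)
    (hb : ∃ c : E, ‖star u * connTo E n d (∑ i, const E (P n) (Q n)
        (a i - algebraMap ℂ E (χ (a i))) * scBlk E (P n) (Q n) (g i)) * u -
          const E (P (n + d)) (Q (n + d)) c‖ ≤ κ)
    (hε : 2 * (δ₁ + δ₂) + κ ≤ ε) :
    ∃ c : E, ‖star (incl (fun m => conn E m) (n + d) u) * b *
      incl (fun m => conn E m) (n + d) u - toZLim E c‖ ≤ ε := by
  obtain ⟨c, hc⟩ := hb
  obtain ⟨w1, -⟩ := incl_unitary (fun m => conn E m) hu1 hu2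
  have h2 := near_sub_scalarPart χ hr (near_incl (fun m => conn E m) hx hg)
  rw [← sum_sub_scalar χ, ← incl_connTo n _ d] at h2
  refine ⟨algebraMap ℂ E r + c, le_trans (le_of_eq (congrArg norm (conj_sub_scalar _ _ r _
    (incl (fun m => conn E m) (n + d) (const E (P (n + d)) (Q (n + d)) c)) w1 ?_)))
    ((near_conj (fun m => conn E m) hu1 hu2 h2 hc).trans hε)⟩
  rw [map_add, AlgHomClass.commutes (toZLim E), toZLim_apply c (n + d)]

variable {G : Type v} [Group G] (β : G →* (E ≃⋆ₐ[ℂ] E)) (hβ : ∀ g a, χ (β g a) = χ a)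

include hβ

theorem zScalar_zAct (g : G) (y : ZLim E) :
    zScalar χ (zAct (β g) y) = zAct (β g) (zScalar χ y) := by
  have key : ∀ n (x : Blk E (P n) (Q n)),
      mapBlk (P n) (Q n) (scalarPart χ) (mapBlk (P n) (Q n) (β g : E →⋆ₐ[ℂ] E) x) =
        mapBlk (P n) (Q n) (β g : E →⋆ₐ[ℂ] E) (mapBlk (P n) (Q n) (scalarPart χ) x) := by
    intro n x
    refine Subtype.ext (ContinuousMap.ext fun t => CStarMatrix.ext fun i j => ?_)
    simp only [mapBlk_apply, mapM_apply, scalarPart_apply]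
    exact ((congrArg (algebraMap ℂ E) (hβ g _)).trans
      (AlgHomClass.commutes (β g : E →⋆ₐ[ℂ] E) _).symm)
  refine eq_of_norm_sub_le_zero (le_of_forall_pos_le_add fun ε hε => ?_)
  obtain ⟨n, x, hx⟩ := exists_incl_near (fun m => conn E m) y (half_pos hε)
  have e : zScalar χ (zAct (β g) (incl (fun m => conn E m) n x)) =
      zAct (β g) (zScalar χ (incl (fun m => conn E m) n x)) := by
    rw [zAct_incl, zScalar_incl, zScalar_incl, zAct_incl, key]
  have e2 : zScalar χ (zAct (β g) y) - zAct (β g) (zScalar χ y) =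
      zScalar χ (zAct (β g) (y - incl (fun m => conn E m) n x)) -
        zAct (β g) (zScalar χ (y - incl (fun m => conn E m) n x)) := by
    simp only [map_sub, e]; abel
  rw [e2, zero_add]
  refine (norm_sub_le _ _).trans ?_
  have h1 := ((NonUnitalStarAlgHom.norm_apply_le (zScalar χ) _).trans
    (NonUnitalStarAlgHom.norm_apply_le (zAct (β g)) (y - incl (fun m => conn E m) n x)))
  have h2 := ((NonUnitalStarAlgHom.norm_apply_le (zAct (β g)) _).trans
    (NonUnitalStarAlgHom.norm_apply_le (zScalar χ) (y - incl (fun m => conn E m) n x)))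
  linarith

theorem zAct_mem (g : G) {y : ZLim E} (hy : y ∈ zKer χ) : zAct (β g) y ∈ zKer χ := by
  obtain ⟨r, hr⟩ := (mem_zKer χ).1 hy
  exact (mem_zKer χ).2 ⟨r, by rw [zScalar_zAct χ β hβ, ← hr, AlgHomClass.commutes]⟩

omit hβ in
/-- The approximate hypothesis of the intertwining. -/
theorem exists_unitary_zKer (hstage : StageStatement χ β) (K : Finset G) (F : Finset E)
    (X : Finset (zKer χ)) (ε : ℝ) (hε : 0 < ε) :
    ∃ u : zKer χ, star u * u = 1 ∧ u * star u = 1 ∧
      (∀ a ∈ F, ‖(u : ZLim E) * toZLim E a - toZLim E a * u‖ ≤ ε) ∧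
      (∀ h ∈ K, ‖zAct (β h) (u : ZLim E) - u‖ ≤ ε) ∧
      ∀ b ∈ X, ∃ a : E, ‖star (u : ZLim E) * b * u - toZLim E a‖ ≤ ε := by
  classical
  obtain ⟨n, hn⟩ := exists_common (fun m => conn E m) (X.image Subtype.val)
    (ε := ε / 16) (by positivity)
  choose x hx using fun b : X => hn _ (Finset.mem_image_of_mem _ b.2)
  choose L a g hg using fun b : X => density E (P n) (Q n) (x b) (ε / 16) (by positivity)
  have ha' : ∀ b i, χ (a b i - algebraMap ℂ E (χ (a b i))) = 0 := fun b i => by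
    rw [map_sub, AlgHomClass.commutes, Algebra.algebraMap_self_apply, sub_self]
  obtain ⟨d, u, hu1, hu2, hu3, huF, hui, huG⟩ := hstage K F n X L
    (fun b i => a b i - algebraMap ℂ E (χ (a b i))) ha' g (ε / 4) (by positivity)
  have huB : incl (fun m => conn E m) (n + d) u ∈ zKer χ := by
    refine (mem_zKer χ).2 ⟨1, ?_⟩
    rw [zScalar_incl, mapBlk_scalarPart, hu3, map_one, map_one, map_one]
  obtain ⟨w1, w2⟩ := incl_unitary (fun m => conn E m) hu1 hu2
  refine ⟨⟨_, huB⟩, Subtype.ext w1, Subtype.ext w2, fun y hy => ?_, fun h hh => ?_, fun b hb => ?_⟩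
  · show ‖incl (fun m => conn E m) (n + d) u * _ - _ * incl (fun m => conn E m) (n + d) u‖ ≤ ε
    rw [toZLim_apply y (n + d)]
    exact norm_comm_incl (fun m => conn E m) ((huF y hy).trans (by linarith))
  · show ‖zAct (β h) (incl (fun m => conn E m) (n + d) u) - _‖ ≤ ε
    rw [zAct_incl, ← map_sub]
    exact ((norm_incl_le _ _ _).trans (hui h hh)).trans (by linarith)
  obtain ⟨r, hr⟩ := (mem_zKer χ).1 b.2
  exact exists_move χ hu1 hu2 hr (hx ⟨b, hb⟩).le (hg ⟨b, hb⟩) (huG ⟨b, hb⟩) (by linarith)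

end

end Vale.Agent.P095.NU
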